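import Mathlib

/-!
# Dirichlet energy of a logarithmic cut-off
-/

open Finset

namespace Vale.Agent.P148.R2.H320

/-- Logarithmic cut-off: `0` up to `l`, `1` from `2 ^ J * l` on. -/
noncomputable def lcut (l : ℝ) (J : ℕ) (r : ℝ) : ℝ :=
  max 0 (min 1 (Real.log (r / l) / (J * Real.log 2)))

theorem lcut_nonneg (l : ℝ) (J : ℕ) (r : ℝ) : 0 ≤ lcut l J r := le_max_left _ _

theorem lcut_le_one (l : ℝ) (J : ℕ) (r : ℝ) : lcut l J r ≤ 1 :=
  max_le zero_le_one (min_le_left _ _)

theorem lcut_zero {l : ℝ} (J : ℕ) {r : ℝ} (hl : 0 < l) (hr0 : 0 ≤ r) (hr : r ≤ l) :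
    lcut l J r = 0 := by
  unfold lcut
  have h1 : Real.log (r / l) ≤ 0 :=
    Real.log_nonpos (by positivity) ((div_le_one hl).2 hr)
  have h2 : Real.log (r / l) / (J * Real.log 2) ≤ 0 := by
    apply div_nonpos_of_nonpos_of_nonneg h1
    have := Real.log_pos (show (1 : ℝ) < 2 by norm_num)
    positivity
  exact max_eq_left ((min_le_right _ _).trans h2)

theorem lcut_one {l : ℝ} {J : ℕ} {r : ℝ} (hl : 0 < l) (hJ : 1 ≤ J) (hr : 2 ^ J * l ≤ r) :
    lcut l J r = 1 := by
  unfold lcut
  have hlog : 0 < Real.log 2 := Real.log_pos (by norm_num)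
  have hJ' : (0 : ℝ) < J := by exact_mod_cast hJ
  have h0 : (0 : ℝ) < 2 ^ J := by positivity
  have h1 : (2 : ℝ) ^ J ≤ r / l := (le_div_iff₀ hl).2 hr
  have h2 : J * Real.log 2 ≤ Real.log (r / l) := by
    rw [← Real.log_pow]; exact Real.log_le_log h0 h1
  have h3 : 1 ≤ Real.log (r / l) / (J * Real.log 2) :=
    (one_le_div (by positivity)).2 h2
  rw [min_eq_left h3, max_eq_right zero_le_one]

theorem lcut_mono {l : ℝ} (J : ℕ) {r s : ℝ} (hl : 0 < l) (hr0 : 0 ≤ r) (hrs : r ≤ s) :
    lcut l J r ≤ lcut l J s := by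
  rcases eq_or_lt_of_le hr0 with h | h
  · rw [← h, lcut_zero J hl le_rfl hl.le]; exact lcut_nonneg _ _ _
  · unfold lcut
    have hlog : 0 < Real.log 2 := Real.log_pos (by norm_num)
    have h1 : Real.log (r / l) ≤ Real.log (s / l) :=
      Real.log_le_log (by positivity) (by gcongr)
    have h2 : Real.log (r / l) / (J * Real.log 2) ≤ Real.log (s / l) / (J * Real.log 2) :=
      div_le_div_of_nonneg_right h1 (by positivity)
    exact max_le_max le_rfl (min_le_min le_rfl h2)

theorem lcut_sub_le {l : ℝ} {J : ℕ} {r s : ℝ} (hl : 0 < l) (hJ : 1 ≤ J) (hr0 : 0 ≤ r)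
    (hrs : r ≤ s) : lcut l J s - lcut l J r ≤ (s - r) / (max r l * (J * Real.log 2)) := by
  have hlog : 0 < Real.log 2 := Real.log_pos (by norm_num)
  have hJ' : (0 : ℝ) < J := by exact_mod_cast hJ
  have hm : 0 < max r l := lt_max_of_lt_right hl
  have hc : 0 < J * Real.log 2 := by positivity
  have hrhs : 0 ≤ (s - r) / (max r l * (J * Real.log 2)) :=
    div_nonneg (by linarith) (by positivity)
  rcases le_total s l with h | h
  · rw [lcut_zero J hl (hr0.trans hrs) h]
    have := lcut_nonneg l J r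
    linarith
  -- now l ≤ s
  have hms : max r l ≤ s := max_le hrs h
  -- lower bound of lcut r
  by_cases h1 : lcut l J s = 0
  · rw [h1]; have := lcut_nonneg l J r; linarith
  have hs0 : 0 < s := hl.trans_le h
  have hup : lcut l J s ≤ Real.log (s / l) / (J * Real.log 2) := by
    unfold lcut
    have h3 : 0 ≤ Real.log (s / l) / (J * Real.log 2) :=
      div_nonneg (Real.log_nonneg ((one_le_div hl).2 h)) hc.le
    exact max_le h3 (min_le_right _ _)
  have hkey : Real.log (s / l) / (J * Real.log 2) - Real.log (max r l / l) / (J * Real.log 2) ≤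
      (s - r) / (max r l * (J * Real.log 2)) := by
    rw [← sub_div, ← Real.log_div (by positivity) (by positivity),
      show s / l / (max r l / l) = s / max r l by field_simp]
    have h5 : Real.log (s / max r l) ≤ s / max r l - 1 :=
      Real.log_le_sub_one_of_pos (by positivity)
    have h6 : s / max r l - 1 = (s - max r l) / max r l := by field_simp
    have h7 : (s - max r l) / max r l ≤ (s - r) / max r l := by
      gcongr; exact le_max_left _ _
    rw [show (s - r) / (max r l * (J * Real.log 2)) = ((s - r) / max r l) / (J * Real.log 2) by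
      rw [div_div]]
    apply div_le_div_of_nonneg_right _ hc.le
    linarith
  rcases le_total r l with h2 | h2
  · rw [max_eq_right h2] at hkey
    rw [div_self hl.ne', Real.log_one, zero_div, sub_zero] at hkey
    rw [max_eq_right h2]
    have := lcut_nonneg l J r
    linarith
  · rw [max_eq_left h2] at hkey ⊢
    have hr1 : lcut l J r = min 1 (Real.log (r / l) / (J * Real.log 2)) := by
      unfold lcut
      apply max_eq_right
      apply le_min zero_le_one
      exact div_nonneg (Real.log_nonneg ((one_le_div hl).2 h2)) hc.le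
    rcases le_total 1 (Real.log (r / l) / (J * Real.log 2)) with h4 | h4
    · rw [hr1, min_eq_left h4]
      have := lcut_le_one l J s
      rw [max_eq_left h2] at hrhs
      linarith
    · rw [hr1, min_eq_right h4]
      linarith

/-- Dirichlet energy of the logarithmic cut-off of a radial coordinate `ρ`. -/
theorem log_energy {D : Type*} [Fintype D] (ρ w : D → ℝ) (rev : D → D)
    (hrev : ∀ d, rev (rev d) = d) (hρ : ∀ d, 0 ≤ ρ d) (hw : ∀ d, |ρ (rev d) - ρ d| ≤ w d)
    (l : ℝ) (hl : 0 < l) (J : ℕ) (hJ : 1 ≤ J) (C : ℝ)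
    (hC : ∑ j ∈ range (J + 1), (∑ d with ρ d ≤ 2 ^ j * l, (w d) ^ 2) / (2 ^ j * l) ^ 2 ≤
      C * (J + 1)) :
    ∑ d, (lcut l J (ρ (rev d)) - lcut l J (ρ d)) ^ 2 ≤ 34 * C / J := by
  classical
  have hlog : 0 < Real.log 2 := Real.log_pos (by norm_num)
  have hJ' : (1 : ℝ) ≤ J := by exact_mod_cast hJ
  set c : ℝ := J * Real.log 2 with hc
  have hc0 : 0 < c := by positivity
  set F : D → ℝ := fun d => (lcut l J (ρ (rev d)) - lcut l J (ρ d)) ^ 2 with hF
  -- the contribution of a dart pointing outwards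
  have h1 : ∀ d, ρ d ≤ ρ (rev d) → F d ≤ 4 / c ^ 2 *
      ∑ j ∈ range (J + 1), (if ρ d ≤ 2 ^ j * l then (w d) ^ 2 else 0) / (2 ^ j * l) ^ 2 := by
    intro d hd
    have hnn : 0 ≤ 4 / c ^ 2 *
        ∑ j ∈ range (J + 1), (if ρ d ≤ 2 ^ j * l then (w d) ^ 2 else 0) / (2 ^ j * l) ^ 2 := by
      apply mul_nonneg (by positivity)
      apply sum_nonneg
      intro j _
      split_ifs <;> positivity
    by_cases hbig : 2 ^ J * l ≤ ρ d
    · have e1 : F d = 0 := by
        simp only [hF]
        rw [lcut_one hl hJ hbig, lcut_one hl hJ (hbig.trans hd)]; ring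
      rw [e1]; exact hnn
    · push Not at hbig
      -- minimal j with ρ d ≤ 2 ^ j * l
      have hex : ∃ j : ℕ, ρ d ≤ 2 ^ j * l := ⟨J, hbig.le⟩
      set j := Nat.find hex with hj
      have hj1 : ρ d ≤ 2 ^ j * l := Nat.find_spec hex
      have hjJ : j ≤ J := Nat.find_min' hex hbig.le
      have hmax : 2 ^ j * l ≤ 2 * max (ρ d) l := by
        rcases Nat.eq_zero_or_pos j with h0 | h0
        · rw [h0, pow_zero, one_mul]
          have := le_max_right (ρ d) l
          linarith
        · have h2 := Nat.find_min hex (show j - 1 < j by omega)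
          push Not at h2
          have h3 : (2 : ℝ) ^ j = 2 * 2 ^ (j - 1) := by
            rw [← pow_succ']; congr 1; omega
          rw [h3]
          have := le_max_left (ρ d) l
          linarith
      have hmpos : 0 < max (ρ d) l := lt_max_of_lt_right hl
      have hsub := lcut_sub_le (J := J) hl hJ (hρ d) hd
      have hmono := lcut_mono J hl (hρ d) hd
      have hww : ρ (rev d) - ρ d ≤ w d := (le_abs_self _).trans (hw d)
      have h4 : lcut l J (ρ (rev d)) - lcut l J (ρ d) ≤ 2 * w d / (2 ^ j * l * c) := by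
        refine hsub.trans ?_
        rw [div_le_div_iff₀ (by positivity) (by positivity)]
        have hpos : 0 < 2 ^ j * l := by positivity
        have ha : 0 ≤ ρ (rev d) - ρ d := by linarith
        have hwd : 0 ≤ w d := ha.trans hww
        calc (ρ (rev d) - ρ d) * (2 ^ j * l * c) ≤ w d * (2 * max (ρ d) l * c) := by
              gcongr
          _ = 2 * w d * (max (ρ d) l * c) := by ring
      have h5 : F d ≤ 4 / c ^ 2 * ((w d) ^ 2 / (2 ^ j * l) ^ 2) := by
        simp only [hF]
        have h6 : (lcut l J (ρ (rev d)) - lcut l J (ρ d)) ^ 2 ≤ (2 * w d / (2 ^ j * l * c)) ^ 2 := by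
          apply pow_le_pow_left₀ (by linarith) h4
        refine h6.trans (le_of_eq ?_)
        field_simp
        ring
      refine h5.trans ?_
      gcongr
      have h7 := single_le_sum (f := fun j : ℕ =>
        (if ρ d ≤ 2 ^ j * l then (w d) ^ 2 else 0) / (2 ^ j * l) ^ 2) (s := range (J + 1))
        (fun i _ => by split_ifs <;> positivity) (mem_range.2 (show j < J + 1 by omega))
      simp only [if_pos hj1] at h7
      exact h7
  have h2 : ∀ d, F (rev d) = F d := by
    intro d; simp only [hF, hrev]; ring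
  set G : D → ℝ := fun d => 4 / c ^ 2 *
      ∑ j ∈ range (J + 1), (if ρ d ≤ 2 ^ j * l then (w d) ^ 2 else 0) / (2 ^ j * l) ^ 2 with hG
  have hG0 : ∀ d, 0 ≤ G d := by
    intro d
    simp only [hG]
    apply mul_nonneg (by positivity)
    apply sum_nonneg
    intro j _
    split_ifs <;> positivity
  have h3 : ∀ d, F d ≤ G d + G (rev d) := by
    intro d
    rcases le_total (ρ d) (ρ (rev d)) with h | h
    · have := h1 d h; have := hG0 (rev d); simp only [hG] at *; linarith
    · have e := h1 (rev d) (by rw [hrev]; exact h)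
      rw [h2] at e
      have := hG0 d
      simp only [hG] at *; linarith
  have hbij : ∑ d, G (rev d) = ∑ d, G d :=
    Equiv.sum_comp (Function.Involutive.toPerm rev hrev) G
  have hsum : ∑ d, G d = 4 / c ^ 2 *
      ∑ j ∈ range (J + 1), (∑ d with ρ d ≤ 2 ^ j * l, (w d) ^ 2) / (2 ^ j * l) ^ 2 := by
    simp only [hG]
    rw [← mul_sum, sum_comm]
    congr 1
    apply sum_congr rfl
    intro j _
    rw [← sum_div, sum_filter]
  have hCC : 0 ≤ C := by
    by_contra hneg
    push Not at hneg
    have h8 : 0 ≤ ∑ j ∈ range (J + 1), (∑ d with ρ d ≤ 2 ^ j * l, (w d) ^ 2) / (2 ^ j * l) ^ 2 := by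
      apply sum_nonneg; intro j _; positivity
    have : C * (J + 1) < 0 := mul_neg_of_neg_of_pos hneg (by linarith)
    linarith
  calc ∑ d, (lcut l J (ρ (rev d)) - lcut l J (ρ d)) ^ 2 = ∑ d, F d := rfl
    _ ≤ ∑ d, (G d + G (rev d)) := sum_le_sum fun d _ => h3 d
    _ = 2 * ∑ d, G d := by rw [sum_add_distrib, hbij]; ring
    _ ≤ 2 * (4 / c ^ 2 * (C * (J + 1))) := by
        rw [hsum]
        gcongr
    _ ≤ 34 * C / J := by
        rw [hc]
        have hl2 : 0.48 ≤ Real.log 2 ^ 2 := by
          have := Real.log_two_gt_d9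
          nlinarith
        rw [show 2 * (4 / (J * Real.log 2) ^ 2 * (C * (J + 1))) =
          (8 * C * (J + 1)) / (J ^ 2 * Real.log 2 ^ 2) by field_simp; ring,
          div_le_div_iff₀ (by positivity) (by positivity)]
        have hJ0 : (0 : ℝ) < J := by linarith
        have k1 : 8 * C * (J + 1) * J ≤ 16 * C * J ^ 2 := by
          nlinarith [mul_nonneg hCC hJ0.le, mul_nonneg (mul_nonneg hCC hJ0.le) (sub_nonneg.2 hJ')]
        have k2 : 16 * C * J ^ 2 ≤ 34 * C * (J ^ 2 * Real.log 2 ^ 2) := by
          have : 0 ≤ C * J ^ 2 := by positivity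
          nlinarith
        linarith

end Vale.Agent.P148.R2.H320
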