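import Vale.Agent.P148.R2.H320.Slit
import Vale.Agent.P148.R2.H320.LogE
import Vale.Agent.P148.R2.H291.Good
import Vale.Agent.P148.R2.H990.Chain
import Vale.Agent.P148.R2.H995.Surg

/-!
# P148, module R4b: the quenched half-plane arm bound
-/

open Set Metric Filter Topology

namespace Vale.Agent.P148.R2.H320

open Vale.Agent.P148.R2.H592 Vale.Agent.P148.R2.H847 Vale.Agent.P148.R2.H995
open Vale.Agent.P148.R2.H291 (GoodAt)

section Hull

variable {X : Set ℂ} {b : ZMod 3 → ℂ} (h : HullTri X b)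

include h

/-- A linear function is maximal at a hull vertex. -/
theorem hull_max (u : ℂ) {x : ℂ} (hx : x ∈ X) :
    ∃ j, u.re * x.re + u.im * x.im ≤ u.re * (b j).re + u.im * (b j).im := by
  by_contra hcon
  push Not at hcon
  by_cases hne : ∀ j, x ≠ b j
  · have c0 := h.inside x hx hne 0
    have c1 := h.inside x hx hne 1
    have c2 := h.inside x hx hne 2
    have e1 : (0 : ZMod 3) + 1 = 1 := by decide
    have e2 : (1 : ZMod 3) + 1 = 2 := by decide
    have e3 : (2 : ZMod 3) + 1 = 0 := by decide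
    rw [e1] at c0
    rw [e2] at c1
    rw [e3] at c2
    have h0 := hcon 0
    have h1 := hcon 1
    have h2 := hcon 2
    have key : cr (b 1) (b 2) x * ((u.re * x.re + u.im * x.im) -
        (u.re * (b 0).re + u.im * (b 0).im)) +
        cr (b 2) (b 0) x * ((u.re * x.re + u.im * x.im) - (u.re * (b 1).re + u.im * (b 1).im)) +
        cr (b 0) (b 1) x * ((u.re * x.re + u.im * x.im) -
          (u.re * (b 2).re + u.im * (b 2).im)) = 0 := by
      unfold cr; ring
    have m0 := mul_pos c1 (sub_pos.2 h0)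
    have m1 := mul_pos c2 (sub_pos.2 h1)
    have m2 := mul_pos c0 (sub_pos.2 h2)
    linarith
  · push Not at hne
    obtain ⟨j, rfl⟩ := hne
    exact lt_irrefl _ (hcon j)

/-- The points outside a disc are connected. -/
theorem connIn_out {k : ℂ} {R : ℝ} (hR : 0 < R) (hb : ∀ j, R ≤ dist (b j) k) :
    ConnIn X {x | x ∈ X ∧ R ≤ dist x k} := by
  set O : Set ℂ := {x | x ∈ X ∧ R ≤ dist x k} with hO
  have hbO : ∀ j, b j ∈ O := fun j => ⟨h.mem j, hb j⟩
  have hbb : ∀ i j, Relation.ReflTransGen (fun a c => nbr X a c ∧ a ∈ O ∧ c ∈ O) (b i) (b j) := by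
    intro i j
    rcases z3_cases i j with rfl | rfl | rfl
    · exact Relation.ReflTransGen.refl
    · exact Relation.ReflTransGen.single ⟨nbr_symm (h.nbr_hull i), hbO _, hbO _⟩
    · have h1 := h.nbr_hull (i + 2)
      rw [z3_21] at h1
      exact Relation.ReflTransGen.single ⟨h1, hbO _, hbO _⟩
  have hto : ∀ x ∈ O, ∃ j,
      Relation.ReflTransGen (fun a c => nbr X a c ∧ a ∈ O ∧ c ∈ O) x (b j) ∧
      Relation.ReflTransGen (fun a c => nbr X a c ∧ a ∈ O ∧ c ∈ O) (b j) x := by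
    rintro x ⟨hx, hxR⟩
    set u : ℂ := x - k with hu
    have hun : R ≤ ‖u‖ := by rw [hu, ← Complex.dist_eq]; exact hxR
    have hu0 : 0 < ‖u‖ := hR.trans_le hun
    have hsq : u.re * x.re + u.im * x.im - (u.re * k.re + u.im * k.im) = ‖u‖ ^ 2 := by
      rw [← Complex.normSq_eq_norm_sq, Complex.normSq_apply, hu, Complex.sub_re, Complex.sub_im]
      ring
    have hlt : ∀ z ∈ X, dist z k < R → u.re * z.re + u.im * z.im < u.re * x.re + u.im * x.im := by
      intro z _ hz
      have h1 : u.re * z.re + u.im * z.im - (u.re * k.re + u.im * k.im) ≤ ‖u‖ * ‖z - k‖ := by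
        have h2 : u.re * z.re + u.im * z.im - (u.re * k.re + u.im * k.im) =
            ((starRingEnd ℂ) u * (z - k)).re := by
          simp only [Complex.mul_re, Complex.conj_re, Complex.conj_im, Complex.sub_re,
            Complex.sub_im]
          ring
        rw [h2]
        refine (Complex.re_le_norm _).trans (le_of_eq ?_)
        rw [norm_mul, Complex.norm_conj]
      have h2 : ‖z - k‖ < R := by rw [← Complex.dist_eq]; exact hz
      have h3 : ‖u‖ * ‖z - k‖ < ‖u‖ ^ 2 := by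
        rw [sq]
        exact mul_lt_mul_of_pos_left (h2.trans_le hun) hu0
      linarith
    obtain ⟨a, ha1, ha2⟩ : ∃ a : ℝ, (∀ z ∈ X, dist z k < R → u.re * z.re + u.im * z.im < a) ∧
        a < u.re * x.re + u.im * x.im := by
      have h1 : ∀ᶠ a in 𝓝[<] (u.re * x.re + u.im * x.im), ∀ z ∈ X, dist z k < R →
          u.re * z.re + u.im * z.im < a := by
        refine h.fin.eventually_all.2 fun z hz => ?_
        by_cases hzk : dist z k < R
        · have h2 := hlt z hz hzk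
          filter_upwards [Ioo_mem_nhdsLT h2] with a ha _ using ha.1
        · exact Eventually.of_forall fun a hh => absurd hh hzk
      obtain ⟨a, ha⟩ := (h1.and self_mem_nhdsWithin).exists
      exact ⟨a, ha.1, ha.2⟩
    have hc := connIn_half h.fin u a
    have hsub : X ∩ {z | a < u.re * z.re + u.im * z.im} ⊆ O := by
      rintro z ⟨hz, hza⟩
      refine ⟨hz, ?_⟩
      by_contra hcon
      rw [not_le] at hcon
      exact absurd (ha1 z hz hcon) (not_lt.2 (le_of_lt hza))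
    obtain ⟨j, hj⟩ := hull_max h u hx
    have hxm : x ∈ X ∩ {z | a < u.re * z.re + u.im * z.im} := ⟨hx, ha2⟩
    have hbm : b j ∈ X ∩ {z | a < u.re * z.re + u.im * z.im} := ⟨h.mem j, ha2.trans_le hj⟩
    exact ⟨j, hc.lift hsub hxm hbm, hc.lift hsub hbm hxm⟩
  refine ⟨fun x hx => hx.1, fun x hx y hy => ?_⟩
  obtain ⟨i, h1, -⟩ := hto x hx
  obtain ⟨j, -, h2⟩ := hto y hy
  exact (h1.trans (hbb i j)).trans h2

end Hull

section Ray

variable {X : Set ℂ}

/-- The points of a ray. -/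
def ry (k e : ℂ) (t : ℝ) : ℂ := k + (t : ℂ) * e

theorem ry_zero (k e : ℂ) : ry k e 0 = k := by simp [ry]

theorem dist_ry {k e : ℂ} (he : ‖e‖ = 1) {t : ℝ} (ht : 0 ≤ t) : dist (ry k e t) k = t := by
  rw [Complex.dist_eq, ry, add_sub_cancel_left, norm_mul, he, mul_one, Complex.norm_real,
    Real.norm_eq_abs, abs_of_nonneg ht]

theorem pw_ry (v w k e : ℂ) {s t : ℝ} (ht : t ≠ 0) :
    pw v w (ry k e s) = (1 - s / t) * pw v w k + s / t * pw v w (ry k e t) := by
  rw [← pw_seg]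
  congr 1
  unfold ry
  have ht' : (t : ℂ) ≠ 0 := by exact_mod_cast ht
  push_cast
  field_simp
  ring

/-- A ray from the centre of a disc leaves the cells of the points of the disc for ever. -/
theorem ray_strict {k e : ℂ} {r s t : ℝ} {x y : ℂ} (hy : dist y k < r)
    (hx : r ≤ dist x k) (hxX : x ∈ X) (ht : ry k e t ∈ vcell X y) (hs : 0 ≤ s) (hst : s < t)
    (hyX : y ∈ X) : ry k e s ∉ vcell X x := by
  intro hsx
  have ht0 : 0 < t := lt_of_le_of_lt hs hst
  have h1 : 0 ≤ pw y x (ry k e t) := mem_vcell.1 ht x hxX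
  have h2 : 0 ≤ pw x y (ry k e s) := mem_vcell.1 hsx y hyX
  rw [pw_neg] at h2
  have h3 : 0 < pw y x k := by
    rw [← dist_lt_iff, dist_comm k y, dist_comm k x]
    exact hy.trans_le hx
  rw [pw_ry y x k e ht0.ne'] at h2
  have h4 : 0 ≤ s / t := div_nonneg hs ht0.le
  have h5 : s / t < 1 := (div_lt_one ht0).2 hst
  nlinarith [mul_pos (sub_pos.2 h5) h3, mul_nonneg h4 h1]

theorem exists_cell (hX : X.Finite) (hne : X.Nonempty) (z : ℂ) : ∃ v ∈ X, z ∈ vcell X v := by
  obtain ⟨v, hv, h1⟩ := Set.exists_min_image X (fun v => dist z v) hX hne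
  exact ⟨v, hv, fun w hw => h1 w hw⟩

/-- The cells of the points of a disc are star shaped. -/
theorem ray_down {k e : ℂ} {r s t : ℝ} {y : ℂ} (hy : dist y k < r)
    (hyX : y ∈ X) (ht : ry k e t ∈ vcell X y) (hs : 0 ≤ s) (hst : s ≤ t) {v : ℂ} (hvX : v ∈ X)
    (hv : ry k e s ∈ vcell X v) : dist v k < r ∨ (s = t) := by
  by_contra hcon
  push Not at hcon
  have := ray_strict hy hcon.1 hvX ht hs (lt_of_le_of_ne hst hcon.2) hyX
  exact this hv

theorem continuous_ry (k e : ℂ) : Continuous (ry k e) := by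
  unfold ry; fun_prop

theorem preconn_ry (k e : ℂ) (s t : ℝ) : IsPreconnected (ry k e '' Icc s t) :=
  isPreconnected_Icc.image _ (continuous_ry k e).continuousOn

/-- Two families of cells which cover a connected set and both meet it are adjacent. -/
theorem exists_adj (hX : X.Finite) {A B L : Set ℂ} (hA : A ⊆ X) (hB : B ⊆ X) (hd : Disjoint A B)
    (hL : IsPreconnected L) (hcov : ∀ z ∈ L, ∃ v, (v ∈ A ∨ v ∈ B) ∧ z ∈ vcell X v)
    (h1 : ∃ z ∈ L, ∃ v ∈ A, z ∈ vcell X v) (h2 : ∃ z ∈ L, ∃ v ∈ B, z ∈ vcell X v) :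
    ∃ u ∈ A, ∃ v ∈ B, nbr X u v := by
  have hcl : ∀ U : Set ℂ, U ⊆ X → IsClosed (⋃ a ∈ U, vcell X a) := fun U hU =>
    (hX.subset hU).isClosed_biUnion fun a _ => isClosed_vcell X a
  rw [isPreconnected_closed_iff] at hL
  obtain ⟨z, -, hz1, hz2⟩ := hL _ _ (hcl A hA) (hcl B hB) (by
      intro z hz
      obtain ⟨v, hv | hv, hzv⟩ := hcov z hz
      · exact Or.inl (mem_biUnion hv hzv)
      · exact Or.inr (mem_biUnion hv hzv))
    (by
      obtain ⟨z, hz, v, hv, hzv⟩ := h1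
      exact ⟨z, hz, mem_biUnion hv hzv⟩)
    (by
      obtain ⟨z, hz, v, hv, hzv⟩ := h2
      exact ⟨z, hz, mem_biUnion hv hzv⟩)
  obtain ⟨u, hu, huz⟩ := mem_iUnion₂.1 hz1
  obtain ⟨v, hv, hvz⟩ := mem_iUnion₂.1 hz2
  refine ⟨u, hu, v, hv, hA hu, hB hv, ?_, z, huz, hvz⟩
  rintro rfl
  exact Set.disjoint_left.1 hd hu hv

theorem rtg_of {α : Type*} {R S : α → α → Prop} (h : ∀ a b, R a b → a = b ∨ S a b) {x y : α}
    (hxy : Relation.ReflTransGen R x y) : Relation.ReflTransGen S x y := by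
  induction hxy with
  | refl => exact Relation.ReflTransGen.refl
  | tail _ hab ih =>
    rcases h _ _ hab with h1 | h1
    · rw [← h1]; exact ih
    · exact ih.tail h1

theorem rtg_symm {α : Type*} {S : α → α → Prop} (h : ∀ a b, S a b → S b a) {x y : α}
    (hxy : Relation.ReflTransGen S x y) : Relation.ReflTransGen S y x := by
  induction hxy with
  | refl => exact Relation.ReflTransGen.refl
  | tail _ hab ih => exact Relation.ReflTransGen.head (h _ _ hab) ih

/-- The slit: the points between the two circles whose cells meet the ray. -/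
def slit (X : Set ℂ) (k e : ℂ) (r R : ℝ) : Set ℂ :=
  {x | x ∈ X ∧ r ≤ dist x k ∧ dist x k < R ∧ ∃ t, 0 ≤ t ∧ ry k e t ∈ vcell X x}

theorem connIn_slit (hX : X.Finite) (k e : ℂ) (r R : ℝ) : ConnIn X (slit X k e r R) := by
  set B := slit X k e r R with hB
  have key : ∀ x ∈ B, ∀ y ∈ B, ∀ s t : ℝ, 0 ≤ s → s ≤ t → ry k e s ∈ vcell X x →
      ry k e t ∈ vcell X y →
      Relation.ReflTransGen (fun a c => nbr X a c ∧ a ∈ B ∧ c ∈ B) x y := by
    intro x hx y hy s t hs hst hsx hty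
    have hcov : ry k e '' Icc s t ⊆ ⋃ v ∈ B, H990.vcell X v := by
      rintro _ ⟨τ, ⟨h1, h2⟩, rfl⟩
      rw [mem_iUnion₂]
      rcases h2.lt_or_eq with h3 | h3
      swap
      · exact ⟨y, hy, by rw [h3]; exact hty⟩
      rcases h1.lt_or_eq with h4 | h4
      swap
      · exact ⟨x, hx, by rw [← h4]; exact hsx⟩
      obtain ⟨v, hv, hvτ⟩ := exists_cell hX ⟨x, hx.1⟩ (ry k e τ)
      have h5 : dist v k < R := by
        rcases ray_down hy.2.2.1 hy.1 hty (hs.trans h1) h2 hv hvτ with h5 | h5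
        · exact h5
        · exact absurd h5 h3.ne
      have h6 : r ≤ dist v k := by
        by_contra hcon
        rw [not_le] at hcon
        exact ray_strict hcon hx.2.1 hx.1 hvτ hs h4 hv hsx
      exact ⟨v, ⟨hv, h6, h5, τ, hs.trans h1, hvτ⟩, hvτ⟩
    have hch := H990.chain_of_conn (preconn_ry k e s t) hcov
      (hX.subset fun v hv => hv.1.1) hx hy
      ⟨ry k e s, hsx, s, ⟨le_rfl, hst⟩, rfl⟩ ⟨ry k e t, hty, t, ⟨hst, le_rfl⟩, rfl⟩
    refine rtg_of (fun a c hac => ?_) hch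
    obtain ⟨h1, h2, z, ⟨h3, h4⟩, -⟩ := hac
    by_cases hne : a = c
    · exact Or.inl hne
    · exact Or.inr ⟨⟨h1.1, h2.1, hne, z, h3, h4⟩, h1, h2⟩
  refine ⟨fun x hx => hx.1, fun x hx y hy => ?_⟩
  obtain ⟨s, hs, hsx⟩ := hx.2.2.2
  obtain ⟨t, ht, hty⟩ := hy.2.2.2
  rcases le_total s t with hst | hst
  · exact key x hx y hy s t hs hst hsx hty
  · exact rtg_symm (fun a c hac => ⟨nbr_symm hac.1, hac.2.2, hac.2.1⟩)
      (key y hy x hx t s ht hst hty hsx)

/-- `X` is `ε`-dense near `k` up to the radius `R + 4 ε`. -/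
def NetAt (X : Set ℂ) (k : ℂ) (R ε : ℝ) : Prop :=
  ∀ z ∈ closedBall k (R + 4 * ε), ∀ x ∈ X, z ∈ vcell X x → dist z x ≤ ε

theorem NetAt.cell {k : ℂ} {R ε : ℝ} (hn : NetAt X k R ε) (hε : 0 < ε) {x z : ℂ} (hx : x ∈ X)
    (hxk : dist x k ≤ R + 2 * ε) (hz : z ∈ vcell X x) : dist z x ≤ ε := by
  by_contra hcon
  rw [not_le] at hcon
  set δ := min ε (dist z x - ε) with hδ
  have hδ0 : 0 < δ := lt_min hε (by linarith)
  have hδ1 : δ ≤ ε := min_le_left _ _
  have hδ2 : ε + δ ≤ dist z x := by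
    have := min_le_right ε (dist z x - ε)
    linarith
  have hd0 : 0 < dist z x := by linarith
  set s := (ε + δ) / dist z x with hs
  have hs0 : 0 ≤ s := by positivity
  have hs1 : s ≤ 1 := (div_le_one hd0).2 hδ2
  have h1 := seg_mem_vcell (self_mem_vcell X x) hz hs0 hs1
  have h2 : dist (x + (s : ℂ) * (z - x)) x = ε + δ := by
    rw [Complex.dist_eq, add_sub_cancel_left, norm_mul, Complex.norm_real, Real.norm_eq_abs,
      abs_of_nonneg hs0, ← Complex.dist_eq, hs, div_mul_cancel₀ _ hd0.ne']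
  have h3 := hn _ (by
    rw [mem_closedBall]
    have := dist_triangle (x + (s : ℂ) * (z - x)) x k
    linarith) x hx h1
  linarith

theorem NetAt.nbr {k : ℂ} {R ε : ℝ} (hn : NetAt X k R ε) (hε : 0 < ε) {x y : ℂ}
    (hxy : nbr X x y) (hxk : dist x k ≤ R + 2 * ε) : dist x y ≤ 2 * ε := by
  obtain ⟨hx, hy, -, z, hz1, hz2⟩ := hxy
  have h1 := hn.cell hε hx hxk hz1
  have h2 := hn z (by
    rw [mem_closedBall]
    have := dist_triangle z x k
    linarith) y hy hz2
  have := dist_triangle x z y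
  rw [dist_comm x z] at this
  linarith

section Geo

variable {b : ZMod 3 → ℂ} {k e : ℂ} {r R ε : ℝ} (hX : X.Finite) (hne : X.Nonempty)
  (he : ‖e‖ = 1) (hε : 0 < ε) (hr : ε < r) (hrR : r + 2 * ε < R) (hn : NetAt X k R ε)

include hX hne he hε hr hrR hn

theorem slit_nonempty : ∃ x ∈ slit X k e r R, True := by
  obtain ⟨v, hv, hvz⟩ := exists_cell hX hne (ry k e (r + ε))
  have h1 := dist_ry (k := k) he (t := r + ε) (by linarith)
  have h2 := hn _ (by rw [mem_closedBall, h1]; linarith) v hv hvz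
  have h3 := dist_triangle (ry k e (r + ε)) v k
  have h4 := dist_triangle v (ry k e (r + ε)) k
  rw [dist_comm v (ry k e (r + ε))] at h4
  exact ⟨v, ⟨hv, by linarith, by linarith, r + ε, by linarith, hvz⟩, trivial⟩

theorem adj_in : ∃ u ∈ X ∩ ball k r, ∃ v ∈ slit X k e r R, nbr X u v := by
  obtain ⟨x, hx, -⟩ := slit_nonempty hX hne he hε hr hrR hn
  obtain ⟨s, hs, hsx⟩ := hx.2.2.2
  refine exists_adj hX inter_subset_left (fun v hv => hv.1) ?_ (preconn_ry k e 0 s) ?_ ?_ ?_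
  · rw [Set.disjoint_left]
    rintro v hv hv'
    have := hv'.2.1
    have h1 := mem_ball.1 hv.2
    linarith
  · rintro _ ⟨τ, ⟨h1, h2⟩, rfl⟩
    rcases h2.lt_or_eq with h3 | h3
    swap
    · exact ⟨x, Or.inr hx, by rw [h3]; exact hsx⟩
    obtain ⟨v, hv, hvτ⟩ := exists_cell hX hne (ry k e τ)
    have h5 : dist v k < R := by
      rcases ray_down hx.2.2.1 hx.1 hsx h1 h2 hv hvτ with h5 | h5
      · exact h5
      · exact absurd h5 h3.ne
    by_cases h6 : dist v k < r
    · exact ⟨v, Or.inl ⟨hv, mem_ball.2 h6⟩, hvτ⟩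
    · exact ⟨v, Or.inr ⟨hv, not_lt.1 h6, h5, τ, h1, hvτ⟩, hvτ⟩
  · obtain ⟨v, hv, hvk⟩ := exists_cell hX hne k
    have h1 := hn k (mem_closedBall_self (by linarith)) v hv hvk
    refine ⟨k, ⟨0, ⟨le_rfl, hs⟩, ry_zero k e⟩, v, ⟨hv, ?_⟩, hvk⟩
    rw [mem_ball, dist_comm]
    linarith
  · exact ⟨ry k e s, ⟨s, ⟨hs, le_rfl⟩, rfl⟩, x, hx, hsx⟩

theorem adj_out : ∃ u ∈ {x | x ∈ X ∧ R ≤ dist x k}, ∃ v ∈ slit X k e r R, nbr X u v := by
  obtain ⟨x, hx, -⟩ := slit_nonempty hX hne he hε hr hrR hn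
  obtain ⟨s, hs, hsx⟩ := hx.2.2.2
  set t := R + 2 * ε with ht
  have ht0 : 0 ≤ t := by linarith
  have hfar : ∀ v ∈ X, ry k e t ∈ vcell X v → R + ε ≤ dist v k := by
    intro v hv hvt
    have h1 := dist_ry (k := k) he ht0
    have h2 := hn _ (by rw [mem_closedBall, h1]; linarith) v hv hvt
    have h3 := dist_triangle (ry k e t) v k
    linarith
  have hst : s ≤ t := by
    by_contra hcon
    rw [not_le] at hcon
    obtain ⟨v, hv, hvt⟩ := exists_cell hX hne (ry k e t)
    rcases ray_down hx.2.2.1 hx.1 hsx ht0 hcon.le hv hvt with h5 | h5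
    · linarith [hfar v hv hvt]
    · exact hcon.ne h5
  refine exists_adj hX (fun v hv => hv.1) (fun v hv => hv.1) ?_ (preconn_ry k e s t) ?_ ?_ ?_
  · rw [Set.disjoint_left]
    rintro v hv hv'
    have := hv'.2.2.1
    have h1 := hv.2
    linarith
  · rintro _ ⟨τ, ⟨h1, h2⟩, rfl⟩
    rcases h1.lt_or_eq with h4 | h4
    swap
    · exact ⟨x, Or.inr hx, by rw [← h4]; exact hsx⟩
    obtain ⟨v, hv, hvτ⟩ := exists_cell hX hne (ry k e τ)
    by_cases h5 : R ≤ dist v k
    · exact ⟨v, Or.inl ⟨hv, h5⟩, hvτ⟩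
    have h6 : r ≤ dist v k := by
      by_contra hcon
      rw [not_le] at hcon
      exact ray_strict hcon hx.2.1 hx.1 hvτ hs h4 hv hsx
    exact ⟨v, Or.inr ⟨hv, h6, not_le.1 h5, τ, hs.trans h1, hvτ⟩, hvτ⟩
  · obtain ⟨v, hv, hvt⟩ := exists_cell hX hne (ry k e t)
    refine ⟨ry k e t, ⟨t, ⟨hst, le_rfl⟩, rfl⟩, v, ⟨hv, ?_⟩, hvt⟩
    linarith [hfar v hv hvt]
  · exact ⟨ry k e s, ⟨s, ⟨le_rfl, hst⟩, rfl⟩, x, hx, hsx⟩

end Geo

end Ray

/-- **The quenched half-plane arm bound.** -/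
theorem hp_qpr {X : Set ℂ} {b : ZMod 3 → ℂ} (h : HullTri X b) {k ι : ℂ} (hι : ‖ι‖ = 1)
    {l C ε η ρ R D : ℝ} {J : ℕ} (hJ : 1 ≤ J) (hC : GoodAt X k l J C)
    (hnet : NetAt X k R ε) (hb : ∀ j, R ≤ dist (b j) k)
    (hε : 0 < ε) (hη : 3 * ε ≤ η) (hρ0 : 0 ≤ ρ) (hρ : ρ + 4 * ε ≤ l) (hR : 2 ^ J * l ≤ R)
    (hD : R ≤ D) : qpr X (fun W => HPArm (nbr X) W k ι η ρ D) ≤ 272 * C / J := by
  classical
  have hfinF : Finite (Fc X b) := h.finite_Fc
  have := Fintype.ofFinite (Fc X b × ZMod 3)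
  have hne : X.Nonempty := ⟨b 0, h.mem 0⟩
  set e : ℂ := -(starRingEnd ℂ) ι with he
  have he1 : ‖e‖ = 1 := by rw [he, norm_neg, Complex.norm_conj, hι]
  have hιe : ι * e = -1 := by
    have h1 : ι * (starRingEnd ℂ) ι = 1 := by
      rw [Complex.mul_conj, Complex.normSq_eq_norm_sq, hι]; norm_num
    rw [he, mul_neg, h1]
  set r := ρ + 2 * ε with hr
  have hl0 : 0 < l := by linarith
  have h2J : (2 : ℝ) ≤ 2 ^ J := by
    calc (2 : ℝ) = 2 ^ 1 := by norm_num
      _ ≤ 2 ^ J := pow_le_pow_right₀ (by norm_num) hJ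
  have hR2 : 2 * l ≤ R := le_trans (mul_le_mul_of_nonneg_right h2J hl0.le) hR
  have hR0 : 0 < R := by linarith
  have hrR : r + 2 * ε < R := by linarith
  have hεr : ε < r := by linarith
  set F : Set ℂ := {u | (ι * (u - k)).re ≤ η} with hF
  have hry : ∀ t, (ι * (ry k e t - k)).re = -t := by
    intro t
    have h1 : ι * (ry k e t - k) = (t : ℂ) * (ι * e) := by unfold ry; ring
    rw [h1, hιe]
    simp
  have hnearF : ∀ u t, 0 ≤ t → dist u (ry k e t) ≤ 3 * ε → u ∈ F := by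
    intro u t ht hut
    show (ι * (u - k)).re ≤ η
    have h1 : (ι * (u - k)).re = (ι * (ry k e t - k)).re + (ι * (u - ry k e t)).re := by
      rw [← Complex.add_re]; congr 1; ring
    have h2 : (ι * (u - ry k e t)).re ≤ 3 * ε := by
      refine (Complex.re_le_norm _).trans ?_
      rw [norm_mul, hι, one_mul, ← Complex.dist_eq]
      exact hut
    rw [h1, hry]
    linarith
  have hslit : ∀ v ∈ slit X k e r R, ∃ t, 0 ≤ t ∧ dist v (ry k e t) ≤ ε := by
    rintro v ⟨hv, -, hvR, t, ht, hvt⟩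
    refine ⟨t, ht, ?_⟩
    rw [dist_comm]
    exact hnet.cell hε hv (by linarith) hvt
  set φ : ℂ → ℝ := fun z => lcut l J (dist z k) with hφ
  have hmain := slit_arm h (OK := X ∩ ball k r) (OB := slit X k e r R)
    (OS := {x | x ∈ X ∧ R ≤ dist x k}) (F := F) (φ := φ)
    (connIn_ball h.fin k r) (connIn_slit h.fin k e r R) (connIn_out h hR0 hb)
    (by
      rw [Set.disjoint_left]
      rintro v hv hv'
      have h1 := mem_ball.1 hv.2
      linarith [hv'.2.1])
    (by
      rw [Set.disjoint_left]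
      rintro v hv hv'
      have h1 := mem_ball.1 hv.2
      linarith [hv'.2])
    (by
      rw [Set.disjoint_left]
      rintro v hv hv'
      linarith [hv.2.2.1, hv'.2])
    (adj_in h.fin hne he1 hε hεr hrR hnet)
    (adj_out h.fin hne he1 hε hεr hrR hnet)
    (by
      rintro u hu v hv huv
      have h1 := mem_ball.1 hu.2
      have h2 := hnet.nbr hε huv (by linarith)
      have h3 := dist_triangle v u k
      rw [dist_comm v u] at h3
      have h4 : R ≤ dist v k := hv.2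
      linarith)
    (by
      rintro u (hu | ⟨v, hv, huv⟩) - -
      · obtain ⟨t, ht, hut⟩ := hslit u hu
        exact hnearF u t ht (by linarith)
      · obtain ⟨t, ht, hvt⟩ := hslit v hv
        have h1 := hnet.nbr hε (nbr_symm huv) (by linarith [hv.2.2.1])
        have h2 := dist_triangle u v (ry k e t)
        rw [dist_comm u v] at h2
        exact hnearF u t ht (by linarith))
    (by
      intro u hu
      have h1 := mem_ball.1 hu.2
      exact lcut_zero J hl0 dist_nonneg (by linarith))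
    (by
      intro u hu
      exact lcut_one hl0 hJ (hR.trans hu.2))
    (by
      rintro u hu ⟨v, hv, huv⟩
      have h1 := mem_ball.1 hv.2
      have h2 := hnet.nbr hε (nbr_symm huv) (by linarith)
      have h3 := dist_triangle u v k
      rw [dist_comm u v] at h3
      exact lcut_zero J hl0 dist_nonneg (by linarith))
  refine le_trans (qpr_mono h.fin ?_) (hmain.trans ?_)
  · rintro W hW ⟨n, v, h1, h2, h3, h4⟩
    have hv0 : v 0 ∈ X ∩ ball k r := ⟨hW (h2 0 (Nat.zero_le _)).1, by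
      rw [mem_ball]; linarith⟩
    have hvn : v n ∈ {x | x ∈ X ∧ R ≤ dist x k} := ⟨hW (h2 n le_rfl).1, hD.trans h4⟩
    refine ⟨v 0, hv0, v n, hvn, ?_⟩
    have hpath : ∀ i ≤ n, Relation.ReflTransGen
        (AStep X (X ∩ ball k r) {x | x ∈ X ∧ R ≤ dist x k} F W) (v 0) (v i) := by
      intro i
      induction i with
      | zero => intro _; exact Relation.ReflTransGen.refl
      | succ i ih =>
        intro hi
        refine (ih (by omega)).tail ⟨h1 i (by omega), ⟨?_, Or.inl (h2 i (by omega)).1⟩,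
          ⟨?_, Or.inl (h2 (i + 1) hi).1⟩⟩
        · exact not_le.2 (h2 i (by omega)).2
        · exact not_le.2 (h2 (i + 1) hi).2
    exact hpath n le_rfl
  · have h5 := log_energy (D := Fc X b × ZMod 3) (fun q => dist (tail q) k)
      (fun q => dist (tail q) (head q)) h.rv h.rv_rv (fun q => dist_nonneg) (fun q => by
        show |dist (tail (h.rv q)) k - dist (tail q) k| ≤ dist (tail q) (head q)
        rw [h.tail_rv, dist_comm (tail q) (head q)]
        exact abs_dist_sub_le _ _ _) l hl0 J hJ C (hC.darts h)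
    have h6 : ∑ q : Fc X b × ZMod 3, (φ (head q) - φ (tail q)) ^ 2 =
        ∑ q : Fc X b × ZMod 3, (lcut l J (dist (tail (h.rv q)) k) - lcut l J (dist (tail q) k)) ^ 2 := by
      refine Finset.sum_congr rfl fun q _ => ?_
      rw [h.tail_rv]
    rw [h6]
    calc 8 * _ ≤ 8 * (34 * C / J) := mul_le_mul_of_nonneg_left h5 (by norm_num)
      _ = 272 * C / J := by ring

end Vale.Agent.P148.R2.H320
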