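import Vale.Agent.P148.R2.H320.DoorI
import Vale.Agent.P148.R2.H172.Sc6
import Vale.Agent.P148.R2.H910.RowDoor0

/-!
# P148, row (door) of the middle assembly
-/

set_option linter.unusedSectionVars false

open Set Relation Metric Function Filter Topology
open scoped ENNReal

namespace Vale.Agent.P148.R2.H320

open _root_.P148 _root_.P148.H729
open Vale.Agent.P148.R2.N (ms nc ms_pos cell ms_le_one)
open Vale.Agent.P148.R2.H592 (HullTri idmap)
open Vale.Agent.P148.R2.H995 (nsup)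
open Vale.Agent.P148.R2.H566 (W0 Asq Ev EvZero)
open Vale.Agent.P148.R2.H172 (Frame nA ga dcl fscOf fsc sc GoodT exists_goodT mc xb cs fX frm)
open Vale.Agent.P148.R2.H184 (Dt Wt MQ sqr sub)
open Vale.Agent.P148.R2.H678 (EJX sgX)
open Vale.Agent.P148.R2.H910 (DoorBd)

universe u

/-- The event of the doors. -/
def DoorT (c : ℝ) (M : ℕ) (T : Set Pt) : Prop :=
  ∀ k < nc M, k % (2 * M + 1) < 2 * M → ∀ (X : Set ℂ) [Fintype X], Win6 X (pts T) →
    c ≤ H838.pr (fun τ : X → Bool => DoorEv M X (whX X τ) k ∧ KEv X (whX X τ))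

theorem exists_doorT {M : ℕ} (hM : 8 ≤ M) : ∃ c > 0, Ev.{u} (DoorT c M) := by
  obtain ⟨c, hc, h⟩ := door_pr_whp.{u} hM
  refine ⟨c, hc, H291.ev_of_whp ?_⟩
  have h1 : ∀ᶠ m in F.whp.{u}, ∀ k ∈ Finset.range (nc M), k % (2 * M + 1) < 2 * M →
      ∀ (X : Set ℂ) [Fintype X], Win6 X (pts m.2) →
      c ≤ H838.pr (fun τ : X → Bool => DoorEv M X (whX X τ) k ∧ KEv X (whX X τ)) := by
    rw [Filter.eventually_all_finset]
    intro k _
    by_cases hk : k % (2 * M + 1) < 2 * M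
    · filter_upwards [h k hk.ne] with m hm _
      exact hm
    · exact Eventually.of_forall fun m h => absurd h hk
  filter_upwards [h1] with m hm k hk
  exact hm k (Finset.mem_range.2 hk)

/-- The bound of one arc. -/
theorem doorBd {N M : ℕ} (hM : 0 < M) (hM8 : 8 ≤ M) (hN : 10 * (N + 1) ≤ 2 * M + 1) {c c' : ℝ}
    (hc' : 0 < c') {T : Set Pt} (hT : GoodT c M T) (hD : DoorT c' M T) (Θ : Dt → ℂ)
    {i : (H291.site T 9 → Bool) × (H291.site T 9 → Bool)}
    (hi : (fscOf hM hT.site.hull).p i ≠ 0) (j : Fin (nA N)) :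
    DoorBd N M Θ 32 q0 8 (ENNReal.ofReal c')⁻¹ hM hT.site.hull (Kd M (dcl N M j))
      (cell M (dcl N M j)) i j := by
  obtain ⟨F, hF⟩ := hT.exists_fr hM hi hM8
  have hms := ms_pos hM
  have hms1 : ms M ≤ 1 := ms_le_one
  have hk : dcl N M j < nc M := by
    have h1 := (H172.dcl_inside hN j).2
    have h2 : ga N M (j + 1) ≤ nc M := by
      rw [← H172.ga_last (N := N)]
      exact H172.ga_mono j.2
    omega
  have key := @frame_door M _ _ _ _ (cs Subtype.val (mc M (H291.site T 9) i))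
    ((fscOf hM hT.site.hull).w i) ((fscOf hM hT.site.hull).x₀ i)
    ((fscOf hM hT.site.hull).col i) (hT.colD hM hi) (fun v => H678.cs_val _ v) F
    (fX hT.site.hull) hM8 N j hN j.2 _ (hT.B_eq hM hi)
    (H678.ctr_mem (H678.center_site hT.site))
    ((hT.site.net (ρ := ms M / 1000) (by linarith)).mono
      (closedBall_subset_closedBall (by norm_num)) le_rfl)
    (fun x y hx hxy => (hT.site.edge (closedBall_subset_closedBall (by norm_num) hx) hxy).trans
      (by linarith)) (fun j => hT.site.far j) c' hc'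
    (@hD _ hk (H172.dcl_straight hN j) (H291.site T 9) (fX hT.site.hull) (fun z hz => by
      have h1 := hT.site.agree (D := ball 0 9) subset_rfl
      have h2 : z ∈ ball (0 : ℂ) 9 := by rw [mem_ball_zero_iff]; linarith
      exact ⟨fun h => (h1.subset ⟨h, h2⟩).1, fun h => (h1.symm.subset ⟨h, h2⟩).1⟩)) Θ
  let i1 : Fintype (H291.site T 9) := fX hT.site.hull
  refine ⟨fX hT.site.hull, inferInstance, (fscOf hM hT.site.hull).x₀ i,
    cs Subtype.val (mc M (H291.site T 9) i), fun z hz _ => (H678.sgX_eq_cs _ hz).symm, ?_⟩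
  rw [hT.EJX_eq hM hi]
  show W0.msum _ (H172.arcO N j ((fscOf hM hT.site.hull).fr i)) (fun σ d =>
    ENNReal.ofReal (‖_ + H400.hvl _ _ (H172.HO N j ((fscOf hM hT.site.hull).fr i)) Θ σ d‖ ^ 2)) ≤ _
  rw [hF]
  exact key

/-- **Row (door).** -/
theorem row_door {τ : ℂ} {κ : ℝ} {Θ : Dt → ℂ} (hΘ : Wt τ κ Θ) (N : ℕ) :
    ∀ᶠ M in atTop, ∃ G : Set Pt → Prop, Ev.{u} G ∧
      EvZero.{u} fun T => ⨆ _ : G T, (sc N M T).cm (fun i J σ d =>
        ENNReal.ofReal (‖((sc N M T).w i).T.cls σ d (((sc N M T).w i).th Θ) +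
          (fsc M T).hv N Θ i J σ d‖ ^ 2)) := by
  obtain ⟨c, hc, h⟩ := exists_goodT.{u}
  filter_upwards [eventually_ge_atTop 8, eventually_ge_atTop (5 * (N + 1))] with M hM8 hMN
  have hM : 0 < M := by omega
  obtain ⟨c', hc', h'⟩ := exists_doorT.{u} hM8
  refine ⟨fun T => GoodT c M T ∧ DoorT c' M T, (h M hM).and h', ?_⟩
  refine H910.row_door_of hΘ hc N hM (m := 32) (by norm_num) q0 (L := 8) (by norm_num) ?_
    (k := (ENNReal.ofReal c')⁻¹) ?_ _ (fun T hT => hT.1) (fun j => Kd M (dcl N M j))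
    (fun j => cell M (dcl N M j)) (fun T hT hG i hi j =>
      doorBd hM hM8 (by omega) hc' hT hG.2 Θ hi j)
  · intro z hz
    obtain ⟨⟨h1, h2⟩, h3, h4⟩ := hz
    simp only [q0] at h1 h2 h3 h4
    rw [mem_ball_zero_iff]
    have h5 : ‖z‖ ^ 2 < 81 := by
      rw [← Complex.normSq_eq_norm_sq, Complex.normSq_apply]
      nlinarith
    nlinarith [norm_nonneg z]
  · rw [Ne, ENNReal.inv_eq_top, ENNReal.ofReal_eq_zero, not_le]
    exact hc'

end Vale.Agent.P148.R2.H320
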