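import Vale.Agent.P148.R2.H172.Asm
import Vale.Agent.P148.R2.H320.RowDoor

/-!
# Row (door) in the literal form of H172.Asm
-/

namespace Vale.Agent.P148.R2.H320

universe u

/-- **Row (door).** -/
theorem rowDoor {τ : ℂ} {κ : ℝ} {Θ : H184.Dt → ℂ} (hΘ : H184.Wt τ κ Θ) : H172.RowDoor.{u} Θ :=
  fun N => row_door.{u} hΘ N

end Vale.Agent.P148.R2.H320
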