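import Vale.Agent.P148.R2.H320.DoorT
import Vale.Agent.P148.R2.H938.CombQ
import Vale.Agent.P148.R2.H990.X7

/-!
# P148, row NET: lower bounds for the doors and the nets, for colourings of the site set
-/

set_option linter.unusedSectionVars false

open Set Metric Topology Filter Function

namespace Vale.Agent.P148.R2.H320

open H592 H995 H938 H871 H184 H400 Vale.Agent.P148.R2.H258
open _root_.P148
open Vale.Agent.P148.R2.F (whp)
open Vale.Agent.P148.R2.N (ms nc ms_pos)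
open Vale.Agent.P148.R2.H678 (pout sd hbox CBox CCr)

universe u

/-! ### the window -/

theorem nbr_of_window {X Y : Set ℂ} {a c : ℂ} {ρ : ℝ} (hρ : 0 < ρ)
    (hnet : H990.Net Y (closedBall a (ρ + ρ)) ρ) (hU : ∀ w, dist w a ≤ ρ + ρ → (w ∈ X ↔ w ∈ Y))
    (h : nbr Y a c) : nbr X a c := by
  obtain ⟨ha, hc, hac, z, hza, hzc⟩ := h
  have hd : dist z a ≤ ρ := H990.vcell_subset_closedBall hnet hρ hza
  have hcz : dist z c ≤ dist z a := hzc a ha
  have hca : dist c a ≤ ρ + ρ := by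
    have := dist_triangle c z a
    rw [dist_comm c z] at this
    linarith
  have haX : a ∈ X := (hU a (by rw [dist_self]; linarith)).2 ha
  have hcX : c ∈ X := (hU c hca).2 hc
  have key : ∀ w ∈ X, dist z a ≤ dist z w := by
    intro w hw
    by_contra hcon
    rw [not_le] at hcon
    have h1 : dist w a ≤ ρ + ρ := by
      have := dist_triangle w z a
      rw [dist_comm w z] at this
      linarith
    exact absurd (hza w ((hU w h1).1 hw)) (not_le.2 hcon)
  exact ⟨haX, hcX, hac, z, key, fun w hw => hcz.trans (key w hw)⟩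

/-- Local comparison of the graphs. -/
def Loc (X Y : Set ℂ) (S : ℝ) : Prop := ∀ a c, nsup a ≤ S → nbr Y a c → nbr X a c

theorem tcr_window {X Y W : Set ℂ} {S : ℝ} (hL : Loc X Y S) {ι p : ℂ} {x0 x1 y0 y1 t : ℝ}
    (hsub : ∀ z ∈ Box ι p x0 x1 y0 y1 t, nsup z ≤ S) (h : TCr Y W ι p x0 x1 y0 y1 t) :
    TCr X W ι p x0 x1 y0 y1 t := by
  obtain ⟨n, v, h1, h2, h3⟩ := h
  exact ⟨n, v, fun i hi => hL _ _ (hsub _ (h2 i (by omega)).2) (h1 i hi), h2, h3⟩

theorem cbox_sub {M k : ℕ} (hM : 8 ≤ M) (hk : k % (2 * M + 1) ≠ 2 * M) {z : ℂ}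
    (hz : z ∈ CBox M (pout M k) (pout M (k + 1))) : nsup z ≤ 7 / 5 := by
  have hM0 : 0 < M := by omega
  have ha' := ms_le hM
  obtain ⟨⟨b1, b2⟩, b3, b4⟩ := rail_coord hM0 hk hz
  have b5 := abs_le.1 (abs_yc hM0 hk)
  have hs := H995.sd_pos hM0
  have hs' : ms M = 256 * sd M := (num hM0).2.1
  rw [← nsup_turn (turn_tn M k)]
  exact max_le (abs_le.2 ⟨by linarith, by linarith⟩) (abs_le.2 ⟨by linarith, by linarith⟩)

theorem NetEv.window {X Y W : Set ℂ} (hL : Loc X Y (7 / 5)) {ι : ℂ} (hι : Turn ι) {y w d : ℝ}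
    (hd : 0 < d) (hd' : d ≤ 1 / 8) (hy : |y| + w ≤ 7 / 5) (h : NetEv Y W ι y w d) :
    NetEv X W ι y w d :=
  ⟨tcr_window hL (fun _ hz => cor_sub hι (by linarith) hy hz) h.1, fun u hu =>
    tcr_window hL (fun _ hz => ring_sub hu (by linarith) hd.le (by linarith) hz) (h.2 u hu)⟩

theorem DoorEv.window {M k : ℕ} (hM : 8 ≤ M) (hk : k % (2 * M + 1) ≠ 2 * M) {X Y W : Set ℂ}
    (hL : Loc X Y (7 / 5)) (h : DoorEv M Y W k) : DoorEv M X W k := by
  have hM0 : 0 < M := by omega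
  have ha := ms_pos hM0
  have ha' := ms_le hM
  have hy := abs_yc hM0 hk
  exact ⟨h.1.window hL (turn_tn M k) (by linarith) (by linarith) (by linarith),
    tcr_window hL (fun _ hz => cbox_sub hM hk hz) h.2⟩

/-! ### the confinement event -/

/-- A ring of crossings in the annulus between `8 / 5` and `21 / 10`. -/
def KEv (X W : Set ℂ) : Prop :=
  ∀ u, Turn u → TCr X W u 0 (-2) 2 (8 / 5) 2 (1 / 10)

theorem KEv.mono {X W W' : Set ℂ} (hW : W ∩ {z | 8 / 5 ≤ nsup z} ⊆ W') (h : KEv X W) :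
    KEv X W' := fun u hu => (h u hu).mono fun z hz => hW ⟨hz.1, by
      have := (nsup_of_box (p := 0) hu (by norm_num) hz.2 (by norm_num)).1
      rwa [sub_zero] at this⟩

/-- Outer confinement. -/
theorem KEv.no_arm {X W W' : Set ℂ} (hX : Three X) (h : KEv X W)
    (hWW : ∀ z ∈ W, 8 / 5 ≤ nsup z → z ∉ W') : ¬ SqArm (nbr X) W' 0 (3 / 2) (3 * (3 / 2)) := by
  rintro ⟨n, v, h1, h2, h3, h4⟩
  obtain ⟨K, k1, -, -, k2, -, k4⟩ := circ_of_tcr hX (p := 0) (show (0 : ℝ) < 8 / 5 by norm_num)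
    (show (8 : ℝ) / 5 < 2 by norm_num) (show (0 : ℝ) ≤ 1 / 10 by norm_num) h
  obtain ⟨i, hi, hiK⟩ := k4 n v h1 (by linarith) (by linarith)
  have h5 := (k2 _ hiK).1
  rw [sub_zero] at h5
  exact hWW _ (k1 hiK) h5 (h2 i hi)

theorem kEv_whp : ∃ c > 0, ∀ᶠ m in whp.{u}, ∀ N ⊆ pts m.2, N.Finite →
    (∀ z ∈ pts m.2, nsup z ≤ 11 / 5 → z ∈ N) → c ≤ cp N (fun W => KEv (pts m.2) W) := by
  obtain ⟨c, hc, h⟩ := tcr_whp.{u} 10
  refine ⟨c ^ 4, by positivity, ?_⟩
  have h1 : ∀ᶠ m in whp.{u}, ∀ u ∈ ({1, Complex.I, -1, -Complex.I} : Finset ℂ),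
      ∀ N ⊆ pts m.2, N.Finite → pts m.2 ∩ Box u 0 (-2) 2 (8 / 5) 2 (1 / 10) ⊆ N →
      c ≤ cp N (fun W => TCr (pts m.2) W u 0 (-2) 2 (8 / 5) 2 (1 / 10)) := by
    rw [Filter.eventually_all_finset]
    intro u hu
    have hT : Turn u := by
      simp only [Finset.mem_insert, Finset.mem_singleton] at hu
      exact hu
    exact h u 0 (-2) 2 (8 / 5) 2 (1 / 10) hT.norm (by norm_num) (by norm_num) (by norm_num)
      (by norm_num)
  filter_upwards [h1] with m h2 N hNX hN hN7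
  refine cp_ring_ge hN hc.le fun u hu => h2 u ?_ N hNX hN ?_
  · simp only [Finset.mem_insert, Finset.mem_singleton]
    exact hu
  · rintro z ⟨hz, hzB⟩
    refine hN7 z hz ?_
    have h := (nsup_of_box (p := 0) hu (by norm_num) hzB (by norm_num)).2
    rw [sub_zero] at h
    exact h.trans (by norm_num)

/-! ### colourings of the sites -/

theorem pr_whX (X : Set ℂ) [Fintype X] (Q : Set ℂ → Prop) :
    H838.pr (fun τ : X → Bool => Q (whX X τ)) = cp X Q := by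
  classical
  have h1 := H938.pr_eq_cp (e := fun x : X => x.1) Subtype.val_injective Q false
  have h2 : range (fun x : X => x.1) = X := Subtype.range_coe
  rw [h2] at h1
  rw [← h1]
  have h3 : ∀ τ : X → Bool, H938.pc (fun x : X => x.1) false τ = whX X τ := by
    intro τ
    ext z
    constructor
    · rintro ⟨v, hv, rfl⟩
      exact ⟨v.2, hv⟩
    · rintro ⟨hz, hτ⟩
      exact ⟨⟨z, hz⟩, hτ, rfl⟩
  simp only [h3]
  rw [H838.pr_eq_sum]
  unfold H953.pr H953.ex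
  congr 1

/-- The window of the doors: the sites in the disc of radius `6` are the points. -/
def Win6 (X Y : Set ℂ) : Prop := ∀ z, ‖z‖ < 6 → (z ∈ X ↔ z ∈ Y)

theorem loc_of_win {X Y : Set ℂ} (hw : Win6 X Y) (hnet : ∀ z ∈ closedBall (0 : ℂ) 6,
    ∃ w ∈ Y, dist z w ≤ 1 / 10) : Loc X Y (11 / 5) := by
  intro a c ha h
  have h1 : ‖a‖ ≤ 22 / 5 := (norm_le_nsup a).trans (by linarith)
  refine nbr_of_window (ρ := 1 / 10) (by norm_num) ?_ ?_ h
  · intro z hz
    apply hnet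
    rw [mem_closedBall] at hz
    rw [mem_closedBall_zero_iff]
    have h2 : ‖z‖ ≤ ‖a‖ + dist z a := by
      rw [Complex.dist_eq]
      calc ‖z‖ = ‖a + (z - a)‖ := by congr 1; ring
        _ ≤ _ := norm_add_le _ _
    linarith
  · intro w hw'
    apply hw
    have h2 : ‖w‖ ≤ ‖a‖ + dist w a := by
      rw [Complex.dist_eq]
      calc ‖w‖ = ‖a + (w - a)‖ := by congr 1; ring
        _ ≤ _ := norm_add_le _ _
    linarith

theorem Loc.anti {X Y : Set ℂ} {S S' : ℝ} (h : Loc X Y S) (hS : S' ≤ S) : Loc X Y S' :=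
  fun a c ha hn => h a c (ha.trans hS) hn

/-- From the points to the sites. -/
theorem cp_sites {X Y : Set ℂ} (hX : X.Finite) (hw : Win6 X Y) {Q Q' : Set ℂ → Prop} {c : ℝ}
    (hQ : ∀ W W', W ⊆ W' → Q' W → Q' W') (hQQ : ∀ W, Q W → Q' W)
    (hc : ∀ N ⊆ Y, N.Finite → (∀ z ∈ Y, nsup z ≤ 11 / 5 → z ∈ N) → c ≤ cp N Q) :
    c ≤ cp X Q' := by
  have h1 := hc (X ∩ Y) inter_subset_right (hX.subset inter_subset_left) (by
    intro z hz hz1
    refine ⟨(hw z ?_).2 hz, hz⟩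
    have := norm_le_nsup z
    linarith)
  refine h1.trans ((cp_mono (hX.subset inter_subset_left) fun W _ h => hQQ W h).trans ?_)
  exact cp_mono_set hX inter_subset_left hQ

/-- **Doors with confinement**: lower bound for the colourings of the sites. -/
theorem door_pr_whp {M : ℕ} (hM : 8 ≤ M) :
    ∃ c > 0, ∀ k, k % (2 * M + 1) ≠ 2 * M → ∀ᶠ m in whp.{u}, ∀ (X : Set ℂ) [Fintype X],
      Win6 X (pts m.2) →
      c ≤ H838.pr (fun τ : X → Bool => DoorEv M X (whX X τ) k ∧ KEv X (whX X τ)) := by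
  obtain ⟨c1, hc1, h1⟩ := door_whp.{u} hM
  obtain ⟨c2, hc2, h2⟩ := kEv_whp.{u}
  refine ⟨c1 * c2, by positivity, fun k hk => ?_⟩
  filter_upwards [h1 k hk, h2, H847.whp_net.{u} 6 (show (0 : ℝ) < 1 / 10 by norm_num)]
    with m a1 a2 a3 X _ hw
  have hX : X.Finite := X.toFinite
  have hL := loc_of_win hw a3
  rw [pr_whX X (fun W => DoorEv M X W k ∧ KEv X W)]
  have b1 : c1 ≤ cp X (fun W => DoorEv M X W k) := by
    refine cp_sites (Q := fun W => DoorEv M (pts m.2) W k) hX hw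
      (fun W W' hWW' H => H.mono hWW') (fun W H => H.window hM hk (hL.anti (by norm_num))) ?_
    intro N hNX hN hN7
    exact a1 N hNX hN fun z hz hz1 => hN7 z hz (hz1.trans (by norm_num))
  have b2 : c2 ≤ cp X (fun W => KEv X W) := by
    refine cp_sites (Q := fun W => KEv (pts m.2) W) hX hw
      (fun W W' hWW' H => H.mono fun z hz => hWW' hz.1) (fun W H u hu => ?_) a2
    refine tcr_window hL (fun z hz => ?_) (H u hu)
    have h := (nsup_of_box (p := 0) hu (by norm_num) hz (by norm_num)).2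
    rw [sub_zero] at h
    exact h.trans (by norm_num)
  refine (mul_le_mul b1 b2 hc2.le (cp_nonneg _ _)).trans ?_
  exact cp_harris_inc hX (fun W W' hWW' H => H.mono hWW')
    (fun W W' hWW' H => H.mono fun z hz => hWW' hz.1)

/-- **Nets**: lower bound for the colourings of the sites, uniform in the mesh. -/
theorem net_pr_whp {w d : ℝ} (hw : 0 < w) (hd : 0 < d) (hd' : d ≤ 1 / 8) :
    ∃ c > 0, ∀ (ι : ℂ) (y : ℝ), Turn ι → |y| + w ≤ 7 / 5 → ∀ᶠ m in whp.{u},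
      ∀ (X : Set ℂ) [Fintype X], Win6 X (pts m.2) →
      c ≤ H838.pr (fun τ : X → Bool => NetEv X (whX X τ) ι y w d) := by
  obtain ⟨c1, hc1, h1⟩ := net_whp.{u} hw hd hd'
  refine ⟨c1, by positivity, fun ι y hι hy => ?_⟩
  filter_upwards [h1 ι y hι hy, H847.whp_net.{u} 6 (show (0 : ℝ) < 1 / 10 by norm_num)]
    with m a1 a3 X _ hw
  have hX : X.Finite := X.toFinite
  have hL := loc_of_win hw a3
  rw [pr_whX X (fun W => NetEv X W ι y w d)]
  refine cp_sites (Q := fun W => NetEv (pts m.2) W ι y w d) hX hw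
    (fun W W' hWW' H => H.mono hWW')
    (fun W H => H.window (hL.anti (by norm_num)) hι hd hd' hy) ?_
  intro N hNX hN hN7
  exact a1 N hNX hN fun z hz hz1 => hN7 z hz (hz1.trans (by norm_num))

/-! ### the hypotheses of `door_MQ` -/

section world

variable {X : Set ℂ} {b : ZMod 3 → ℂ} (h : HullTri X b) {B : Set ℂ}
  (hF : Fib X (cmap X fun _ : Unit => B)) (x₀ : X)

/-- The confinement event as an event of the colourings. -/
def KX (X : Set ℂ) (τ : X → Bool) : Prop := KEv X (whX X τ)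

/-- It depends on the colours far away. -/
theorem kX_congr (hB : ∀ z ∈ X, 8 / 5 ≤ nsup z → z ∈ B) (τ τ' : X → Bool)
    (hτ : ∀ v : X, v.1 ∈ B → τ' v = τ v) (hK : KX X τ) : KX X τ' := by
  refine KEv.mono ?_ hK
  rintro z ⟨⟨hz, h1⟩, h2⟩
  exact ⟨hz, by rw [hτ _ (hB z hz h2)]; exact h1⟩

include h in
/-- On the confinement event no black path of the composite colouring crosses the annulus. -/
theorem kX_no_arm {E : Set ℂ} {ω : ℂ → Bool} (hE : ∀ z ∈ E, nsup z < 8 / 5) {τ : X → Bool}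
    (hK : KX X τ) : ¬ SqArm (nbr X) (H664.colS X (idmap X x₀) (mixB X E ω τ) true) 0 (3 / 2)
      (3 * (3 / 2)) := by
  refine KEv.no_arm h.three hK ?_
  rintro z ⟨hz, hτ⟩ hz1 ⟨-, h2⟩
  have hzE : (⟨z, hz⟩ : X) ∉ vs X E := fun h3 => absurd (hE z h3) (not_lt.2 hz1)
  have e1 : idmap X x₀ z = ⟨z, hz⟩ := Subtype.ext (idmap_val hz)
  have h3 : mixB X E ω τ (idmap X x₀ z) = true := h2
  rw [e1] at h3
  unfold mixB at h3
  rw [H838.mix_not_mem hzE, hτ] at h3
  exact absurd h3 (by decide)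

open Classical in
/-- **The hypothesis `hc` of `H400.door_MQ`.** -/
theorem door_hc [Fintype X] {M k : ℕ} (hM : 8 ≤ M) (hk : k % (2 * M + 1) ≠ 2 * M)
    {E arch H : Set ℂ} {J : Set (Fc X b × ZMod 3)} {R : Fc X b × ZMod 3 → Prop}
    (hS : X ∩ ball (pout M k) (sd M) ⊆ H) (hH : H ⊆ hbox M (pout M k))
    (hE0 : ∀ z ∈ E, z ∈ CBox M (pout M k) (pout M (k + 1)) →
      (tn M k * z).im ≤ yc M k + ms M / 8 → z ∈ H)
    (hE1 : ∀ z ∈ E, (tn M k * z).re < 1 + 3 / 4 * ms M →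
      z ∉ Cor (tn M k) (1 - 3 * (ms M / 8)) (yc M k) (ms M / 8))
    (hE3 : ∀ z ∈ E, 1 - ms M / 8 < nsup z)
    (harch : ∀ u v z, nbr X u v → u ∈ H → Chain (nbr X) (X \ H) v z → nsup z ≤ 1 - ms M / 8 →
      u ∈ arch)
    (hB : ∀ q : Fc X b × ZMod 3, tail q ∈ B → head q ∉ B → 1 - ms M / 8 < nsup (tail q))
    (hR : ∀ e, R e → nsup (head e) ≤ 1 - 3 * (ms M / 8)) {c : ℝ}
    (hc : c ≤ H838.pr (fun τ : X → Bool => DoorEv M X (whX X τ) k ∧ KEv X (whX X τ)))
    (τ : X → Bool) (d : Fc X b × ZMod 3) (hd : CntB h hF x₀ E J R τ d) :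
    c ≤ H838.pr (fun τ' => Door (TP h x₀) (vs X E) (ExB h hF x₀ d τ) (vs X arch) τ' ∧ KX X τ') :=
  hc.trans (H838.pr_mono fun _ hev =>
    ⟨door_of_ev h hF x₀ hM hk hd hS hH hE0 hE1 hE3 harch hB hR hev.1, hev.2⟩)

end world

end Vale.Agent.P148.R2.H320
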