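import Vale.Agent.P148.R2.H320.Disp

/-!
# P148, module R4a: exclusivity and the abstract arm bound

`e₂` is a face with corners `S, P, Q` (`S → P`, apex `Q`) and `e₁` a face with corners `Q, P, K`
(`Q → P`, apex `K`).  If `K` and `S` are joined by a path of the colour of `Q, K, S` which avoids
`P` and `Q`, then the lowest crossing seen from `e₂` starts with `e₁`.
-/

namespace Vale.Agent.P148.R2.H320

open Function
open Vale.Agent.P148.R2.H258

variable {V D : Type*} {T : Tri V D}

/-- A potential of a closed walk along a strand. -/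
theorem pot_st {l : List D} {N : D → ZMod 2} (h1 : ∀ d, N (T.nxt d) = N d)
    (h2 : ∀ d, (T.src d ≠ T.tgt d ∨ ∀ e ∈ l, T.src e ≠ T.src d) → N d + N (T.rev d) = T.mu l d)
    {σ : V → Bool} {f : D} (hb : T.Bi σ f) : N (T.st σ f) = N f + T.mu l (T.st σ f) := by
  have h3 := Tri.face_st (T := T) h1 hb
  have h4 : T.src (T.st σ f) ≠ T.tgt (T.st σ f) := by
    intro he
    have : T.Bi σ (T.st σ f) := (Tri.bi_st (T := T)).2 hb
    exact this (by rw [he])
  have h5 := h2 (T.st σ f) (Or.inl h4)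
  rw [h3] at h5
  have : ∀ a b c : ZMod 2, a + b = c → a = b + c := by decide
  exact this _ _ _ h5

open Classical in
theorem mu_two {l : List D} {σ : V → Bool} {e x d : D}
    (hl : ∀ g ∈ l, σ (T.src g) = σ (T.tgt g)) (he : T.Bi σ e)
    (hx : σ (T.src x) = σ (T.tgt e))
    (hd : σ (T.src d) = σ (T.src e)) (hd' : σ (T.tgt d) = σ (T.tgt e)) :
    T.mu (l ++ [e, x]) d = (if d = e then 1 else 0) + (if d = T.rev x then 1 else 0) := by
  have hdb : T.Bi σ d := by
    unfold Tri.Bi; rw [hd, hd']; exact he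
  rw [T.mu_append, T.mu_cons, T.mu_cons, T.mu_nil]
  have h0 : T.mu l d = 0 := by
    apply T.mu_zero
    · intro hm; exact hdb (hl d hm)
    · intro hm
      have := hl _ hm
      rw [T.src_rev, T.tgt_rev] at this
      exact hdb this.symm
  have h1 : ¬ (e = T.rev d) := by
    rintro h
    have h2 : T.src e = T.tgt d := by rw [h, T.src_rev]
    rw [← h2] at hd'
    exact he hd'
  have h2 : ¬ (x = d) := by
    rintro rfl
    rw [hd] at hx
    exact he hx
  have h3 : (x = T.rev d) ↔ (d = T.rev x) := by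
    constructor
    · intro h; rw [h, T.rev_rev]
    · intro h; rw [h, T.rev_rev]
  have h4 : (e = d) ↔ (d = e) := eq_comm
  rw [h0, if_neg h1, if_neg h2]
  simp only [h3, h4]
  ring

/-- The strand of `e` meets the other bichromatic edge of the closed walk exactly once. -/
theorem strand_flip [Finite D] {l : List D} {N : D → ZMod 2} (h1 : ∀ d, N (T.nxt d) = N d)
    {σ : V → Bool} {e x : D}
    (h2 : ∀ d, (T.src d ≠ T.tgt d ∨ ∀ f ∈ l ++ [e, x], T.src f ≠ T.src d) →
      N d + N (T.rev d) = T.mu (l ++ [e, x]) d)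
    (hl : ∀ g ∈ l, σ (T.src g) = σ (T.tgt g)) (he : T.Bi σ e)
    (hx : σ (T.src x) = σ (T.tgt e)) (hne : e ≠ T.rev x) :
    ∃ p, 1 ≤ p ∧ p < minimalPeriod (T.st σ) e ∧ (T.st σ)^[p] e = T.rev x ∧
      ∀ i < minimalPeriod (T.st σ) e,
        N ((T.st σ)^[i] e) = N e + (if p ≤ i then 1 else 0) := by
  classical
  set L := minimalPeriod (T.st σ) e with hL
  have hL0 : 0 < L := T.pos_period σ e
  have hstep : ∀ i, N ((T.st σ)^[i + 1] e) = N ((T.st σ)^[i] e) +
      ((if (T.st σ)^[i + 1] e = e then 1 else 0) +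
        (if (T.st σ)^[i + 1] e = T.rev x then 1 else 0)) := by
    intro i
    have hb : T.Bi σ ((T.st σ)^[i] e) := (T.bi_iter i).2 he
    rw [iterate_succ', comp_apply, pot_st h1 h2 hb]
    congr 1
    apply mu_two hl he hx
    · have := T.col_src_iter σ e (i + 1)
      rw [iterate_succ', comp_apply] at this
      exact this
    · have := T.col_tgt_iter σ e (i + 1)
      rw [iterate_succ', comp_apply] at this
      exact this
  have hinj : ∀ i < L, ∀ k < L, (T.st σ)^[i] e = (T.st σ)^[k] e → i = k := fun i hi k hk h =>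
    (iterate_eq_iterate_iff_of_lt_minimalPeriod hi hk).1 h
  have hex : ∃ p, 1 ≤ p ∧ p < L ∧ (T.st σ)^[p] e = T.rev x := by
    by_contra hc
    push Not at hc
    have h3 : ∀ i < L, N ((T.st σ)^[i] e) = N e := by
      intro i
      induction i with
      | zero => intro _; rfl
      | succ i ih =>
        intro hi
        rw [hstep i, ih (by omega), if_neg (hc (i + 1) (by omega) hi), if_neg, add_zero, add_zero]
        intro h
        have := hinj (i + 1) hi 0 hL0 h
        omega
    have h4 := hstep (L - 1)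
    rw [Nat.sub_add_cancel (by omega : 1 ≤ L), iterate_minimalPeriod, h3 (L - 1) (by omega),
      if_pos rfl, if_neg hne] at h4
    have : ∀ a : ZMod 2, ¬ (a = a + (1 + 0)) := by decide
    exact this _ h4
  obtain ⟨p, hp1, hpL, hp⟩ := hex
  refine ⟨p, hp1, hpL, hp, ?_⟩
  intro i
  induction i with
  | zero => intro _; rw [if_neg (by omega), iterate_zero, id_eq, add_zero]
  | succ i ih =>
    intro hi
    rw [hstep i, ih (by omega)]
    have h5 : (T.st σ)^[i + 1] e ≠ e := by
      intro h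
      have := hinj (i + 1) hi 0 hL0 h
      omega
    rw [if_neg h5]
    by_cases h6 : i + 1 = p
    · have h9 : (T.st σ)^[i + 1] e = T.rev x := by rw [h6]; exact hp
      rw [if_pos h9, if_neg (show ¬ p ≤ i by omega), if_pos (show p ≤ i + 1 by omega)]
      ring
    · have h7 : (T.st σ)^[i + 1] e ≠ T.rev x := by
        intro h
        rw [← hp] at h
        exact h6 (hinj _ hi _ hpL h)
      rw [if_neg h7]
      by_cases h8 : p ≤ i
      · rw [if_pos h8, if_pos (by omega)]; ring
      · rw [if_neg h8, if_neg (by omega)]; ring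

/-- `l` is a walk from `K` to `S` of colour `c` off `P` and `Q` (no condition at `K` and `S`). -/
structure IsArm (T : Tri V D) (c : Bool) (P Q K S : V) (σ : V → Bool) (l : List D) : Prop where
  walk : T.Walk K S l
  off : ∀ g ∈ l, T.src g ≠ P ∧ T.src g ≠ Q ∧ T.tgt g ≠ P ∧ T.tgt g ≠ Q
  col : ∀ g ∈ l, (T.src g = K ∨ T.src g = S ∨ σ (T.src g) = c) ∧
    (T.tgt g = K ∨ T.tgt g = S ∨ σ (T.tgt g) = c)

/-- **Exclusivity.** -/
theorem excl [Finite D] (hP : T.Planar) {e₂ e₁ : D} (hg2 : T.Good e₂)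
    (hQ : T.src e₁ = T.apex e₂) (hPt : T.tgt e₁ = T.tgt e₂) (hKS : T.apex e₁ ≠ T.src e₂)
    {σ : V → Bool} {c : Bool} (hS : σ (T.src e₂) = c) (hQc : σ (T.apex e₂) = c)
    (hPc : σ (T.tgt e₂) = !c) (hK : σ (T.apex e₁) = c) {l : List D}
    (hl : IsArm T c (T.tgt e₂) (T.apex e₂) (T.apex e₁) (T.src e₂) σ l) {g : D}
    (hr : T.Rel σ e₂ g) (hg : T.src g = T.apex e₂) : g = e₁ := by
  have hcol : ∀ f ∈ l, σ (T.src f) = c ∧ σ (T.tgt f) = c := by
    intro f hf
    obtain ⟨h1, h2⟩ := hl.col f hf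
    constructor
    · rcases h1 with h | h | h
      · rw [h, hK]
      · rw [h, hS]
      · exact h
    · rcases h2 with h | h | h
      · rw [h, hK]
      · rw [h, hS]
      · exact h
  set x := T.nxt e₁ with hx
  have hw : T.Walk (T.apex e₁) (T.apex e₁) (l ++ [e₂, x]) := by
    refine hl.walk.append ?_
    refine Tri.Walk.cons e₂ _ _ ?_
    refine Tri.Walk.cons' x ?_ ?_
    · rw [hx, T.src_nxt', hPt]
    · rw [hx, T.tgt_nxt]
      exact Tri.Walk.nil _
  obtain ⟨N, h1, h2⟩ := hP _ _ hw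
  have hbi : T.Bi σ e₂ := by
    unfold Tri.Bi; rw [hS, hPc]; cases c <;> simp
  have hmi1 : T.Mi σ e₁ := by
    refine ⟨?_, ?_⟩
    · rw [hQ, hPt, hQc, hPc]; cases c <;> simp
    · rw [hK, hQ, hQc]
  have hne : e₂ ≠ T.rev x := by
    intro h
    have h3 : T.src e₂ = T.apex e₁ := by
      rw [h, T.src_rev, hx, T.tgt_nxt]
    exact hKS h3.symm
  obtain ⟨p, hp1, hpL, hp, hN⟩ := strand_flip (T := T) h1 h2
    (fun f hf => by rw [(hcol f hf).1, (hcol f hf).2]) hbi
    (by rw [hx, T.src_nxt', hPt]) hne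
  -- the potential is constant around `Q`
  have hQN : ∀ f, T.src f = T.apex e₂ → N f = N e₂ := by
    intro f hf
    have h3 : N f = N (T.nxt (T.nxt e₂)) := by
      refine Tri.const_at T hw h1 h2 (by rw [hf, T.src_nxt2]) ?_
      intro k hk
      rw [hf]
      rcases List.mem_append.1 hk with hk | hk
      · exact (hl.off k hk).2.1
      · simp only [List.mem_cons, List.not_mem_nil, or_false] at hk
        rcases hk with rfl | rfl
        · exact fun h => hg2.2.2 h.symm
        · rw [hx, T.src_nxt', hPt]; exact hg2.2.1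
    rw [h3, h1, h1]
  -- `e₁` is at position `p - 1`
  have he1 : (T.st σ)^[p - 1] e₂ = e₁ := by
    apply T.st_injective σ
    have h3 : T.st σ ((T.st σ)^[p - 1] e₂) = (T.st σ)^[p] e₂ := by
      conv_rhs => rw [← Nat.sub_add_cancel hp1, iterate_succ', comp_apply]
    rw [h3, hp, T.st_mi hmi1]
  obtain ⟨-, -, n, hnL, hng, hdis⟩ := hr
  have hn0 : 1 ≤ n := by
    rcases Nat.eq_zero_or_pos n with h | h
    · exfalso
      subst h
      rw [iterate_zero, id_eq] at hng
      rw [← hng] at hg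
      exact hg2.2.2 hg.symm
    · exact h
  have hnp : n = p - 1 := by
    rcases lt_trichotomy n (p - 1) with h | h | h
    · exfalso
      apply hdis n (p - 1) hn0 le_rfl h (by omega)
      rw [hng, he1, hg, hQ]
    · exact h
    · exfalso
      have h3 := hN n hnL
      rw [if_pos (by omega), hng, hQN g hg] at h3
      have : ∀ a : ZMod 2, ¬ (a = a + 1) := by decide
      exact this _ h3
  rw [← hng, hnp, he1]

/-- The arm event does not depend on the colours of `P, Q, K, S`. -/
theorem IsArm.update {c : Bool} {P Q K S : V} {σ σ' : V → Bool} {l : List D}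
    (h : IsArm T c P Q K S σ l)
    (hσ : ∀ v, v ≠ P → v ≠ Q → v ≠ K → v ≠ S → σ' v = σ v) : IsArm T c P Q K S σ' l := by
  refine ⟨h.walk, h.off, fun g hg => ?_⟩
  obtain ⟨h1, h2, h3, h4⟩ := h.off g hg
  obtain ⟨h5, h6⟩ := h.col g hg
  constructor
  · by_cases hK : T.src g = K
    · exact Or.inl hK
    by_cases hS : T.src g = S
    · exact Or.inr (Or.inl hS)
    right; right
    rw [hσ _ h1 h2 hK hS]
    rcases h5 with h | h | h
    · exact absurd h hK
    · exact absurd h hS
    · exact h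
  · by_cases hK : T.tgt g = K
    · exact Or.inl hK
    by_cases hS : T.tgt g = S
    · exact Or.inr (Or.inl hS)
    right; right
    rw [hσ _ h3 h4 hK hS]
    rcases h6 with h | h | h
    · exact absurd h hK
    · exact absurd h hS
    · exact h

open Classical in
/-- Half of the colourings of an event which does not depend on the colour of `v`. -/
theorem sum_half [Fintype V] (v : V) (b : Bool) (A : (V → Bool) → Prop) [DecidablePred A]
    [DecidablePred fun σ : V → Bool => A σ ∧ σ v = b]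
    (hA : ∀ σ, A (Function.update σ v (!σ v)) ↔ A σ) :
    ∑ σ : V → Bool, (if A σ then (1 : ℝ) else 0) =
      2 * ∑ σ : V → Bool, (if A σ ∧ σ v = b then (1 : ℝ) else 0) := by
  set fl : (V → Bool) → (V → Bool) := fun σ => Function.update σ v (!σ v) with hfl
  have hinv : Function.Involutive fl := by
    intro σ
    simp only [hfl]
    rw [Function.update_self, Function.update_idem, Bool.not_not, Function.update_eq_self]
  have h1 : ∑ σ : V → Bool, (if A σ ∧ σ v = b then (1 : ℝ) else 0) =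
      ∑ σ : V → Bool, (if A σ ∧ ¬ σ v = b then (1 : ℝ) else 0) := by
    rw [← Equiv.sum_comp (Function.Involutive.toPerm fl hinv)]
    apply Finset.sum_congr rfl
    intro σ _
    have h2 : (Function.Involutive.toPerm fl hinv) σ = fl σ := rfl
    rw [h2]
    have h3 : fl σ v = b ↔ ¬ σ v = b := by
      simp only [hfl, Function.update_self]
      cases σ v <;> cases b <;> simp
    have h4 : A (fl σ) ↔ A σ := hA σ
    simp only [h3, h4]
  have h2 : ∑ σ : V → Bool, (if A σ then (1 : ℝ) else 0) =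
      ∑ σ : V → Bool, ((if A σ ∧ σ v = b then (1 : ℝ) else 0) +
        (if A σ ∧ ¬ σ v = b then (1 : ℝ) else 0)) := by
    apply Finset.sum_congr rfl
    intro σ _
    by_cases h3 : A σ
    · by_cases h4 : σ v = b
      · simp [h3, h4]
      · simp [h3, h4]
    · simp [h3]
  rw [h2, Finset.sum_add_distrib, ← h1]
  ring

open Classical in
/-- **The abstract arm bound.** -/
theorem arm_le [Fintype D] [Fintype V] (hP : T.Planar) {e₂ e₁ : D} (hg2 : T.Good e₂)
    (hg1 : T.Good e₁) (hQ : T.src e₁ = T.apex e₂) (hPt : T.tgt e₁ = T.tgt e₂)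
    (hKS : T.apex e₁ ≠ T.src e₂) {φ : D → ℝ} (hφ : Cmp T e₂ φ) (hφ1 : φ e₁ = 0)
    (hφS : ∀ d, T.src d = T.src e₂ → φ d = 1) (c : Bool) :
    ∑ σ : V → Bool, (if ∃ l, IsArm T c (T.tgt e₂) (T.apex e₂) (T.apex e₁) (T.src e₂) σ l
      then (1 : ℝ) else 0) ≤ 2 ^ Fintype.card V * (8 * dir T φ) := by
  set S := T.src e₂ with hSd
  set P := T.tgt e₂ with hPd
  set Q := T.apex e₂ with hQd
  set K := T.apex e₁ with hKd
  have hSP : S ≠ P := hg2.1
  have hPQ : P ≠ Q := hg2.2.1
  have hQS : Q ≠ S := hg2.2.2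
  have hPK : P ≠ K := by rw [← hPt]; exact hg1.2.1
  have hQK : Q ≠ K := by rw [← hQ]; exact hg1.2.2.symm
  set A : (V → Bool) → Prop := fun σ => ∃ l, IsArm T c P Q K S σ l with hA
  have hAu : ∀ v, (v = P ∨ v = Q ∨ v = K ∨ v = S) → ∀ σ (x : Bool),
      A (Function.update σ v x) ↔ A σ := by
    intro v hv σ x
    have h1 : ∀ w, w ≠ P → w ≠ Q → w ≠ K → w ≠ S → Function.update σ v x w = σ w := by
      intro w h1 h2 h3 h4
      rw [Function.update_of_ne]
      rintro rfl
      rcases hv with h | h | h | h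
      · exact h1 h
      · exact h2 h
      · exact h3 h
      · exact h4 h
    constructor
    · rintro ⟨l, hl⟩
      exact ⟨l, hl.update fun w h2 h3 h4 h5 => (h1 w h2 h3 h4 h5).symm⟩
    · rintro ⟨l, hl⟩
      exact ⟨l, hl.update h1⟩
  have e1 : ∑ σ : V → Bool, (if A σ then (1 : ℝ) else 0) =
      2 * ∑ σ : V → Bool, (if A σ ∧ σ P = !c then (1 : ℝ) else 0) := by
    exact sum_half (V := V) P (!c) A (fun σ => hAu P (Or.inl rfl) σ _)
  have e2 : ∑ σ : V → Bool, (if A σ ∧ σ P = !c then (1 : ℝ) else 0) =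
      2 * ∑ σ : V → Bool, (if (A σ ∧ σ P = !c) ∧ σ Q = c then (1 : ℝ) else 0) := by
    exact sum_half (V := V) Q c (fun σ => A σ ∧ σ P = !c) (fun σ => by
      rw [hAu Q (Or.inr (Or.inl rfl)), Function.update_of_ne hPQ])
  have e3 : ∑ σ : V → Bool, (if (A σ ∧ σ P = !c) ∧ σ Q = c then (1 : ℝ) else 0) =
      2 * ∑ σ : V → Bool, (if ((A σ ∧ σ P = !c) ∧ σ Q = c) ∧ σ K = c then (1 : ℝ) else 0) := by
    exact sum_half (V := V) K c (fun σ => (A σ ∧ σ P = !c) ∧ σ Q = c) (fun σ => by
      rw [hAu K (Or.inr (Or.inr (Or.inl rfl))), Function.update_of_ne hPK,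
        Function.update_of_ne hQK])
  have e4 : ∑ σ : V → Bool, (if ((A σ ∧ σ P = !c) ∧ σ Q = c) ∧ σ K = c then (1 : ℝ) else 0) =
      2 * ∑ σ : V → Bool, (if (((A σ ∧ σ P = !c) ∧ σ Q = c) ∧ σ K = c) ∧ σ S = c
        then (1 : ℝ) else 0) := by
    exact sum_half (V := V) S c (fun σ => ((A σ ∧ σ P = !c) ∧ σ Q = c) ∧ σ K = c) (fun σ => by
      rw [hAu S (Or.inr (Or.inr (Or.inr rfl))), Function.update_of_ne hSP.symm,
        Function.update_of_ne hQS, Function.update_of_ne hKS])
  rw [e1, e2, e3, e4]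
  have e5 : ∑ σ : V → Bool, (if (((A σ ∧ σ P = !c) ∧ σ Q = c) ∧ σ K = c) ∧ σ S = c
      then (1 : ℝ) else 0) ≤ 2 ^ Fintype.card V * (dir T φ / 2) := by
    refine le_trans (le_of_eq ?_) (disp_le hP hg2 hφ
      (fun σ => if (((A σ ∧ σ P = !c) ∧ σ Q = c) ∧ σ K = c) ∧ σ S = c then (1 : ℝ) else 0) ?_)
    · apply Finset.sum_congr rfl
      intro σ _
      by_cases h : (((A σ ∧ σ P = !c) ∧ σ Q = c) ∧ σ K = c) ∧ σ S = c
      · have hm : T.Mi σ e₂ := by
          refine ⟨?_, ?_⟩
          · rw [← hSd, ← hPd, h.2, h.1.1.1.2]; cases c <;> simp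
          · rw [← hSd, ← hQd, h.2, h.1.1.2]
        rw [if_pos h, if_pos hm]
      · rw [if_neg h]; simp
    · intro σ hm g₁ g₂ h1 h1' h2 h2'
      by_cases h : (((A σ ∧ σ P = !c) ∧ σ Q = c) ∧ σ K = c) ∧ σ S = c
      · simp only [if_pos h]
        obtain ⟨⟨⟨⟨⟨l, hl⟩, hp⟩, hq⟩, hk⟩, hs⟩ := h
        have h3 := excl hP hg2 hQ hPt hKS hs hq hp hk hl h1 h1'
        rw [h3, hφ1, hφS _ (by rw [T.src_nxt2, h2'])]
        norm_num
      · simp only [if_neg h]
        positivity
  linarith

end Vale.Agent.P148.R2.H320
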