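import Vale.Agent.P148.R2.H258.A4
import Vale.Agent.P148.R2.H258.A5

/-!
# P148, module R1': the displacement inequality of the lowest crossing

For a real function `φ` of the corners (a dart `d` stands for the corner at its tail) the class of
the outer face `o` telescopes: the imaginary part of its value on the rotating weight of `φ` is the
difference of `φ` between the two ends of the lowest crossing.  The energy identity then bounds the
second moment of this difference by the Dirichlet energy of `φ`.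
-/

namespace Vale.Agent.P148.R2.H320

open Function ComplexConjugate
open Vale.Agent.P148.R2.H258

variable {V D : Type*} (T : Tri V D)

theorem good_nxt_iff {d : D} : T.Good (T.nxt d) ↔ T.Good d :=
  ⟨fun h => by have := h.nxt.nxt; rwa [T.nxt3] at this, fun h => h.nxt⟩

open Classical in
/-- The rotating weight of a real function of the corners. -/
noncomputable def wt (τ : ℂ) (o : D) (φ : D → ℝ) (d : D) : ℂ :=
  if T.Good d ∧ d ≠ o ∧ d ≠ T.nxt o ∧ d ≠ T.nxt (T.nxt o) then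
    (φ (T.nxt d) : ℂ) + τ * φ (T.nxt (T.nxt d)) + τ ^ 2 * φ d else 0

theorem wt_of_not_good {τ : ℂ} {o : D} {φ : D → ℝ} {d : D} (h : ¬ T.Good d) :
    wt T τ o φ d = 0 := by
  unfold wt; rw [if_neg (fun h' => h h'.1)]

theorem wt_outer {τ : ℂ} {o : D} {φ : D → ℝ} : wt T τ o φ o = 0 := by
  unfold wt; rw [if_neg (fun h' => h'.2.1 rfl)]

theorem wt_nxt {τ : ℂ} (hτ : τ ^ 2 + τ + 1 = 0) (o : D) (φ : D → ℝ) (d : D) :
    wt T τ o φ (T.nxt d) = τ ^ 2 * wt T τ o φ d := by
  have inj : ∀ x y : D, T.nxt x = T.nxt y ↔ x = y := fun x y => T.nxtEquiv.injective.eq_iff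
  have h3 := Tri.tau_pow_three hτ
  have hiff : (T.Good (T.nxt d) ∧ T.nxt d ≠ o ∧ T.nxt d ≠ T.nxt o ∧ T.nxt d ≠ T.nxt (T.nxt o)) ↔
      (T.Good d ∧ d ≠ o ∧ d ≠ T.nxt o ∧ d ≠ T.nxt (T.nxt o)) := by
    have h1 : T.nxt d = o ↔ d = T.nxt (T.nxt o) := by
      rw [← inj d, T.nxt3]
    simp only [good_nxt_iff, ne_eq, inj, h1]
    tauto
  unfold wt
  by_cases h : T.Good d ∧ d ≠ o ∧ d ≠ T.nxt o ∧ d ≠ T.nxt (T.nxt o)
  · rw [if_pos h, if_pos (hiff.2 h), T.nxt3]
    linear_combination (-(φ (T.nxt (T.nxt d)) : ℂ) - τ * φ d) * h3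
  · rw [if_neg h, if_neg (fun h' => h (hiff.1 h')), mul_zero]

theorem norm_rot_sq {τ : ℂ} (hτ : τ ^ 2 + τ + 1 = 0) (a b c : ℝ) :
    ‖(a : ℂ) + τ * b + τ ^ 2 * c‖ ^ 2 = ((a - b) ^ 2 + (b - c) ^ 2 + (c - a) ^ 2) / 2 := by
  have h3 := Tri.tau_pow_three hτ
  have hc := Tri.conj_tau hτ
  have h : ((‖(a : ℂ) + τ * b + τ ^ 2 * c‖ ^ 2 : ℝ) : ℂ) =
      (((a - b) ^ 2 + (b - c) ^ 2 + (c - a) ^ 2) / 2 : ℝ) := by
    rw [← Complex.normSq_eq_norm_sq, ← Complex.mul_conj]
    simp only [map_add, map_mul, map_pow, Complex.conj_ofReal, hc]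
    push_cast
    linear_combination ((b : ℂ) ^ 2 + (c : ℂ) ^ 2 * (τ ^ 3 + 1) + a * c * τ +
      b * c * (τ + τ ^ 2)) * h3 +
      (a * b + b * c + a * c : ℂ) * hτ
  exact_mod_cast h

open Classical in
theorem norm_wt_sq_le {τ : ℂ} (hτ : τ ^ 2 + τ + 1 = 0) (o : D) (φ : D → ℝ) (d : D) :
    ‖wt T τ o φ d‖ ^ 2 ≤ if T.Good d then ((φ (T.nxt d) - φ (T.nxt (T.nxt d))) ^ 2 +
      (φ (T.nxt (T.nxt d)) - φ d) ^ 2 + (φ d - φ (T.nxt d)) ^ 2) / 2 else 0 := by
  unfold wt
  by_cases h : T.Good d ∧ d ≠ o ∧ d ≠ T.nxt o ∧ d ≠ T.nxt (T.nxt o)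
  · rw [if_pos h, if_pos h.1, norm_rot_sq hτ]
  · rw [if_neg h, norm_zero, zero_pow two_ne_zero]
    split_ifs
    · positivity
    · exact le_rfl

open Classical in
/-- The Dirichlet energy of a function of the corners, over the good faces. -/
noncomputable def dir [Fintype D] (φ : D → ℝ) : ℝ :=
  ∑ d, if T.Good d then (φ (T.nxt d) - φ d) ^ 2 else 0

theorem dir_nonneg [Fintype D] (φ : D → ℝ) : 0 ≤ dir T φ := by
  unfold dir
  exact Finset.sum_nonneg fun d _ => by
    split_ifs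
    · positivity
    · exact le_rfl

open Classical in
theorem sum_wt_sq_le [Fintype D] {τ : ℂ} (hτ : τ ^ 2 + τ + 1 = 0) (o : D) (φ : D → ℝ) :
    ∑ d, ‖wt T τ o φ d‖ ^ 2 ≤ 3 / 2 * dir T φ := by
  have h1 : ∀ d, ‖wt T τ o φ d‖ ^ 2 ≤
      ((if T.Good (T.nxt d) then (φ (T.nxt (T.nxt d)) - φ (T.nxt d)) ^ 2 else 0) +
      (if T.Good (T.nxt (T.nxt d)) then
        (φ (T.nxt (T.nxt (T.nxt d))) - φ (T.nxt (T.nxt d))) ^ 2 else 0) +
      (if T.Good d then (φ (T.nxt d) - φ d) ^ 2 else 0)) / 2 := by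
    intro d
    refine (norm_wt_sq_le T hτ o φ d).trans ?_
    simp only [good_nxt_iff, T.nxt3]
    split_ifs
    · apply le_of_eq; ring
    · norm_num
  refine (Finset.sum_le_sum fun d _ => h1 d).trans (le_of_eq ?_)
  rw [← Finset.sum_div, Finset.sum_add_distrib, Finset.sum_add_distrib,
    T.sum_nxt (fun d => if T.Good d then (φ (T.nxt d) - φ d) ^ 2 else 0),
    T.sum_nxt (fun d => if T.Good (T.nxt d) then (φ (T.nxt (T.nxt d)) - φ (T.nxt d)) ^ 2 else 0),
    T.sum_nxt (fun d => if T.Good d then (φ (T.nxt d) - φ d) ^ 2 else 0)]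
  unfold dir
  ring

/-- The functions of the corners which come from a function of the vertices away from the three
corners of the outer face. -/
def Cmp (o : D) (φ : D → ℝ) : Prop := ∀ d e, T.src d = T.src e → T.src d ≠ T.src o →
  T.src d ≠ T.tgt o → T.src d ≠ T.apex o → φ d = φ e

theorem rot_im {τ : ℂ} (hτ : τ ^ 2 + τ + 1 = 0) (a b c : ℝ) :
    ((a : ℂ) + τ * b + τ ^ 2 * c).im = τ.im * (b - c) := by
  have : τ ^ 2 = -1 - τ := by linear_combination hτ
  rw [this]
  simp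
  ring

variable {T}

theorem good_of_mi {σ : V → Bool} {d : D} (h : T.Mi σ d) (hg : T.apex d ≠ T.src d) :
    T.Good d := by
  refine ⟨fun h1 => h.1 (by rw [h1]), fun h1 => h.1 ?_, hg⟩
  rw [h1]; exact h.2.symm

open Classical in
/-- The class of the outer face telescopes. -/
theorem cls_im [Fintype D] (hP : T.Planar) {σ : V → Bool} {o : D} (h : T.Mi σ o) (hg : T.Good o)
    {τ : ℂ} (hτ : τ ^ 2 + τ + 1 = 0) {φ : D → ℝ} (hφ : Cmp T o φ) {g₁ g₂ : D}
    (h1 : T.Rel σ o g₁) (h1' : T.src g₁ = T.apex o) (h2 : T.Rel σ o g₂) (h2' : T.apex g₂ = T.src o) :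
    (T.cls σ o (wt T τ o φ)).im = τ.im * (φ (T.nxt (T.nxt g₂)) - φ g₁) := by
  obtain ⟨m, f, hm, f0, fm, hf, hinj, hrel, hnd⟩ := T.class_cycle hP h hg.2.2
  -- `m ≥ 2`
  have hm2 : 2 ≤ m := by
    by_contra hc
    have hm1 : m = 1 := by omega
    subst hm1
    have := hf 0 (by omega)
    rw [fm, f0] at this
    exact hg.2.2 this.symm
  have hMi : ∀ i < m, T.Mi σ (f i) := fun i hi => ((hrel (f i)).2 ⟨i, hi, rfl⟩).2.1
  have hcol : ∀ i < m, σ (T.src (f i)) = σ (T.src o) := by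
    intro i hi
    induction i with
    | zero => rw [f0]
    | succ i ih =>
      rw [hf i (by omega), (hMi i (by omega)).2, ih (by omega)]
  -- the sum over the class
  have hsum : T.cls σ o (wt T τ o φ) = ∑ i ∈ Finset.range m, wt T τ o φ (f i) := by
    unfold Tri.cls
    rw [← Finset.sum_filter]
    symm
    apply Finset.sum_bij (fun i _ => f i)
    · intro i hi
      rw [Finset.mem_filter]
      exact ⟨Finset.mem_univ _, T.rel_symm ((hrel (f i)).2 ⟨i, Finset.mem_range.1 hi, rfl⟩)⟩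
    · intro i hi k hk hik
      exact hinj i (Finset.mem_range.1 hi) k (Finset.mem_range.1 hk) (by rw [hik])
    · intro g hgm
      rw [Finset.mem_filter] at hgm
      obtain ⟨i, hi, rfl⟩ := (hrel g).1 (T.rel_symm hgm.2)
      exact ⟨i, Finset.mem_range.2 hi, rfl⟩
    · intro i _; rfl
  have hwt : ∀ i, 1 ≤ i → i < m → (wt T τ o φ (f i)).im =
      τ.im * (φ (T.nxt (T.nxt (f i))) - φ (f i)) := by
    intro i hi1 hi
    have hgood : T.Good (f i) := good_of_mi (hMi i hi) (hnd i hi)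
    have hne0 : f i ≠ o := by
      intro he
      have := hinj i hi 0 (by omega) (by rw [he, f0])
      omega
    have hne1 : f i ≠ T.nxt o := by
      intro he
      exact T.mi_face1 h (he ▸ hMi i hi)
    have hne2 : f i ≠ T.nxt (T.nxt o) := by
      intro he
      exact T.mi_face2 h (he ▸ hMi i hi)
    unfold wt
    rw [if_pos ⟨hgood, hne0, hne1, hne2⟩, rot_im hτ]
  have hstep : ∀ i, 1 ≤ i → i + 1 < m → φ (T.nxt (T.nxt (f i))) = φ (f (i + 1)) := by
    intro i hi1 hi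
    apply hφ
    · rw [T.src_nxt2, hf i (by omega)]
    · rw [T.src_nxt2, ← hf i (by omega), ← f0]
      intro he
      have := hinj (i + 1) hi 0 (by omega) he
      omega
    · rw [T.src_nxt2, ← hf i (by omega)]
      intro he
      have h3 := hcol (i + 1) hi
      rw [he] at h3
      exact h.1 h3.symm
    · rw [T.src_nxt2, ← hf i (by omega)]
      intro he
      have h3 : T.apex o = T.src (f 1) := by
        have := hf 0 (by omega)
        rw [f0] at this
        exact this.symm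
      rw [h3] at he
      have := hinj (i + 1) hi 1 (by omega) he
      omega
  have htel : ∀ k, 1 ≤ k → k < m → ∑ i ∈ Finset.range (k + 1), (wt T τ o φ (f i)).im =
      τ.im * (φ (T.nxt (T.nxt (f k))) - φ (f 1)) := by
    intro k hk1
    induction k, hk1 using Nat.le_induction with
    | base =>
      intro hk
      rw [Finset.sum_range_succ, Finset.sum_range_one, f0, wt_outer, hwt 1 le_rfl hk]
      simp
    | succ k hk1 ih =>
      intro hk
      rw [Finset.sum_range_succ, ih (by omega), hwt (k + 1) (by omega) hk,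
        hstep k hk1 hk]
      ring
  have hg1 : g₁ = f 1 := by
    obtain ⟨i, hi, rfl⟩ := (hrel g₁).1 h1
    have h3 : T.src (f i) = T.src (f 1) := by
      rw [h1', ← f0, ← hf 0 (by omega)]
    rw [hinj i hi 1 (by omega) h3]
  have hg2 : g₂ = f (m - 1) := by
    obtain ⟨i, hi, rfl⟩ := (hrel g₂).1 h2
    by_cases hi1 : i + 1 < m
    · exfalso
      have h3 : T.src (f (i + 1)) = T.src (f 0) := by
        rw [hf i hi, h2', f0]
      have := hinj (i + 1) hi1 0 (by omega) h3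
      omega
    · have : i = m - 1 := by omega
      rw [this]
  have h4 := htel (m - 1) (by omega) (by omega)
  rw [Nat.sub_add_cancel (by omega : 1 ≤ m)] at h4
  rw [hsum, Complex.im_sum, h4, hg1, hg2]

/-- The first and the last members of the class of the outer face. -/
theorem exists_ends [Finite D] (hP : T.Planar) {σ : V → Bool} {o : D} (h : T.Mi σ o)
    (hg : T.Good o) : ∃ g₁ g₂ : D, T.Rel σ o g₁ ∧ T.src g₁ = T.apex o ∧ T.Rel σ o g₂ ∧
      T.apex g₂ = T.src o := by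
  obtain ⟨m, f, hm, f0, fm, hf, hinj, hrel, hnd⟩ := T.class_cycle hP h hg.2.2
  have hm2 : 2 ≤ m := by
    by_contra hc
    have hm1 : m = 1 := by omega
    subst hm1
    have := hf 0 (by omega)
    rw [fm, f0] at this
    exact hg.2.2 this.symm
  refine ⟨f 1, f (m - 1), (hrel _).2 ⟨1, by omega, rfl⟩, ?_, (hrel _).2 ⟨m - 1, by omega, rfl⟩, ?_⟩
  · rw [hf 0 (by omega), f0]
  · rw [← hf (m - 1) (by omega), Nat.sub_add_cancel (by omega : 1 ≤ m), fm]

open Classical in
/-- **The displacement inequality.** -/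
theorem disp_le [Fintype D] [Fintype V] (hP : T.Planar) {o : D} (hg : T.Good o) {φ : D → ℝ}
    (hφ : Cmp T o φ) (F : (V → Bool) → ℝ)
    (hF : ∀ σ, T.Mi σ o → ∀ g₁ g₂, T.Rel σ o g₁ → T.src g₁ = T.apex o → T.Rel σ o g₂ →
      T.apex g₂ = T.src o → F σ ≤ (φ (T.nxt (T.nxt g₂)) - φ g₁) ^ 2) :
    ∑ σ : V → Bool, (if T.Mi σ o then F σ else 0) ≤ 2 ^ Fintype.card V * (dir T φ / 2) := by
  set τ : ℂ := ⟨-1 / 2, Real.sqrt 3 / 2⟩ with hτd
  have h3 : Real.sqrt 3 ^ 2 = 3 := Real.sq_sqrt (by norm_num)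
  have hτ : τ ^ 2 + τ + 1 = 0 := by
    apply Complex.ext
    · simp [hτd, pow_two]
      nlinarith
    · simp [hτd, pow_two]
      ring
  have him : τ.im ^ 2 = 3 / 4 := by
    show (Real.sqrt 3 / 2) ^ 2 = 3 / 4
    rw [div_pow, h3]; norm_num
  -- energy identity
  have hen := T.energy hP hτ (wt_nxt T hτ o φ) (wt_nxt T hτ o φ)
    (fun d hd => wt_of_not_good T hd)
  have hre := congrArg Complex.re hen
  have e1 : ∀ σ : V → Bool, 3 / 4 * (if T.Mi σ o then F σ else 0) ≤
      (∑ d, ∑ e, (if T.Rel σ d e then wt T τ o φ d * conj (wt T τ o φ e) else 0)).re := by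
    intro σ
    refine le_trans ?_ (T.cls_le σ o (wt T τ o φ))
    by_cases hm : T.Mi σ o
    · rw [if_pos hm]
      obtain ⟨g₁, g₂, h1, h1', h2, h2'⟩ := exists_ends hP hm hg
      have h4 := cls_im hP hm hg hτ hφ h1 h1' h2 h2'
      have h5 : (T.cls σ o (wt T τ o φ)).im ^ 2 ≤ ‖T.cls σ o (wt T τ o φ)‖ ^ 2 := by
        rw [← sq_abs]
        exact pow_le_pow_left₀ (abs_nonneg _) (Complex.abs_im_le_norm _) 2
      refine le_trans ?_ h5
      rw [h4, mul_pow, him]
      exact mul_le_mul_of_nonneg_left (hF σ hm g₁ g₂ h1 h1' h2 h2') (by norm_num)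
    · rw [if_neg hm, mul_zero]
      positivity
  have e2 : 3 / 4 * ∑ σ : V → Bool, (if T.Mi σ o then F σ else 0) ≤
      (∑ σ : V → Bool, ∑ d, ∑ e,
        (if T.Rel σ d e then wt T τ o φ d * conj (wt T τ o φ e) else 0)).re := by
    rw [Finset.mul_sum, Complex.re_sum]
    exact Finset.sum_le_sum fun σ _ => e1 σ
  have e3 : ((2 : ℂ) ^ Fintype.card V * ∑ d, wt T τ o φ d * conj (wt T τ o φ d)).re =
      2 ^ Fintype.card V * ∑ d, ‖wt T τ o φ d‖ ^ 2 := by
    have : ((2 : ℂ) ^ Fintype.card V * ∑ d, wt T τ o φ d * conj (wt T τ o φ d)) =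
        ((2 ^ Fintype.card V * ∑ d, ‖wt T τ o φ d‖ ^ 2 : ℝ) : ℂ) := by
      push_cast
      congr 1
      apply Finset.sum_congr rfl
      intro d _
      rw [Complex.mul_conj, Complex.normSq_eq_norm_sq]
      push_cast
      rfl
    rw [this, Complex.ofReal_re]
  rw [e3] at hre
  have e4 : ((4 : ℂ) * ∑ σ : V → Bool, ∑ d, ∑ e,
        (if T.Rel σ d e then wt T τ o φ d * conj (wt T τ o φ e) else 0)).re =
      4 * (∑ σ : V → Bool, ∑ d, ∑ e,
        (if T.Rel σ d e then wt T τ o φ d * conj (wt T τ o φ e) else 0)).re := by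
    rw [Complex.mul_re]
    simp
  rw [e4] at hre
  have e5 := sum_wt_sq_le T hτ o φ
  have e6 : (0 : ℝ) < 2 ^ Fintype.card V := by positivity
  have e7 := mul_le_mul_of_nonneg_left e5 e6.le
  nlinarith [e2, hre, e7]

end Vale.Agent.P148.R2.H320
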