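import Vale.Agent.P148.R2.H995.CrossW
import Vale.Agent.P148.R2.H995.CombGeo2
import Vale.Agent.P148.R2.H871.CW1

/-!
# P148, row NET: the net event and the door event

* `NetEv` : a radial corridor of half width `w` through the ring into the inner square, and a ring
  of crossings at depth between `d` and `3 d`;
* `DoorEv` : the same at the scale of the mesh, in the middle of the straight cell `k`, together
  with the corridor between the outer hubs of the gates `k`, `k + 1`;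
* `net_whp`, `door_whp` : lower bounds, quenched, with high probability;
* `net_walk`, `door_walk` : the walks.
-/

open Set Metric Topology Filter

namespace Vale.Agent.P148.R2.H320

open H592 H995 H938 H871
open _root_.P148
open Vale.Agent.P148.R2.F (whp)
open Vale.Agent.P148.R2.N (ms nc ms_pos)
open Vale.Agent.P148.R2.H678 (pout sd hbox CBox CCr)

universe u

/-- The radial corridor. -/
def Cor (ι : ℂ) (x0 y w : ℝ) : Set ℂ := Box ι 0 x0 (27 / 20) (y - w) (y + w) (1 / 20)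

/-- The net event. -/
def NetEv (X W : Set ℂ) (ι : ℂ) (y w d : ℝ) : Prop :=
  TCr X W ι 0 (1 - 3 * d) (27 / 20) (y - w) (y + w) (1 / 20) ∧
    ∀ u, Turn u → TCr X W u 0 (-(1 - 2 * d)) (1 - 2 * d) (1 - 3 * d) (1 - 2 * d) d

theorem nsup_turn {ι : ℂ} (hι : Turn ι) (z : ℂ) : nsup (ι * z) = nsup z := by
  rcases hι with rfl | rfl | rfl | rfl
  · rw [one_mul]
  · simp [nsup, Complex.mul_re, Complex.mul_im, max_comm]
  · simp [nsup]
  · simp [nsup, Complex.mul_re, Complex.mul_im, max_comm]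

/-- The turn of the side of the cell `k`. -/
noncomputable def tn (M k : ℕ) : ℂ := (-Complex.I) ^ (k / (2 * M + 1))

/-- The height of the centre of the cell `k` in the frame of its side. -/
noncomputable def yc (M k : ℕ) : ℝ := -1 + ms M / 2 + (k % (2 * M + 1) : ℕ) * ms M

/-- The door event of the (straight) cell `k`. -/
def DoorEv (M : ℕ) (X W : Set ℂ) (k : ℕ) : Prop :=
  NetEv X W (tn M k) (yc M k) (ms M / 8) (ms M / 8) ∧ CCr M X W (pout M k) (pout M (k + 1))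

theorem tcr_up {X W W' : Set ℂ} {ι p : ℂ} {x0 x1 y0 y1 t : ℝ} (hW : W ⊆ W')
    (h : TCr X W ι p x0 x1 y0 y1 t) : TCr X W' ι p x0 x1 y0 y1 t := h.mono fun _ hz => hW hz.1

theorem NetEv.mono {X W W' : Set ℂ} {ι : ℂ} {y w d : ℝ} (hW : W ⊆ W') (h : NetEv X W ι y w d) :
    NetEv X W' ι y w d := ⟨tcr_up hW h.1, fun u hu => tcr_up hW (h.2 u hu)⟩

theorem DoorEv.mono {M k : ℕ} {X W W' : Set ℂ} (hW : W ⊆ W') (h : DoorEv M X W k) :
    DoorEv M X W' k := ⟨h.1.mono hW, tcr_up hW h.2⟩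

theorem turn_tn (M k : ℕ) : Turn (tn M k) := by
  unfold tn
  generalize k / (2 * M + 1) = s
  induction s with
  | zero => exact Or.inl (pow_zero _)
  | succ s ih =>
    rw [pow_succ]
    rcases ih with h | h | h | h
    · rw [h, one_mul]; exact Or.inr (Or.inr (Or.inr rfl))
    · rw [h]; exact Or.inl (by rw [mul_neg, Complex.I_mul_I, neg_neg])
    · rw [h]; exact Or.inr (Or.inl (by ring))
    · rw [h]; exact Or.inr (Or.inr (Or.inl (by rw [neg_mul_neg, Complex.I_mul_I])))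

theorem ms_le {M : ℕ} (hM : 8 ≤ M) : ms M ≤ 1 / 8 := by
  unfold ms
  have h : (8 : ℝ) ≤ M := by exact_mod_cast hM
  exact one_div_le_one_div_of_le (by norm_num) h

theorem abs_yc {M k : ℕ} (hM : 0 < M) (hk : k % (2 * M + 1) ≠ 2 * M) :
    |yc M k| ≤ 1 - ms M / 2 := by
  have h1 := N.M_mul_ms hM
  have h0 := ms_pos hM
  have h2 := Nat.mod_lt k (show 0 < 2 * M + 1 by omega)
  have h3 : k % (2 * M + 1) + 1 ≤ 2 * M := by omega
  have h4 : ((k % (2 * M + 1) : ℕ) : ℝ) + 1 ≤ 2 * M := by exact_mod_cast h3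
  have h5 : (((k % (2 * M + 1) : ℕ) : ℝ) + 1) * ms M ≤ 2 * M * ms M :=
    mul_le_mul_of_nonneg_right h4 h0.le
  have h6 : (0 : ℝ) ≤ ((k % (2 * M + 1) : ℕ) : ℝ) * ms M := by positivity
  unfold yc
  rw [abs_le]
  constructor <;> nlinarith

/-- The rail box of a straight cell in the frame of the side. -/
theorem rail_coord {M k : ℕ} (hM : 0 < M) (hk : k % (2 * M + 1) ≠ 2 * M) {z : ℂ}
    (hz : z ∈ CBox M (pout M k) (pout M (k + 1))) :
    (1 + 9 / 16 * ms M - sd M / 8 ≤ (tn M k * z).re ∧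
      (tn M k * z).re ≤ 1 + 9 / 16 * ms M + sd M / 8) ∧
    (yc M k - ms M / 2 + 3 * sd M / 8 ≤ (tn M k * z).im ∧
      (tn M k * z).im ≤ yc M k + ms M / 2 - 3 * sd M / 8) := by
  have e : Complex.I ^ (k / (2 * M + 1)) * (tn M k * z) = z := N.I_pow_mul_self_pow _ _
  rw [pout_eq, pout_eq, hp_succ_of_ne hk, hp, ← e, cbox_rot, mem_rail hM] at hz
  obtain ⟨h1, h2, h3⟩ := hz
  unfold yc
  exact ⟨h1, by linarith, by linarith⟩

/-- The box of the outer hub in the frame of the side. -/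
theorem hbox_coord {M k : ℕ} {z : ℂ} (hz : z ∈ hbox M (pout M k)) :
    |(tn M k * z).re - (1 + 9 / 16 * ms M)| ≤ ms M / 32 ∧
      |(tn M k * z).im - (yc M k - ms M / 2)| ≤ ms M / 32 := by
  have e : Complex.I ^ (k / (2 * M + 1)) * (tn M k * z) = z := N.I_pow_mul_self_pow _ _
  rw [pout_eq, hp, ← e, hbox_rot, mem_hbox] at hz
  obtain ⟨h1, h2⟩ := hz
  refine ⟨h1, ?_⟩
  have e2 : yc M k - ms M / 2 = (H995.lp M (9 / 16) (k % (2 * M + 1))).im := by
    unfold yc H995.lp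
    ring
  rw [e2]
  exact h2

/-! ### probability -/

theorem cp_ring_ge {X N : Set ℂ} (hN : N.Finite) {x0 x1 y0 y1 t c : ℝ} (hc : 0 ≤ c)
    (h : ∀ u, Turn u → c ≤ cp N (fun W => TCr X W u 0 x0 x1 y0 y1 t)) :
    c ^ 4 ≤ cp N (fun W => ∀ u, Turn u → TCr X W u 0 x0 x1 y0 y1 t) := by
  classical
  set s : Finset ℂ := {1, Complex.I, -1, -Complex.I} with hs
  have hmem : ∀ u ∈ s, Turn u := by
    intro u hu
    simp only [hs, Finset.mem_insert, Finset.mem_singleton] at hu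
    exact hu
  have hmem' : ∀ u, Turn u → u ∈ s := by
    intro u hu
    simp only [hs, Finset.mem_insert, Finset.mem_singleton]
    exact hu
  have h1 := cp_harris_prod_inc hN s (Q := fun u W => TCr X W u 0 x0 x1 y0 y1 t)
    (fun u _ W W' hWW' H => tcr_up hWW' H)
  have h2 : ∏ u ∈ s, c ≤ ∏ u ∈ s, cp N (fun W => TCr X W u 0 x0 x1 y0 y1 t) :=
    Finset.prod_le_prod (fun _ _ => hc) fun u hu => h u (hmem u hu)
  have hcard : s.card = 4 := card_turns
  rw [Finset.prod_const, hcard] at h2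
  exact h2.trans (h1.trans (cp_mono hN fun W _ hW u hu => hW u (hmem' u hu)))

theorem cor_sub {ι : ℂ} (hι : Turn ι) {x0 y w : ℝ} (hx0 : 0 ≤ x0) (hyw : |y| + w ≤ 7 / 5) {z : ℂ}
    (hz : z ∈ Box ι 0 x0 (27 / 20) (y - w) (y + w) (1 / 20)) : nsup z ≤ 7 / 5 := by
  obtain ⟨a1, a2, a3, a4⟩ := hz
  rw [sub_zero] at a1 a2 a3 a4
  rw [← nsup_turn hι]
  have h1 := abs_le.1 (le_refl |y|)
  exact max_le (abs_le.2 ⟨by linarith, by linarith⟩) (abs_le.2 ⟨by linarith, by linarith⟩)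

theorem ring_sub {u : ℂ} (hu : Turn u) {r R t : ℝ} (hr : 0 ≤ r) (ht : 0 ≤ t) (hR : R + t ≤ 7 / 5)
    {z : ℂ} (hz : z ∈ Box u 0 (-R) R r R t) : nsup z ≤ 7 / 5 := by
  have h := (nsup_of_box (p := 0) hu hr hz ht).2
  rw [sub_zero] at h
  exact h.trans hR

/-- A ring of crossings, with high probability. -/
theorem ring_whp {r R t : ℝ} (hr : 0 < r) (hR : r < R) (ht : 0 < t) (h7 : R + t ≤ 7 / 5) :
    ∃ c > 0, ∀ᶠ m in whp.{u}, ∀ N ⊆ pts m.2, N.Finite → (∀ z ∈ pts m.2, nsup z ≤ 7 / 5 → z ∈ N) →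
      c ≤ cp N (fun W => ∀ u, Turn u → TCr (pts m.2) W u 0 (-R) R r R t) := by
  obtain ⟨c, hc, h⟩ := tcr_whp.{u} (2 * R / (R - r))
  refine ⟨c ^ 4, by positivity, ?_⟩
  have hRr : 0 < R - r := by linarith
  have h1 : ∀ᶠ m in whp.{u}, ∀ u ∈ ({1, Complex.I, -1, -Complex.I} : Finset ℂ),
      ∀ N ⊆ pts m.2, N.Finite → pts m.2 ∩ Box u 0 (-R) R r R t ⊆ N →
      c ≤ cp N (fun W => TCr (pts m.2) W u 0 (-R) R r R t) := by
    rw [Filter.eventually_all_finset]
    intro u hu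
    have hT : Turn u := by
      simp only [Finset.mem_insert, Finset.mem_singleton] at hu
      exact hu
    refine h u 0 (-R) R r R t hT.norm (by linarith) hR ?_ ht
    apply le_of_eq
    field_simp
    ring
  filter_upwards [h1] with m h2 N hNX hN hN7
  refine cp_ring_ge hN hc.le fun u hu => h2 u ?_ N hNX hN ?_
  · simp only [Finset.mem_insert, Finset.mem_singleton]
    exact hu
  · rintro z ⟨hz, hzB⟩
    exact hN7 z hz (ring_sub hu hr.le ht.le h7 hzB)

/-- A radial corridor is crossed, with high probability. -/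
theorem cor_whp {x0 w : ℝ} (hx0 : 0 ≤ x0) (hx1 : x0 < 27 / 20) (hw : 0 < w) :
    ∃ c > 0, ∀ (ι : ℂ) (y : ℝ), Turn ι → |y| + w ≤ 7 / 5 → ∀ᶠ m in whp.{u}, ∀ N ⊆ pts m.2,
      N.Finite → (∀ z ∈ pts m.2, nsup z ≤ 7 / 5 → z ∈ N) →
      c ≤ cp N (fun W => TCr (pts m.2) W ι 0 x0 (27 / 20) (y - w) (y + w) (1 / 20)) := by
  obtain ⟨c, hc, h⟩ := tcr_whp.{u} (1 / w)
  refine ⟨c, hc, fun ι y hι hy => ?_⟩
  filter_upwards [h ι 0 x0 (27 / 20) (y - w) (y + w) (1 / 20) hι.norm hx1 (by linarith) (by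
    have e : 1 / w * (y + w - (y - w)) = 2 := by field_simp; ring
    rw [e]; linarith) (by norm_num)] with m h2 N hNX hN hN7
  refine h2 N hNX hN ?_
  rintro z ⟨hz, hzB⟩
  exact hN7 z hz (cor_sub hι hx0 hy hzB)

/-- **The net event**, with high probability. -/
theorem net_whp {w d : ℝ} (hw : 0 < w) (hd : 0 < d) (hd' : d ≤ 1 / 8) :
    ∃ c > 0, ∀ (ι : ℂ) (y : ℝ), Turn ι → |y| + w ≤ 7 / 5 → ∀ᶠ m in whp.{u}, ∀ N ⊆ pts m.2,
      N.Finite → (∀ z ∈ pts m.2, nsup z ≤ 7 / 5 → z ∈ N) →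
      c ≤ cp N (fun W => NetEv (pts m.2) W ι y w d) := by
  obtain ⟨c1, hc1, h1⟩ := cor_whp.{u} (x0 := 1 - 3 * d) (by linarith) (by linarith) hw
  obtain ⟨c2, hc2, h2⟩ := ring_whp.{u} (r := 1 - 3 * d) (R := 1 - 2 * d) (t := d) (by linarith)
    (by linarith) hd (by linarith)
  refine ⟨c1 * c2, by positivity, fun ι y hι hy => ?_⟩
  filter_upwards [h1 ι y hι hy, h2] with m a1 a2 N hNX hN hN7
  refine (mul_le_mul (a1 N hNX hN hN7) (a2 N hNX hN hN7) hc2.le (cp_nonneg _ _)).trans ?_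
  exact cp_harris_inc hN (fun W W' hWW' H => tcr_up hWW' H)
    (fun W W' hWW' H u hu => tcr_up hWW' (H u hu))

/-- **The door event**, with high probability. -/
theorem door_whp {M : ℕ} (hM : 8 ≤ M) :
    ∃ c > 0, ∀ k, k % (2 * M + 1) ≠ 2 * M → ∀ᶠ m in whp.{u}, ∀ N ⊆ pts m.2,
      N.Finite → (∀ z ∈ pts m.2, nsup z ≤ 7 / 5 → z ∈ N) →
      c ≤ cp N (fun W => DoorEv M (pts m.2) W k) := by
  have hM0 : 0 < M := by omega
  have ha := ms_pos hM0
  have ha' := ms_le hM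
  obtain ⟨c1, hc1, h1⟩ := net_whp.{u} (w := ms M / 8) (d := ms M / 8) (by linarith) (by linarith)
    (by linarith)
  obtain ⟨c2, hc2, h2⟩ := tcr_whp.{u} 1024
  refine ⟨c1 * c2, by positivity, fun k hk => ?_⟩
  have hy := abs_yc hM0 hk
  obtain ⟨g0, g1, g2, g3, g4, g5⟩ := corridor_ok hM0 (z := pout M k) (z' := pout M (k + 1))
    (by have := (norm_railout hM0 k).1; linarith) (norm_railout hM0 k).2
  filter_upwards [h1 (tn M k) (yc M k) (turn_tn M k) (by linarith),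
    h2 _ (pout M k) _ _ _ _ _ g1 g2 g3 g4 g5] with m a1 a2 N hNX hN hN7
  refine (mul_le_mul (a1 N hNX hN hN7) (a2 N hNX hN ?_) hc2.le (cp_nonneg _ _)).trans ?_
  · rintro z ⟨hz, hzB⟩
    refine hN7 z hz ?_
    obtain ⟨⟨b1, b2⟩, b3, b4⟩ := rail_coord hM0 hk hzB
    have b5 := abs_le.1 hy
    have hs := sd_pos hM0
    have hs' : ms M = 256 * sd M := (num hM0).2.1
    rw [← nsup_turn (turn_tn M k)]
    exact max_le (abs_le.2 ⟨by linarith, by linarith⟩) (abs_le.2 ⟨by linarith, by linarith⟩)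
  · exact cp_harris_inc hN (fun W W' hWW' H => H.mono hWW') (fun W W' hWW' H => tcr_up hWW' H)

/-! ### the walks -/

theorem chain_sub {rel : ℂ → ℂ → Prop} {W : Set ℂ} {v : ℕ → ℂ} {i j : ℕ} (hij : i ≤ j)
    (hv : ∀ k, i ≤ k → k < j → rel (v k) (v (k + 1))) (hW : ∀ k, i ≤ k → k ≤ j → v k ∈ W) :
    Chain rel W (v i) (v j) :=
  ⟨j - i, fun k => v (i + k), fun k hk => hv (i + k) (by omega) (by omega), fun k hk => hW _ (by omega) (by omega), rfl, by
    show v (i + (j - i)) = v j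
    rw [Nat.add_sub_cancel' hij]⟩

theorem chain_meets {X K A : Set ℂ} {p : ℂ} {r R : ℝ} (hK : ∀ (m : ℕ) (w : ℕ → ℂ),
    (∀ i < m, nbr X (w i) (w (i + 1))) → nsup (w 0 - p) ≤ r → R ≤ nsup (w m - p) →
      ∃ i ≤ m, w i ∈ K) {u0 u1 : ℂ} (h : Chain (nbr X) A u1 u0) (h1 : nsup (u1 - p) ≤ r)
    (h0 : R ≤ nsup (u0 - p)) : ∃ z ∈ A, z ∈ K := by
  obtain ⟨n, v, a1, a2, a3, a4⟩ := h
  obtain ⟨i, hi, h5⟩ := hK n v a1 (by rw [a3]; exact h1) (by rw [a4]; exact h0)
  exact ⟨v i, a2 i hi, h5⟩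

theorem cor_inner {ι : ℂ} (hι : Turn ι) {x0 y w t : ℝ} (ht : t ≤ 2 * x0) (hy : |y| + w ≤ x0)
    {z : ℂ} (hz : z ∈ Box ι 0 x0 (27 / 20) (y - w) (y + w) t) (h : (ι * (z - 0)).re ≤ x0) :
    nsup z ≤ x0 := by
  obtain ⟨a1, a2, a3, a4⟩ := hz
  rw [sub_zero] at a1 a2 a3 a4 h
  rw [← nsup_turn hι]
  have h1 := abs_le.1 (le_refl |y|)
  exact max_le (abs_le.2 ⟨by linarith, by linarith⟩) (abs_le.2 ⟨by linarith, by linarith⟩)

theorem cor_outer {ι : ℂ} (hι : Turn ι) {z : ℂ} {x1 : ℝ} (h : x1 ≤ (ι * (z - 0)).re) :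
    x1 ≤ nsup z := by
  rw [sub_zero] at h
  rw [← nsup_turn hι]
  exact h.trans ((le_abs_self _).trans (le_max_left _ _))

/-- **The walk of the net event.** -/
theorem net_walk {X W : Set ℂ} (hX : Three X) (hWX : W ⊆ X) {ι : ℂ} (hι : Turn ι) {y w d : ℝ}
    (hd : 0 < d) (hd' : d ≤ 1 / 8) (hy : |y| + w ≤ 1 - 3 * d) {I Pi A : Set ℂ}
    (hI : ∀ u ∈ I, ∀ v, nbr X u v → v ∈ I ∨ v ∈ Pi) (hI0 : ∀ z ∈ X, nsup z ≤ 1 - d → z ∈ I)
    (hI1 : ∀ z ∈ I, nsup z < 27 / 20) {u0 u1 : ℂ} (hA : Chain (nbr X) A u1 u0)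
    (h0 : 1 - d ≤ nsup u0) (h1 : nsup u1 ≤ 1 - 3 * d) (h : NetEv X W ι y w d) :
    ∃ b0 b1 z, b0 ∈ Pi ∧ b0 ∉ I ∧ b0 ∈ Cor ι (1 - 3 * d) y w ∧ nbr X b0 b1 ∧ z ∈ A ∧
      nsup z ≤ 1 - d ∧ Chain (nbr X) (W ∩ I) b1 z := by
  obtain ⟨⟨n, v, v1, v2, v3, v4⟩, hr⟩ := h
  obtain ⟨K, k1, -, -, k2, k3, k4⟩ := circ_of_tcr hX (p := 0) (show (0 : ℝ) < 1 - 3 * d by linarith)
    (show 1 - 3 * d < 1 - 2 * d by linarith) hd.le hr
  have e1 : 1 - 2 * d + d = 1 - d := by ring
  rw [e1] at k2 k4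
  have hKI : K ⊆ W ∩ I := by
    intro z hz
    refine ⟨k1 hz, hI0 z (hWX (k1 hz)) ?_⟩
    have := (k2 z hz).2
    rwa [sub_zero] at this
  obtain ⟨z, hzA, hzK⟩ := chain_meets k4 hA (by rwa [sub_zero]) (by rwa [sub_zero])
  have hout : 27 / 20 ≤ nsup (v n) := cor_outer hι v4
  obtain ⟨j, hj, hjK⟩ := k4 n v v1 (by
    rw [sub_zero]
    exact cor_inner hι (by linarith) hy (v2 0 (Nat.zero_le _)).2 v3) (by
    rw [sub_zero]; linarith)
  classical
  -- the first exit from `I` after `j`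
  have hex : ∃ i, j < i ∧ i ≤ n ∧ v i ∉ I := by
    refine ⟨n, ?_, le_rfl, fun h => absurd (hI1 _ h) (not_lt.2 hout)⟩
    rcases hj.lt_or_eq with h | rfl
    · exact h
    · have := (k2 _ hjK).2
      rw [sub_zero] at this
      linarith
  set i := Nat.find hex with hi
  obtain ⟨i1, i2, i3⟩ := Nat.find_spec hex
  have hin : ∀ k, j ≤ k → k ≤ i - 1 → v k ∈ I := by
    intro k hjk hki
    rcases hjk.eq_or_lt with rfl | hlt
    · exact (hKI hjK).2
    · by_contra hcon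
      exact Nat.find_min hex (m := k) (by omega) ⟨hlt, by omega, hcon⟩
  have hstep : nbr X (v (i - 1)) (v i) := by
    have := v1 (i - 1) (by omega)
    rwa [Nat.sub_add_cancel (by omega)] at this
  have hz1 : nsup z ≤ 1 - d := by
    have := (k2 z hzK).2
    rwa [sub_zero] at this
  refine ⟨v i, v (i - 1), z, ?_, i3, (v2 i i2).2, nbr_symm hstep, hzA, hz1, ?_⟩
  · rcases hI _ (hin (i - 1) (by omega) le_rfl) _ hstep with h | h
    · exact absurd h i3
    · exact h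
  · have c1 : Chain (nbr X) (W ∩ I) (v j) (v (i - 1)) :=
      chain_sub (by omega) (fun k _ hk => v1 k (by omega))
        (fun k hk1 hk2 => ⟨(v2 k (by omega)).1, hin k hk1 hk2⟩)
    exact (c1.symm (fun _ _ => nbr_symm)).trans ((k3 _ hjK _ hzK).mono hKI)

/-- **The walk of the door event.** `H` is the explored outer hub of the gate `k`, `E` the explored
set, `A` the set to be reached. -/
theorem door_walk {M k : ℕ} (hM : 8 ≤ M) (hk : k % (2 * M + 1) ≠ 2 * M) {X W : Set ℂ}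
    (hX : Three X) (hWX : W ⊆ X) {H E A : Set ℂ} (hS : X ∩ ball (pout M k) (sd M) ⊆ H)
    (hH : H ⊆ hbox M (pout M k))
    (hE0 : ∀ z ∈ E, z ∈ CBox M (pout M k) (pout M (k + 1)) →
      (tn M k * z).im ≤ yc M k + ms M / 8 → z ∈ H)
    (hE1 : ∀ z ∈ E, (tn M k * z).re < 1 + 3 / 4 * ms M →
      z ∉ Cor (tn M k) (1 - 3 * (ms M / 8)) (yc M k) (ms M / 8))
    (hE3 : ∀ z ∈ E, 1 - ms M / 8 < nsup z) {u0 u1 : ℂ} (hA : Chain (nbr X) A u1 u0)
    (h0 : 1 - ms M / 8 ≤ nsup u0) (h1 : nsup u1 ≤ 1 - 3 * (ms M / 8)) (h : DoorEv M X W k) :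
    ∃ v0 v1 z, v0 ∈ H ∧ v0 ∈ CBox M (pout M k) (pout M (k + 1)) ∧ nbr X v0 v1 ∧
      z ∈ A ∧ nsup z ≤ 1 - ms M / 8 ∧ Chain (nbr X) (W \ (E ∪ H)) v1 z := by
  have hM0 : 0 < M := by omega
  have ha := ms_pos hM0
  have ha' := ms_le hM
  have hsd := sd_pos hM0
  have hsd' : ms M = 256 * sd M := (num hM0).2.1
  have hy := abs_yc hM0 hk
  have hy' := abs_le.1 hy
  have hT := turn_tn M k
  set d := ms M / 8 with hd
  obtain ⟨⟨⟨n₀, v, v1', v2', v3, v4'⟩, hr⟩, ⟨m, w, w1, w2, w3, w4⟩⟩ := h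
  classical
  -- the corridor is cut above the rail
  have hexn : ∃ l, l ≤ n₀ ∧ 1 + 3 / 4 * ms M ≤ (tn M k * v l).re :=
    ⟨n₀, le_rfl, by rw [sub_zero] at v4'; linarith⟩
  set n := Nat.find hexn with hn
  obtain ⟨hn1, hn2⟩ := Nat.find_spec hexn
  have hlow : ∀ l < n, (tn M k * v l).re < 1 + 3 / 4 * ms M := by
    intro l hl
    by_contra hcon
    rw [not_lt] at hcon
    exact Nat.find_min hexn hl ⟨by omega, hcon⟩
  have v1 : ∀ i < n, nbr X (v i) (v (i + 1)) := fun i hi => v1' i (by omega)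
  have v2 := fun i (hi : i ≤ n) => v2' i (by omega)
  -- the inner circuit
  obtain ⟨K, k1, -, -, k2, k3, k4⟩ := circ_of_tcr hX (p := 0) (show (0 : ℝ) < 1 - 3 * d by linarith)
    (show 1 - 3 * d < 1 - 2 * d by linarith) (show 0 ≤ d by linarith) hr
  have e1 : 1 - 2 * d + d = 1 - d := by ring
  rw [e1] at k2 k4
  have hH3 : ∀ z ∈ H, 1 - ms M / 8 < nsup z := by
    intro z hz
    have h2 := (hbox_coord (hH hz)).1
    rw [abs_le] at h2
    rw [← nsup_turn hT]
    refine lt_of_lt_of_le ?_ ((le_abs_self _).trans (le_max_left _ _))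
    linarith
  have hKI : K ⊆ W \ (E ∪ H) := by
    intro z hz
    have h2 := (k2 z hz).2
    rw [sub_zero] at h2
    refine ⟨k1 hz, fun hzE => ?_⟩
    rcases hzE with hzE | hzE
    · exact absurd (hE3 z hzE) (not_lt.2 h2)
    · exact absurd (hH3 z hzE) (not_lt.2 h2)
  -- the radial corridor
  have hvE : ∀ k < n, v k ∈ W \ (E ∪ H) := by
    intro l hl
    refine ⟨(v2 l hl.le).1, fun hE => ?_⟩
    rcases hE with hE | hE
    · exact hE1 _ hE (hlow l hl) (v2 l hl.le).2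
    · have h2 := (hbox_coord (hH hE)).2
      have h3 := (v2 l hl.le).2.2.2.1
      rw [abs_le] at h2
      rw [sub_zero] at h3
      linarith
  have hv0 : nsup (v 0) ≤ 1 - 3 * d :=
    cor_inner hT (by linarith) (by linarith) (v2 0 (Nat.zero_le _)).2 v3
  have hvn : 1 + 3 / 4 * ms M ≤ nsup (v n) := cor_outer hT (by rw [sub_zero]; exact hn2)
  obtain ⟨z, hzA, hzK⟩ := chain_meets k4 hA (by rwa [sub_zero]) (by rwa [sub_zero])
  obtain ⟨j, hj, hjK⟩ := k4 n v v1 (by rwa [sub_zero]) (by rw [sub_zero]; linarith)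
  have hjn : j < n := by
    rcases hj.lt_or_eq with h | h
    · exact h
    · exfalso
      have := (k2 _ hjK).2
      rw [sub_zero, h] at this
      linarith
  have hsy : ∀ a b, nbr X a b → nbr X b a := fun _ _ => nbr_symm
  -- the rail
  have hne := pout_ne_succ hM0 k
  have hm0 : w 0 ∈ H := by
    have h2 := start_mem hM0 hne (w2 0 (Nat.zero_le _)).2 w3
    exact hS ⟨hWX (w2 0 (Nat.zero_le _)).1, h2⟩
  have hwc := fun i (hi : i ≤ m) => rail_coord hM0 hk (w2 i hi).2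
  have hwmH : w m ∉ H := by
    intro hcon
    have h2 := end_mem hM0 hne (w2 m le_rfl).2 w4
    have h3 := (hbox_coord (hH hcon)).2
    rw [mem_ball, dist_eq_turn hT.norm] at h2
    have h4 : (tn M k * pout M (k + 1)).im = yc M k + ms M / 2 := by
      have e : tn M k * pout M (k + 1) = H995.lp M (9 / 16) (k % (2 * M + 1) + 1) := by
        rw [pout_eq, hp_succ_of_ne hk, ← mul_assoc]
        unfold tn
        rw [← mul_pow]
        simp
      rw [e]
      unfold H995.lp yc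
      push_cast
      ring
    have h5 := (Complex.abs_im_le_norm (tn M k * (w m - pout M (k + 1)))).trans_lt h2
    rw [mul_sub, Complex.sub_im, h4, abs_lt] at h5
    rw [abs_le] at h3
    linarith
  set P : ℕ → Prop := fun i => w i ∈ H with hP
  set i := Nat.findGreatest P m with hi
  have hiH : w i ∈ H := Nat.findGreatest_spec (P := P) (Nat.zero_le m) hm0
  have him : i ≤ m := Nat.findGreatest_le m
  have hgt : ∀ l, i < l → l ≤ m → w l ∉ H := fun l h1 h2 =>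
    Nat.findGreatest_is_greatest (P := P) h1 h2
  have himlt : i < m := by
    rcases him.lt_or_eq with h | h
    · exact h
    · rw [h] at hiH
      exact absurd hiH hwmH
  -- the meeting
  have him' := (hbox_coord (hH hiH)).2
  rw [abs_le] at him'
  have hwm : yc M k + ms M / 8 ≤ (tn M k * (w m - 0)).im := by
    have h2 := end_mem hM0 hne (w2 m le_rfl).2 w4
    rw [mem_ball, dist_eq_turn hT.norm] at h2
    have h4 : (tn M k * pout M (k + 1)).im = yc M k + ms M / 2 := by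
      have e : tn M k * pout M (k + 1) = H995.lp M (9 / 16) (k % (2 * M + 1) + 1) := by
        rw [pout_eq, hp_succ_of_ne hk, ← mul_assoc]
        unfold tn
        rw [← mul_pow]
        simp
      rw [e]
      unfold H995.lp yc
      push_cast
      ring
    have h5 := (Complex.abs_im_le_norm (tn M k * (w m - pout M (k + 1)))).trans_lt h2
    rw [mul_sub, Complex.sub_im, h4, abs_lt] at h5
    rw [sub_zero]
    linarith
  have hex : ∃ l, i < l ∧ l ≤ m ∧ yc M k + ms M / 8 ≤ (tn M k * (w l - 0)).im :=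
    ⟨m, himlt, le_rfl, hwm⟩
  set m' := Nat.find hex with hm'
  obtain ⟨f1, f2, f3⟩ := Nat.find_spec hex
  have hlt : ∀ l, i < l → l < m' → (tn M k * w l).im < yc M k + ms M / 8 := by
    intro l hl hlm
    by_contra hcon
    rw [not_lt] at hcon
    exact Nat.find_min hex hlm ⟨hl, by omega, by rw [sub_zero]; exact hcon⟩
  obtain ⟨p, hp, q, hq, hpq⟩ := path_meet hX hT.norm (p := 0)
    (a := 1 + 9 / 16 * ms M - sd M / 8) (b := 1 + 9 / 16 * ms M + sd M / 8)
    (c := yc M k - ms M / 8) (d := yc M k + ms M / 8) (by linarith) (by linarith) v1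
    (fun i hi => ⟨(v2 i hi).2.2.2.1, (v2 i hi).2.2.2.2⟩) (by linarith)
    (by rw [sub_zero]; linarith)
    (m := m' - i) (w := fun l => w (i + l)) (fun l hl => by
      have := w1 (i + l) (by omega)
      rwa [show i + (l + 1) = i + l + 1 by omega])
    (fun l hl => by
      show _ ≤ (tn M k * (w (i + l) - 0)).re ∧ (tn M k * (w (i + l) - 0)).re ≤ _
      rw [sub_zero]
      exact (hwc (i + l) (by omega)).1) (by
      show (tn M k * (w i - 0)).im ≤ _
      rw [sub_zero]; linarith) (by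
      show _ ≤ (tn M k * (w (i + (m' - i)) - 0)).im
      rw [Nat.add_sub_cancel' (by omega)]; exact f3)
  have hpn : p < n := by
    rcases hp.lt_or_eq with h | h
    · exact h
    · exfalso
      have h2 := (hwc (i + q) (by omega)).1.2
      rw [← hpq, h] at h2
      linarith
  have hq0 : q ≠ 0 := by
    rintro rfl
    have h2 := (v2 p hp).2.2.2.1
    rw [hpq, sub_zero, add_zero] at h2
    linarith
  have hgtE : ∀ l, i < l → l ≤ i + q → w l ∈ W \ (E ∪ H) := by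
    intro l hl hlq
    refine ⟨(w2 l (by omega)).1, fun hE => ?_⟩
    rcases hE with hE | hE
    · rcases (show l ≤ m' by omega).lt_or_eq with h2 | h2
      · exact hgt l hl (by omega) (hE0 _ hE (w2 l (by omega)).2 (hlt l hl h2).le)
      · have h3 : l = i + q := by omega
        rw [h3] at hE
        have h4 := hvE p hpn
        rw [hpq] at h4
        exact h4.2 (Or.inl hE)
    · exact hgt l hl (by omega) hE
  have hz1 : nsup z ≤ 1 - ms M / 8 := by
    have := (k2 z hzK).2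
    rwa [sub_zero] at this
  refine ⟨w i, w (i + 1), z, hiH, (w2 i him).2, w1 i himlt, hzA, hz1, ?_⟩
  have c1 : Chain (nbr X) (W \ (E ∪ H)) (w (i + 1)) (w (i + q)) :=
    chain_sub (by omega) (fun l h1 h2 => w1 l (by omega))
      (fun l h1 h2 => hgtE l (by omega) (by omega))
  have c2 : Chain (nbr X) (W \ (E ∪ H)) (v p) (v j) :=
    (chain_path (n := n - 1) hsy (fun i hi => v1 i (by omega)) (i := p) (j := j) (by omega)
      (by omega)).mono (by rintro _ ⟨k, hk, rfl⟩; exact hvE k (by omega))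
  rw [← hpq] at c1
  exact (c1.trans c2).trans ((k3 _ hjK _ hzK).mono hKI)

end Vale.Agent.P148.R2.H320
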