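import Vale.Agent.P148.R2.H320.DoorP
import Vale.Agent.P148.R2.H995.JregD
import Vale.Agent.P148.R2.H995.CombRing
import Vale.Agent.P148.R2.H419.Col3

/-!
# P148, row door: the explored set of an arc and the door cell

For `E = EK K J`, `J` = the straight cell `k`, `K` = all gates but `k + 1`:
* `EK_gt` : the explored sites have `1 < nsup`;
* `door_cor`, `door_rail` : the door corridor is off `E`, the rail meets `E` in the hub `k`;
* `Ofar` : the part of the outer rim which faces the outside; `ofar_conn`, `ofar_of_exit`, `rail_jn`.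
-/

set_option linter.unusedSectionVars false

open Set Relation Metric Function

namespace Vale.Agent.P148.R2.H320

open Vale.Agent.P148.R2.H258 Vale.Agent.P148.R2.H565 Vale.Agent.P148.R2.H419
open Vale.Agent.P148.R2.N (ms nc gateC gbox cell csq ms_pos)
open Vale.Agent.P148.R2.H592 (HullTri nbr nbr_symm ConnIn Fc idmap fib_id tail head vc Three comp)
open Vale.Agent.P148.R2.H959 (Jn reg bd far_conn escape)
open Vale.Agent.P148.R2.H678 (core hub rim pin pout sd CBox CCr InGood OutGood Tooth Rails Rad inHub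
  outHub inRim outRim hbox uo HubsGood Ex mix mB mW EJ D0 oseed rd RD Link cell_nsup)
open Vale.Agent.P148.R2.H995 (nsup Pieces hbox_local hubs_ring)

variable {M : ℕ} {X : Set ℂ} {b : ZMod 3 → ℂ} {Bl₁ Wh₁ Bl₂ Wh₂ : Set ℂ} {s : ℂ → Bool} {k : ℕ}

theorem hin_gt (hM : 0 < M) (k : ℕ) {z : ℂ} (hz : z ∈ hbox M (pin M k)) : 1 < nsup z := by
  obtain ⟨w, rfl⟩ := N.exists_eq_I_pow_mul (k / (2 * M + 1)) z
  rw [H995.pin_eq] at hz
  have h0 := ms_pos hM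
  obtain ⟨⟨a1, a2⟩, a3⟩ := hbox_local hM hz
  rw [H959.nsup_I_pow_mul]
  exact lt_of_lt_of_le (by linarith) ((le_abs_self _).trans (le_max_left _ _))

/-- **The black ring**, paths which start in `{nsup ≤ 1}`. -/
theorem black_ring1 (hX : Three X) (hXf : X.Finite) (hM : 0 < M) (h : HubsGood M X Bl₁ Wh₁)
    (hB : Bl₂ ⊆ X) (hR : ∀ k, Rails M X Bl₂ Wh₂ k) {G : Set ℂ}
    (hG : ∀ k, inRim M X Wh₁ k ⊆ G)
    (hG' : ∀ k, ∀ a ∈ G, ∀ b ∈ CBox M (pin M k) (pin M (k + 1)), nbr X a b → b ∈ Bl₂ →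
      b ∉ Ex M X Bl₁ Wh₁ → b ∈ G)
    {m : ℕ} {u : ℕ → ℂ} (hu : ∀ i < m, nbr X (u i) (u (i + 1)))
    (hu0 : nsup (u 0) ≤ 1) (hu1 : 1 + ms M / 2 ≤ nsup (u m)) : ∃ i ≤ m, u i ∈ G := by
  have h0 := ms_pos hM
  have dj : ∀ {A : Set ℂ}, (∀ z ∈ A, 1 < nsup z) → Disjoint A {z : ℂ | nsup z ≤ 1} := by
    intro A hA
    rw [Set.disjoint_left]
    intro z hz hz'
    exact absurd (hA z hz) (not_lt.2 hz')
  refine hubs_ring hX hXf hM (c := pin M) (ρ := sd M) (C := Wh₁) (H995.pin_mod M)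
    (B := fun k => CBox M (pin M k) (pin M (k + 1))) (Hb := fun k => hbox M (pin M k))
    (fun _ => H995.convex_Box _ _ _ _ _ _ _) (fun _ => H995.convex_hbox M _)
    (H995.railin_reg hM) (H995.hbox_pin_sub hM) (fun k => h.inSub k)
    (fun k => h.low_link hM hB (hR k))
    (S := {z : ℂ | nsup z ≤ 1}) (U := {z : ℂ | nsup z < 1 + ms M / 2})
    (H995.convex_nsup_le _) ?_ (fun k => dj fun z hz => (cell_nsup hM (H995.rail_in_sub hM k hz)).1)
    (fun k => dj fun z hz => hin_gt hM k hz)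
    (H995.convex_nsup_lt _) (H995.isOpen_nsup_lt _) (fun k _ hz => H995.railin_lt hM k hz)
    (fun k _ hz => H995.hin_lt hM k hz) hG hG' hu hu0 (not_lt.2 hu1)
  show nsup 0 ≤ 1
  simp [nsup]

/-- A sequence from a chain of relations. -/
theorem seq_of_rtg {α : Type*} {r : α → α → Prop} {a c : α} (h : ReflTransGen r a c) :
    ∃ (n : ℕ) (v : ℕ → α), v 0 = a ∧ v n = c ∧ ∀ i < n, r (v i) (v (i + 1)) := by
  induction h with
  | refl => exact ⟨0, fun _ => a, rfl, rfl, fun i hi => by omega⟩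
  | @tail b c _ hbc ih =>
    obtain ⟨n, v, h0, h1, h2⟩ := ih
    refine ⟨n + 1, fun i => if i ≤ n then v i else c, by simp [h0], by simp, fun i hi => ?_⟩
    show r (if i ≤ n then v i else c) (if i + 1 ≤ n then v (i + 1) else c)
    rcases (show i ≤ n by omega).lt_or_eq with h | h
    · rw [if_pos h.le, if_pos (by omega)]
      exact h2 i h
    · subst h
      rw [if_pos le_rfl, if_neg (by omega), h1]
      exact hbc

section col

variable (hC : Col M X b Bl₁ Wh₁ Bl₂ Wh₂ s)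
include hC

/-- **The explored sites are outside of the unit square** (of half side `1`). -/
theorem EK_gt {K : Set ℕ} {J : Set ℂ} {z : ℂ} (hz : z ∈ EK M X Bl₁ Wh₁ Bl₂ Wh₂ K J) :
    1 < nsup z := by
  have h0 := ms_pos hC.hM
  obtain ⟨v, hv, hvz⟩ := hz
  rw [H678.hub_oseed] at hv
  obtain ⟨j, -, hj⟩ := mem_iUnion₂.1 hv
  rw [H678.outHub_mix] at hj
  have hv1 : 1 + ms M / 2 < nsup v := H995.hout_gt hC.hM j (hC.good.outSub j hj)
  obtain ⟨n, u, u0, u1, u2⟩ := seq_of_rtg hvz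
  by_contra hcon
  rw [not_lt] at hcon
  set G : Set ℂ := {w | s w = true ∧ 1 < nsup w} with hG
  obtain ⟨i, hi, hiG⟩ := black_ring1 (X := X) hC.hull.three hC.hull.fin hC.hM hC.good hC.comb.b2
    (fun k => hC.rails' k) (G := G)
    (fun k w hw => ⟨hC.comb.hin' k w hw.1 (H678.rim_not hw), hin_gt hC.hM k (hC.good.inSub k hw.1)⟩)
    (fun k a _ w hw _ hB hE => ⟨hC.comb.off2 w hB fun k _ =>
      ⟨fun h => hE (mem_iUnion.2 ⟨k, Or.inl h⟩), fun h => hE (mem_iUnion.2 ⟨k, Or.inr h⟩)⟩,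
      (cell_nsup hC.hM (H995.rail_in_sub hC.hM k hw)).1⟩)
    (m := n) (u := fun i => u (n - i)) (fun i hi => by
      have := (u2 (n - (i + 1)) (by omega)).2.1
      rw [show n - (i + 1) + 1 = n - i by omega] at this
      exact nbr_symm this) (by
      show nsup (u (n - 0)) ≤ 1
      rw [Nat.sub_zero, u1]; exact hcon) (by
      show _ ≤ nsup (u (n - n))
      rw [Nat.sub_self, u0]; exact hv1.le)
  obtain ⟨g1, g2⟩ := hiG
  rcases Nat.eq_zero_or_pos i with rfl | hi0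
  · simp only [Nat.sub_zero, u1] at g2
    linarith
  · have h3 := u2 (n - i) (by omega)
    have h4 := (hC.cW _ h3.2.1.1).1 h3.1
    rw [g1] at h4
    exact absurd h4 (by decide)

end col

/-! ### the outer rim -/

/-- The part of the outer rim which faces the outside. -/
def Ofar (M : ℕ) (X : Set ℂ) (b : ZMod 3 → ℂ) (Bl₁ : Set ℂ) (k : ℕ) (x : ℂ) : Prop :=
  x ∈ outRim M X Bl₁ k ∧ Jn X (X \ oco M X Bl₁ k) x (b 0)

/-- It is connected. -/
theorem ofar_conn (h : HullTri X b) {x y : ℂ} (hx : Ofar M X b Bl₁ k x)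
    (hy : Ofar M X b Bl₁ k y) : Jn X (outRim M X Bl₁ k) x y := by
  have hK : ConnIn X (oco M X Bl₁ k) := H678.connIn_core h.fin (pout M k) (sd M)
  have e : bd X (oco M X Bl₁ k) ⊆ outRim M X Bl₁ k := by
    rintro z ⟨-, hzK, u, hu, hzu⟩
    exact ⟨H678.hub_step hu (nbr_symm hzu), hzK⟩
  have h1 : ∀ z ∈ outRim M X Bl₁ k, z ∈ bd X (oco M X Bl₁ k) := by
    intro z hz
    obtain ⟨u, hu, huz⟩ := H678.rim_nbr hz
    exact ⟨H678.hub_sub_X hz.1, hz.2, u, hu, nbr_symm huz⟩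
  exact Jn.mono e (far_conn h hK (h1 x hx.1) (h1 y hy.1) (hx.2.trans (Jn.symm hy.2)))

/-- A hub vertex with an exit. -/
theorem ofar_of_exit (hM : 0 < M) (h : HullTri X b) (hg : HubsGood M X Bl₁ Wh₁)
    (hb : ∀ j, 1 + 2 * ms M ≤ nsup (b j)) {u v z : ℂ} (hu : u ∈ outHub M X Bl₁ k)
    (huv : nbr X u v) (hv : v ∉ outHub M X Bl₁ k) (hvz : Jn X (X \ outHub M X Bl₁ k) v z)
    (hz : z ∉ csq (pout M k) (ms M / 16)) : Ofar M X b Bl₁ k u := by
  have h0 := ms_pos hM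
  have hco : oco M X Bl₁ k ⊆ outHub M X Bl₁ k := H678.core_sub_hub
  have hu1 : u ∉ oco M X Bl₁ k := fun h => hv (H678.hub_step h huv)
  have c1 : Jn X (X \ oco M X Bl₁ k) u v :=
    Jn.single huv ⟨huv.1, hu1⟩ ⟨huv.2.1, fun h => hv (hco h)⟩
  have s1 : X \ outHub M X Bl₁ k ⊆ X \ oco M X Bl₁ k := fun x hx => ⟨hx.1, fun h => hx.2 (hco h)⟩
  have s2 : X \ csq (pout M k) (ms M / 16) ⊆ X \ oco M X Bl₁ k := fun x hx =>
    ⟨hx.1, fun h => hx.2 (hbox_sub_csq hM _ (hg.outSub k (hco h)))⟩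
  have c2 : Jn X (X \ oco M X Bl₁ k) v z := Jn.mono s1 hvz
  have hzX : z ∈ X := (hvz.mem ⟨huv.2.1, hv⟩).1
  have c3 : Jn X (X \ oco M X Bl₁ k) z (b 0) := by
    refine Jn.mono s2 (escape h (convex_csq (pout M k) (ms M / 16)) (isOpen_csq _ _)
      (fun j hj => ?_) hzX hz)
    have h1 := (H678.gbox_nsup hM (csq_pout_sub hM k hj)).2
    have h2 := hb j
    linarith
  exact ⟨⟨hu, hu1⟩, c1.trans (c2.trans c3)⟩

/-- A part of a sequence. -/
theorem jn_seq {Y : Set ℂ} {v : ℕ → ℂ} {a c : ℕ} (hac : a ≤ c)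
    (h1 : ∀ i, a ≤ i → i < c → nbr X (v i) (v (i + 1))) (h2 : ∀ i, a ≤ i → i ≤ c → v i ∈ Y) :
    Jn X Y (v a) (v c) := by
  induction c, hac using Nat.le_induction with
  | base => exact ReflTransGen.refl
  | succ c hac ih =>
    exact (ih (fun i h3 h4 => h1 i h3 (by omega)) (fun i h3 h4 => h2 i h3 (by omega))).tail
      ⟨h1 c hac (by omega), h2 c hac (by omega), h2 (c + 1) (by omega) le_rfl⟩

/-- A path from a walk. -/
theorem jn_of_walk (h : HullTri X b) (x₀ : X) {Y : Set ℂ} {x y : X}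
    {l : List (Fc X b × ZMod 3)} (hl : (HT h x₀).Walk x y l)
    (hY : ∀ g ∈ l, (HT h x₀).src g ∈ (vs Y : Set X) ∧ (HT h x₀).tgt g ∈ (vs Y : Set X)) :
    Jn X Y x y := by
  induction hl with
  | nil v => exact ReflTransGen.refl
  | cons g w l hl ih =>
    have h1 := hY g (by simp)
    exact (Jn.single (HT_nbr h x₀ g) h1.1 h1.2).trans
      (ih fun g' hg' => hY g' (List.mem_cons_of_mem _ hg'))

/-- The rim of helper565. -/
theorem ofar_of_rim (h : HullTri X b) (x₀ : X) {y : X}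
    (hy : y ∈ H565.rim (HT h x₀) (vs (oco M X Bl₁ k)) ⟨b 0, h.mem 0⟩) :
    Ofar M X b Bl₁ k (y : ℂ) := by
  have h1 := (mem_hb_core h x₀).1 (rim_sub_hb hy)
  obtain ⟨⟨h2, l, hl, hl2⟩, -⟩ := hy
  refine ⟨⟨h1, h2⟩, jn_of_walk h x₀ hl fun g hg => ?_⟩
  exact ⟨⟨((HT h x₀).src g).2, (hl2 g hg).1⟩, ⟨((HT h x₀).tgt g).2, (hl2 g hg).2⟩⟩

section col

variable (hC : Col M X b Bl₁ Wh₁ Bl₂ Wh₂ s)
include hC

/-- The white explored sites. -/
abbrev wE (M : ℕ) (X Bl₁ Wh₁ Bl₂ Wh₂ : Set ℂ) (s : ℂ → Bool) (K : Set ℕ) (J : Set ℂ) : Set ℂ :=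
  {z | z ∈ EK M X Bl₁ Wh₁ Bl₂ Wh₂ K J ∧ s z = false}

theorem rim_white {z : ℂ} (hz : z ∈ outRim M X Bl₁ k) : s z = false :=
  (hC.hub_cases hz.1).resolve_right hz.2

/-- Two vertices of the rim which face the outside. -/
theorem col_ofar_jn {K : Set ℕ} {J : Set ℂ}
    (hk : outHub M X Bl₁ k ⊆ EK M X Bl₁ Wh₁ Bl₂ Wh₂ K J) {x y : ℂ} (hx : Ofar M X b Bl₁ k x)
    (hy : Ofar M X b Bl₁ k y) : Jn X (wE M X Bl₁ Wh₁ Bl₂ Wh₂ s K J) x y := by
  have s1 : outRim M X Bl₁ k ⊆ wE M X Bl₁ Wh₁ Bl₂ Wh₂ s K J := fun _ hz =>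
    ⟨hk hz.1, rim_white hC hz⟩
  exact Jn.mono s1 (ofar_conn hC.hull hx hy)

/-- **The outer rail joins the rims.** -/
theorem rail_jn {K : Set ℕ} {J : Set ℂ}
    (hk : outHub M X Bl₁ k ⊆ EK M X Bl₁ Wh₁ Bl₂ Wh₂ K J)
    (hJ : Disjoint (CBox M (pout M k) (pout M (k + 1))) J) :
    ∃ x y, Ofar M X b Bl₁ k x ∧ Ofar M X b Bl₁ (k + 1) y ∧
      Jn X (wE M X Bl₁ Wh₁ Bl₂ Wh₂ s K J) x y := by
  have hms := ms_pos hC.hM
  obtain ⟨n, v, h0, h1, h2, h3, h4, h5⟩ := hC.good.up_link hC.hM hC.comb.w2 (hC.rails' k)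
  have hdj := hC.good.disj_out_out hC.hM k
  have off0 : ∀ i, 0 < i → i ≤ n → v i ∉ outHub M X Bl₁ k := by
    intro i hi hin hc
    rcases hin.lt_or_eq with h | h
    · exact (h4 i hi h).2 (hC.oco_sub_Ex k hc)
    · rw [h] at hc
      exact Set.disjoint_left.1 hdj hc h3.1
  have off1 : ∀ i < n, v i ∉ outHub M X Bl₁ (k + 1) := by
    intro i hin hc
    rcases Nat.eq_zero_or_pos i with h | h
    · rw [h] at hc
      exact Set.disjoint_left.1 hdj h2.1 hc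
    · exact (h4 i h hin).2 (hC.oco_sub_Ex (k + 1) hc)
  have hX : ∀ i ≤ n, v i ∈ X := by
    intro i hi
    rcases hi.lt_or_eq with h | h
    · exact (h1 i h).1
    · rw [h]; exact H678.hub_sub_X h3.1
  have gb : ∀ {j : ℕ} {z : ℂ}, z ∈ outHub M X Bl₁ j → z ∈ gbox M j := fun hz =>
    H995.hbox_pout_sub hC.hM _ (hC.good.outSub _ hz)
  have fn : v n ∉ csq (pout M k) (ms M / 16) := fun hc =>
    gbox_disj_succ hC.hM k _ (csq_pout_sub hC.hM k hc) (gb h3.1)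
  have f0 : v 0 ∉ csq (pout M (k + 1)) (ms M / 16) := fun hc =>
    gbox_disj_succ hC.hM k _ (gb h2.1) (csq_pout_sub hC.hM (k + 1) hc)
  -- colours
  have hwh : ∀ i ≤ n, s (v i) = false := by
    intro i hi
    rcases Nat.eq_zero_or_pos i with rfl | hi0
    · exact rim_white hC h2
    · rcases hi.lt_or_eq with h' | rfl
      · refine hC.comb.off2' _ (h4 i hi0 h').1 fun j _ => ⟨fun h => (h4 i hi0 h').2 ?_, fun h =>
          (h4 i hi0 h').2 (hC.oco_sub_Ex j h)⟩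
        exact mem_iUnion.2 ⟨j, Or.inl h⟩
      · exact rim_white hC h3
  have hE : ∀ i ≤ n, v i ∈ EK M X Bl₁ Wh₁ Bl₂ Wh₂ K J := by
    intro i
    induction i with
    | zero => exact fun _ => hk h2.1
    | succ i ih =>
      intro hi
      refine H678.EJ_step (ih (by omega)) ((hC.cW _ (hX i (by omega))).2 (hwh i (by omega)))
        (h1 i (by omega)) ?_ (Set.disjoint_left.1 hJ (h5 (i + 1) hi))
      have := (cell_nsup hC.hM (H995.rail_out_sub hC.hM k (h5 (i + 1) hi))).2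
      linarith
  refine ⟨v 0, v n, ?_, ?_, jn_seq (Nat.zero_le n) (fun i _ hi => h1 i hi)
    (fun i _ hi => ⟨hE i hi, hwh i hi⟩)⟩
  · exact ofar_of_exit hC.hM hC.hull hC.good hC.far h2.1 (h1 0 h0) (off0 1 one_pos h0)
      (jn_seq h0 (fun i _ hi => h1 i hi) (fun i hi hi' => ⟨hX i hi', off0 i hi hi'⟩)) fn
  · have e1 : n - 1 + 1 = n := by omega
    have h6 : nbr X (v n) (v (n - 1)) := by
      have := h1 (n - 1) (by omega)
      rw [e1] at this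
      exact nbr_symm this
    have h7 : Jn X (X \ outHub M X Bl₁ (k + 1)) (v 0) (v (n - 1)) :=
      jn_seq (Nat.zero_le (n - 1)) (fun i _ hi => h1 i (by omega))
        (fun i _ hi' => ⟨hX i (by omega), off1 i (by omega)⟩)
    exact ofar_of_exit hC.hM hC.hull hC.good hC.far h3.1 h6 (off1 (n - 1) (by omega))
      (Jn.symm h7) f0

/-- **The foot is joined to the outer rim.** -/
theorem foot_jn {x₀ : X} {d : Fc X b × ZMod 3} (hd : Foot hC.hull x₀ M Bl₁ Wh₁ s k d)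
    {K : Set ℕ} {J : Set ℂ} (hk : outHub M X Bl₁ k ⊆ EK M X Bl₁ Wh₁ Bl₂ Wh₂ K J)
    (hJ : Disjoint (gbox M k) J) :
    ∃ y, Ofar M X b Bl₁ k y ∧
      Jn X (wE M X Bl₁ Wh₁ Bl₂ Wh₂ s K J) (((HT hC.hull x₀).tgt d : X) : ℂ) y := by
  obtain ⟨-, h2, h3, y, hy, l, hl, hlm⟩ := hd
  have hA : ∀ v : X, v.1 ∈ gbox M k → v ∈ (vs (D0 M X \ J) : Set X) := by
    intro v hv
    refine ⟨⟨v.2, ?_⟩, Set.disjoint_left.1 hJ hv⟩
    have := (H678.gbox_nsup hC.hM hv).2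
    have hms := ms_pos hC.hM
    linarith
  have hyE : y ∈ (vs (wE M X Bl₁ Wh₁ Bl₂ Wh₂ s K J) : Set X) :=
    ⟨hk ((mem_hb_core hC.hull x₀).1 (rim_sub_hb hy)), (hC.hubs x₀).colR' k _ hy⟩
  have h4 := (hC.clo x₀ K J).walk hl.reverse hyE (fun g hg => by
    rw [List.mem_reverse, List.mem_map] at hg
    obtain ⟨g', hg', rfl⟩ := hg
    rw [Tri.tgt_rev]
    rcases H565.walk_src_mem hl g' hg' with h5 | ⟨g'', h6, h7⟩
    · rw [h5]; exact ⟨hA _ h3, h2⟩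
    · rw [← h7]; exact ⟨hA _ (hlm g'' h6).2, (hlm g'' h6).1⟩)
  exact ⟨y, ofar_of_rim hC.hull x₀ hy, Jn.symm (jn_of_walk hC.hull x₀ hl.reverse h4.2)⟩

/-! ### the arch -/

/-- The arch: the white explored sites joined to `p`. -/
def archE (M : ℕ) (X Bl₁ Wh₁ Bl₂ Wh₂ : Set ℂ) (s : ℂ → Bool) (K : Set ℕ) (J : Set ℂ) (p : ℂ) :
    Set ℂ := {z | z ∈ wE M X Bl₁ Wh₁ Bl₂ Wh₂ s K J ∧ Jn X (wE M X Bl₁ Wh₁ Bl₂ Wh₂ s K J) z p}

/-- The neighbours of the arch are not in the fresh region. -/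
theorem arch_adj {K : Set ℕ} {J I : Set ℂ} {p : ℂ}
    (hI0 : Disjoint I (EK M X Bl₁ Wh₁ Bl₂ Wh₂ univ ∅)) (hI1 : ∀ z ∈ I, nsup z < 1 + 2 * ms M)
    {u v : ℂ} (huv : nbr X u v) (hu : u ∈ archE M X Bl₁ Wh₁ Bl₂ Wh₂ s K J p) : v ∉ I := by
  intro hv
  have h1 : u ∈ EK M X Bl₁ Wh₁ Bl₂ Wh₂ univ ∅ :=
    H678.EJ_anti (subset_univ K) (empty_subset J) hu.1.1
  exact Set.disjoint_left.1 hI0 hv (H678.EJ_step h1 ((hC.cW _ huv.1).2 hu.1.2) huv (hI1 v hv)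
    (notMem_empty v))

/-- **The door ends in the arch.** `k + 1` is the door gate, the arch is based at the foot of the
gate `k`. -/
theorem arch_door {K : Set ℕ} {J : Set ℂ} {x₀ : X} {d : Fc X b × ZMod 3}
    (hd : Foot hC.hull x₀ M Bl₁ Wh₁ s k d)
    (hk : outHub M X Bl₁ k ⊆ EK M X Bl₁ Wh₁ Bl₂ Wh₂ K J)
    (hk' : outHub M X Bl₁ (k + 1) ⊆ EK M X Bl₁ Wh₁ Bl₂ Wh₂ K J)
    (hJ : Disjoint (CBox M (pout M k) (pout M (k + 1))) J) (hJ' : Disjoint (gbox M k) J)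
    {u v z : ℂ} (huv : nbr X u v) (hu : u ∈ outHub M X Bl₁ (k + 1))
    (hc : H995.Chain (nbr X) (X \ outHub M X Bl₁ (k + 1)) v z) (hz : nsup z ≤ 1 - ms M / 8) :
    u ∈ archE M X Bl₁ Wh₁ Bl₂ Wh₂ s K J (((HT hC.hull x₀).tgt d : X) : ℂ) := by
  obtain ⟨n, w, w1, w2, w3, w4⟩ := hc
  have hv : v ∉ outHub M X Bl₁ (k + 1) := by rw [← w3]; exact (w2 0 (Nat.zero_le n)).2
  have hvz : Jn X (X \ outHub M X Bl₁ (k + 1)) v z := by
    rw [← w3, ← w4]
    exact jn_seq (Nat.zero_le n) (fun i _ hi => w1 i hi) (fun i _ hi => w2 i hi)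
  have hzc : z ∉ csq (pout M (k + 1)) (ms M / 16) := fun hc => by
    have := (H678.gbox_nsup hC.hM (csq_pout_sub hC.hM (k + 1) hc)).1
    have h0 := ms_pos hC.hM
    linarith
  have h1 := ofar_of_exit hC.hM hC.hull hC.good hC.far hu huv hv hvz hzc
  obtain ⟨x, y, hx, hy, hxy⟩ := rail_jn hC hk hJ
  obtain ⟨y', hy', hpy⟩ := foot_jn hC hd hk hJ'
  refine ⟨⟨hk' hu, rim_white hC h1.1⟩, ?_⟩
  exact (col_ofar_jn hC hk' h1 hy).trans ((Jn.symm hxy).trans ((col_ofar_jn hC hk hx hy').trans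
    (Jn.symm hpy)))

/-! ### the door cell -/

/-- The gates whose hubs are explored for the arc with the door cell `k`: all but `k + 1`. -/
abbrev Kd (M k : ℕ) : Set ℕ := Icc (k + 2) (k + nc M)

/-- The explored set for the door cell `k`. -/
abbrev ED (M : ℕ) (X Bl₁ Wh₁ Bl₂ Wh₂ : Set ℂ) (k : ℕ) : Set ℂ :=
  EK M X Bl₁ Wh₁ Bl₂ Wh₂ (Kd M k) (cell M k)

omit hC in
theorem kd_ne {j : ℕ} (hj : j ∈ Kd M k) : j % nc M ≠ (k + 1) % nc M := by
  obtain ⟨h1, h2⟩ := hj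
  intro h
  have h3 : nc M ∣ j - (k + 1) := (Nat.modEq_iff_dvd' (by omega)).1 h.symm
  have h4 := Nat.le_of_dvd (by omega) h3
  omega

omit hC in
/-- A hub which is explored. -/
theorem hub_sub_ED {j : ℕ} (h : j ∈ Kd M k) :
    outHub M X Bl₁ j ⊆ ED M X Bl₁ Wh₁ Bl₂ Wh₂ k := by
  have h1 := H678.outHub_sub_EJ (M := M) (X := X) (Bl := mB M X Bl₁ Wh₁ Bl₂)
    (Wh := mW M X Bl₁ Wh₁ Wh₂) (J := cell M k) h
  rwa [H678.outHub_mix] at h1

omit hC in
theorem four_le_nc (M : ℕ) : 4 ≤ nc M := by unfold nc; omega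

omit hC in
/-- The hub of the door gate is explored. -/
theorem hub_door : outHub M X Bl₁ k ⊆ ED M X Bl₁ Wh₁ Bl₂ Wh₂ k := by
  have h4 := four_le_nc M
  have h1 := hub_sub_ED (M := M) (X := X) (Bl₁ := Bl₁) (Wh₁ := Wh₁) (Bl₂ := Bl₂) (Wh₂ := Wh₂) (k := k)
    (j := k + nc M) ⟨by omega, le_rfl⟩
  rwa [← H565.outHub_mod, Nat.add_mod_right, H565.outHub_mod] at h1

omit hC in
/-- The hub of the gate before the door gate is explored. -/
theorem hub_prev : outHub M X Bl₁ k ⊆ ED M X Bl₁ Wh₁ Bl₂ Wh₂ (k + 1) := by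
  have h4 := four_le_nc M
  have h1 := hub_sub_ED (M := M) (X := X) (Bl₁ := Bl₁) (Wh₁ := Wh₁) (Bl₂ := Bl₂) (Wh₂ := Wh₂) (k := k + 1)
    (j := k + nc M) ⟨by omega, by omega⟩
  rwa [← H565.outHub_mod, Nat.add_mod_right, H565.outHub_mod] at h1

/-- The outer rail of the door cell meets the explored set in the hub. -/
theorem door_rail {z : ℂ} (hE : z ∈ ED M X Bl₁ Wh₁ Bl₂ Wh₂ k)
    (hz : z ∈ CBox M (pout M k) (pout M (k + 1))) : z ∈ outHub M X Bl₁ k :=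
  H678.EJ_rail hC.hM hC.good (fun _ hj => kd_ne hj) (H995.rail_out_sub hC.hM k) hz hE

/-- The door corridor is off the explored set. -/
theorem door_cor (hM : 8 ≤ M) (hk : k < nc M) (hs : k % (2 * M + 1) < 2 * M) {z : ℂ}
    (hE : z ∈ ED M X Bl₁ Wh₁ Bl₂ Wh₂ k) (hz : (tn M k * z).re < 1 + 3 / 4 * ms M) :
    z ∉ Cor (tn M k) (1 - 3 * (ms M / 8)) (yc M k) (ms M / 8) := by
  intro hc
  have ha := ms_pos hC.hM
  have ha' := ms_le hM
  have hx : 0 < 1 - 3 * (ms M / 8) - 1 / 20 := by linarith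
  rcases H678.EJ_sub hE with h | h
  · obtain ⟨j, -, hj⟩ := mem_iUnion₂.1 h
    rw [H678.outHub_mix] at hj
    exact Set.disjoint_left.1 (H995.cor_gbox hC.hM hk hs hx j) hc
      (H995.hbox_pout_sub hC.hM j (hC.good.outSub j hj))
  · refine h.2 (H995.cor_cell hC.hM hs hx hc (EK_gt hC hE) ?_)
    have h1 : 1 - 3 * (ms M / 8) - 1 / 20 ≤ (tn M k * (z - 0)).re ∧
      (tn M k * (z - 0)).re ≤ 27 / 20 + 1 / 20 ∧
      yc M k - ms M / 8 ≤ (tn M k * (z - 0)).im ∧ (tn M k * (z - 0)).im ≤ yc M k + ms M / 8 := hc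
    rw [sub_zero] at h1
    obtain ⟨a1, -, a3, a4⟩ := h1
    have hy := abs_le.1 (abs_yc hC.hM hs.ne)
    rw [← nsup_turn (turn_tn M k)]
    exact max_lt (abs_lt.2 ⟨by linarith, by linarith⟩) (abs_lt.2 ⟨by linarith, by linarith⟩)

end col

end Vale.Agent.P148.R2.H320
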