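import Vale.Agent.P148.R2.H320.DoorG
import Vale.Agent.P148.R2.H419.Col8

/-!
# P148, row door: the arch of a frame and the door cell

* `footP_jn` : the foot (plane form) is joined to the outer rim;
* `arch_door'` : the door ends in the arch;
* `Joined` : the arch in the sense of `H838`;
* `frame_hc` : the hypothesis `hc` of the door theorem for the arc of a frame.
-/

set_option linter.unusedSectionVars false

open Set Relation Metric Function

namespace Vale.Agent.P148.R2.H320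

open Vale.Agent.P148.R2.H258 Vale.Agent.P148.R2.H565 Vale.Agent.P148.R2.H419
open Vale.Agent.P148.R2.N (ms nc gateC gbox cell csq ms_pos)
open Vale.Agent.P148.R2.H592 (HullTri nbr nbr_symm ConnIn Fc idmap fib_id tail head vc Three comp)
open Vale.Agent.P148.R2.H959 (Jn reg bd far_conn escape)
open Vale.Agent.P148.R2.H678 (core hub rim pin pout sd CBox CCr InGood OutGood Tooth Rails Rad inHub
  outHub inRim outRim hbox uo HubsGood Ex mix mB mW EJ D0 oseed rd RD Link cell_nsup)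
open Vale.Agent.P148.R2.H995 (nsup Pieces hbox_local hubs_ring)
open Vale.Agent.P148.R2.H566 (W0)
open Vale.Agent.P148.R2.H172 (Frame)

variable {M : ℕ} {X : Set ℂ} {b : ZMod 3 → ℂ} {Bl₁ Wh₁ Bl₂ Wh₂ : Set ℂ} {s : ℂ → Bool} {k : ℕ}

/-- The inner hub is off the square around the outer one. -/
theorem hin_far (hM : 0 < M) (k : ℕ) {z : ℂ} (hz : z ∈ hbox M (pin M k)) :
    z ∉ csq (pout M k) (ms M / 16) := by
  intro h
  have h0 := ms_pos hM
  obtain ⟨w, rfl⟩ := N.exists_eq_I_pow_mul (k / (2 * M + 1)) z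
  rw [H995.pin_eq] at hz
  obtain ⟨⟨a1, a2⟩, -⟩ := hbox_local hM hz
  rw [N.mem_csq] at h
  have h1 : nsup (Complex.I ^ (k / (2 * M + 1)) * w - pout M k) < ms M / 16 :=
    max_lt (by rw [Complex.sub_re]; exact h.1) (by rw [Complex.sub_im]; exact h.2)
  rw [H995.pout_eq, H995.hp, ← mul_sub, H959.nsup_I_pow_mul] at h1
  have h2 := (le_max_left _ _).trans_lt h1
  rw [Complex.sub_re, abs_lt] at h2
  simp only [H995.lp] at h2
  linarith

section col

variable (hC : Col M X b Bl₁ Wh₁ Bl₂ Wh₂ s)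
include hC

/-- The white sites of the composite colouring have the same inner hubs. -/
theorem inHub_blk (k : ℕ) :
    inHub M X (X \ {z | z ∈ X ∧ s z = true}) k = inHub M X Wh₁ k := by
  have h1 := H678.inHub_mix (M := M) (X := X) (Bl₁ := Bl₁) (Wh₁ := Wh₁) (Wh₂ := Wh₂) k
  rw [← h1]
  refine H678.hub_congr fun v hv => ?_
  have hv2 : v ∈ X := H678.hub_sub_X hv
  rw [hC.cW v hv2]
  constructor
  · intro h
    by_contra hc
    exact h.2 ⟨hv2, by revert hc; cases s v <;> simp⟩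
  · intro h
    refine ⟨hv2, fun h2 => ?_⟩
    have h3 : s v = true := h2.2
    rw [h] at h3
    exact absurd h3 (by decide)

/-- **The foot (plane form) is joined to the outer rim.** -/
theorem footP_jn {a : ℂ × ℂ} (ha : H565.Foot M X {z | z ∈ X ∧ s z = true} k a)
    {K : Set ℕ} {J : Set ℂ} (hk : outHub M X Bl₁ k ⊆ EK M X Bl₁ Wh₁ Bl₂ Wh₂ K J)
    (hJ : Disjoint (gbox M k) J) :
    ∃ y, Ofar M X b Bl₁ k y ∧ Jn X (wE M X Bl₁ Wh₁ Bl₂ Wh₂ s K J) a.2 y := by
  obtain ⟨n, v, h0, h1, h2, h3, h4, h5, h6, h7⟩ := ha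
  have hms := ms_pos hC.hM
  have hX : ∀ i, 0 < i → i ≤ n → v i ∈ X := by
    intro i hi hin
    have := (h1 (i - 1) (by omega)).2.1
    rwa [show i - 1 + 1 = i by omega] at this
  have hn : v n ∈ outHub M X Bl₁ k := by
    have g1 : v n ∈ outHub M X {z | z ∈ X ∧ s z = true} k := h5.1
    rwa [hC.outHub_blk] at g1
  have key : ∀ m, m < n → v (n - m) ∈ wE M X Bl₁ Wh₁ Bl₂ Wh₂ s K J := by
    intro m
    induction m with
    | zero =>
      intro _
      rw [Nat.sub_zero]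
      refine ⟨hk hn, ?_⟩
      have g2 : v n ∉ {z | z ∈ X ∧ s z = true} := H678.rim_not h5
      by_contra hc
      exact g2 ⟨hX n h0 le_rfl, by revert hc; cases s (v n) <;> simp⟩
    | succ m ih =>
      intro hm
      obtain ⟨g1, g2⟩ := ih (by omega)
      have g3 : nbr X (v (n - (m + 1))) (v (n - m)) := by
        have := h1 (n - (m + 1)) (by omega)
        rwa [show n - (m + 1) + 1 = n - m by omega] at this
      have g4 := h7 (n - (m + 1)) (by omega)
      have g5 := (H678.gbox_nsup hC.hM g4).2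
      refine ⟨H678.EJ_step g1 ((hC.cW _ g3.2.1).2 g2) (nbr_symm g3) (by linarith)
        (Set.disjoint_left.1 hJ g4), ?_⟩
      have g6 := (h6 (n - (m + 1)) (by omega) (by omega)).1
      by_contra hc
      exact g6 ⟨g3.1, by revert hc; cases s (v (n - (m + 1))) <;> simp⟩
  have hin : v 0 ∈ inHub M X Wh₁ k := by
    have g1 : v 0 ∈ inHub M X (X \ {z | z ∈ X ∧ s z = true}) k := h4.1
    rwa [inHub_blk hC] at g1
  have hoff : ∀ i < n, v i ∉ outHub M X Bl₁ k := by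
    intro i hi
    rcases Nat.eq_zero_or_pos i with rfl | hi0
    · exact Set.disjoint_left.1 (hC.good.disj_in_out hC.hM k) hin
    · have g1 := (h6 i hi0 hi).2.2
      rwa [hC.outHub_blk] at g1
  refine ⟨v n, ?_, ?_⟩
  · have h8 : nbr X (v n) (v (n - 1)) := by
      have := h1 (n - 1) (by omega)
      rw [show n - 1 + 1 = n by omega] at this
      exact nbr_symm this
    refine ofar_of_exit hC.hM hC.hull hC.good hC.far hn h8 (hoff _ (by omega)) (z := v 0) ?_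
      (hin_far hC.hM k (hC.good.inSub k hin))
    refine Jn.symm (jn_seq (Nat.zero_le _) (fun i _ hi => h1 i (by omega))
      (fun i _ hi => ⟨?_, hoff i (by omega)⟩))
    rcases Nat.eq_zero_or_pos i with rfl | hi0
    · exact H678.hub_sub_X hin
    · exact hX i hi0 (by omega)
  · rw [← h3]
    refine jn_seq h0 (fun i _ hi => h1 i hi) (fun i hi hi' => ?_)
    have := key (n - i) (by omega)
    rwa [show n - (n - i) = i by omega] at this

/-- **The door ends in the arch**, for any base point joined to the rim of the gate `k`. -/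
theorem arch_door' {K : Set ℕ} {J : Set ℂ} {p : ℂ}
    (hp : ∃ y, Ofar M X b Bl₁ k y ∧ Jn X (wE M X Bl₁ Wh₁ Bl₂ Wh₂ s K J) p y)
    (hk : outHub M X Bl₁ k ⊆ EK M X Bl₁ Wh₁ Bl₂ Wh₂ K J)
    (hk' : outHub M X Bl₁ (k + 1) ⊆ EK M X Bl₁ Wh₁ Bl₂ Wh₂ K J)
    (hJ : Disjoint (CBox M (pout M k) (pout M (k + 1))) J)
    {u v z : ℂ} (huv : nbr X u v) (hu : u ∈ outHub M X Bl₁ (k + 1))
    (hc : H995.Chain (nbr X) (X \ outHub M X Bl₁ (k + 1)) v z) (hz : nsup z ≤ 1 - ms M / 8) :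
    u ∈ archE M X Bl₁ Wh₁ Bl₂ Wh₂ s K J p := by
  obtain ⟨n, w, w1, w2, w3, w4⟩ := hc
  have hv : v ∉ outHub M X Bl₁ (k + 1) := by rw [← w3]; exact (w2 0 (Nat.zero_le n)).2
  have hvz : Jn X (X \ outHub M X Bl₁ (k + 1)) v z := by
    rw [← w3, ← w4]
    exact jn_seq (Nat.zero_le n) (fun i _ hi => w1 i hi) (fun i _ hi => w2 i hi)
  have hzc : z ∉ csq (pout M (k + 1)) (ms M / 16) := fun hc => by
    have := (H678.gbox_nsup hC.hM (csq_pout_sub hC.hM (k + 1) hc)).1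
    have h0 := ms_pos hC.hM
    linarith
  have h1 := ofar_of_exit hC.hM hC.hull hC.good hC.far hu huv hv hvz hzc
  obtain ⟨x, y, hx, hy, hxy⟩ := rail_jn hC hk hJ
  obtain ⟨y', hy', hpy⟩ := hp
  refine ⟨⟨hk' hu, rim_white hC h1.1⟩, ?_⟩
  exact (col_ofar_jn hC hk' h1 hy).trans ((Jn.symm hxy).trans ((col_ofar_jn hC hk hx hy').trans
    (Jn.symm hpy)))

end col

/-! ### the cells before the door cell -/

theorem rail_prev_cell (hM : 0 < M) (hk : k + 1 < nc M) :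
    Disjoint (CBox M (pout M k) (pout M (k + 1))) (cell M (k + 1)) :=
  (N.disjoint_cell hM (by omega) hk (by omega)).mono_left (H995.rail_out_sub hM k)

theorem gbox_prev_cell (hM : 0 < M) (hk : k + 1 < nc M) :
    Disjoint (gbox M k) (cell M (k + 1)) := by
  have h4 : 4 ≤ nc M := by unfold nc; omega
  refine H995.gbox_cell_disj hM (by omega) hk (by omega) ?_
  rcases Nat.lt_or_ge (k + 1 + 1) (nc M) with h | h
  · rw [Nat.mod_eq_of_lt h]; omega
  · rw [show k + 1 + 1 = nc M by omega, Nat.mod_self]; omega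

/-! ### frames -/

section frame

variable {w : W0} {x₀ : w.X} {col : w.X → Bool}
  (hC : Col M w.X w.b Bl₁ Wh₁ Bl₂ Wh₂ s) (hcol : ∀ v : w.X, s v.1 = col v)
  (F : Frame M w x₀ col)

/-- The right vertex of the foot of the gate `m`. -/
noncomputable abbrev fp (F : Frame M w x₀ col) (m : ℕ) : w.X :=
  (H609.TP w x₀).tgt (((H609.TP w x₀).st col)^[F.t m] F.o)

include hC hcol

/-- The foot of a frame. -/
theorem frame_footP {K : Set ℕ} {J : Set ℂ} {m : ℕ}
    (hk : outHub M w.X Bl₁ m ⊆ EK M w.X Bl₁ Wh₁ Bl₂ Wh₂ K J) (hJ : Disjoint (gbox M m) J) :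
    ∃ y, Ofar M w.X w.b Bl₁ m y ∧
      Jn w.X (wE M w.X Bl₁ Wh₁ Bl₂ Wh₂ s K J) ((fp F m : w.X) : ℂ) y := by
  have h1 := F.foot m
  rw [blk_eq hcol] at h1
  exact footP_jn hC h1 hk hJ

/-- The arch for `H419.door_data`. -/
theorem frame_arch {K : Set ℕ} {J : Set ℂ} {y : w.X} {a : ℂ}
    (ha : a ∈ archE M w.X Bl₁ Wh₁ Bl₂ Wh₂ s K J (y : ℂ)) :
    ∃ h : a ∈ w.X, H838.Joined (H609.TP w x₀) col false
      {v | v.1 ∈ EK M w.X Bl₁ Wh₁ Bl₂ Wh₂ K J} ⟨a, h⟩ y := by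
  have haX : a ∈ w.X := H678.EJ_sub_X ha.1.1
  obtain ⟨l, hl, hlm⟩ := HT_walk w.hull x₀ (x := ⟨a, haX⟩) (y := y) ha.2
  refine ⟨haX, ha.1.1, ?_, l, hl, fun g hg => ?_⟩
  · rw [← hcol]; exact ha.1.2
  · obtain ⟨h1, h2⟩ := hlm g hg
    exact ⟨⟨by rw [← hcol]; exact h1.2, h1.1⟩, by rw [← hcol]; exact h2.2, h2.1⟩

omit hcol in
/-- The boundary of the free region. -/
theorem bdry_gt {i₀ : ℂ} (hB : w.B = w.X \ I0 M w.X Bl₁ Wh₁ Bl₂ Wh₂ i₀) {q : w.D}
    (h1 : tail q ∈ w.B) (h2 : head q ∉ w.B) :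
    head q ∈ I0 M w.X Bl₁ Wh₁ Bl₂ Wh₂ i₀ ∧ tail q ∈ E0 M w.X Bl₁ Wh₁ Bl₂ Wh₂ ∧
      1 < nsup (tail q) := by
  have hn := w.hull.nbr_th q
  rw [hB] at h1 h2
  have h3 : head q ∈ I0 M w.X Bl₁ Wh₁ Bl₂ Wh₂ i₀ := by
    by_contra h4
    exact h2 ⟨hn.2.1, h4⟩
  have h4 : tail q ∈ E0 M w.X Bl₁ Wh₁ Bl₂ Wh₂ := by
    rcases H592.nbr_comp h3 (nbr_symm hn) with h5 | h5
    · exact absurd h5 h1.2
    · exact h5
  exact ⟨h3, h4, EK_gt hC h4⟩

/-- **The hypothesis `hc` of the door theorem.** -/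
theorem frame_hc [Fintype w.X] (hM8 : 8 ≤ M) {i₀ : ℂ}
    (hB : w.B = w.X \ I0 M w.X Bl₁ Wh₁ Bl₂ Wh₂ i₀)
    (hk : k + 1 < nc M) (hs : (k + 1) % (2 * M + 1) < 2 * M) {J : Set w.D} {R : w.D → Prop}
    (hR : ∀ e, R e → nsup (head e) ≤ 1 - 3 * (ms M / 8)) {c : ℝ}
    (hc : c ≤ H838.pr (fun τ : w.X → Bool =>
      DoorEv M w.X (whX w.X τ) (k + 1) ∧ KEv w.X (whX w.X τ)))
    (τ : w.X → Bool) (d : w.D)
    (hd : H400.CntB w.hull w.fib x₀ (ED M w.X Bl₁ Wh₁ Bl₂ Wh₂ (k + 1)) J R τ d) :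
    c ≤ H838.pr (fun τ' => H400.Door (H400.TP w.hull x₀)
      (H400.vs w.X (ED M w.X Bl₁ Wh₁ Bl₂ Wh₂ (k + 1))) (H400.ExB w.hull w.fib x₀ d τ)
      (H400.vs w.X (archE M w.X Bl₁ Wh₁ Bl₂ Wh₂ s (Kd M (k + 1)) (cell M (k + 1))
        ((fp F k : w.X) : ℂ))) τ' ∧ KX w.X τ') := by
  have hM := hC.hM
  have hms := ms_pos hM
  have hJc := rail_prev_cell hM hk
  have hp := frame_footP hC hcol F (m := k) (K := Kd M (k + 1)) (J := cell M (k + 1)) hub_prev
    (gbox_prev_cell hM hk)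
  refine door_hc w.hull w.fib x₀ hM8 (k := k + 1) hs.ne (H := outHub M w.X Bl₁ (k + 1))
    (fun z hz => H678.core_sub_hub (H678.seed_core hz)) (hC.good.outSub (k + 1))
    (fun z hz hz2 _ => door_rail hC hz hz2) (fun z hz hz1 => door_cor hC hM8 hk hs hz hz1)
    (fun z hz => by have := EK_gt hC hz; linarith)
    (fun u v z huv hu hch hz => arch_door' hC hp hub_prev hub_door hJc huv hu hch hz)
    (fun q h1 h2 => by have := (bdry_gt hC hB h1 h2).2.2; linarith) hR hc τ d hd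

end frame

end Vale.Agent.P148.R2.H320
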