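import Vale.Agent.P148.R2.H320.DoorH
import Vale.Agent.P148.R2.H400.Flip11
import Vale.Agent.P148.R2.H172.Sc3

/-!
# P148, row door: one world

`frame_door` : the energy of the closed classes of the excursions captured by the arc `j` of a frame.
-/

set_option linter.unusedSectionVars false

open Set Relation Metric Function
open scoped ENNReal

namespace Vale.Agent.P148.R2.H320

open Vale.Agent.P148.R2.H258 Vale.Agent.P148.R2.H565 Vale.Agent.P148.R2.H419
open Vale.Agent.P148.R2.N (ms nc gateC gbox cell csq ms_pos)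
open Vale.Agent.P148.R2.H592 (HullTri nbr nbr_symm ConnIn Fc idmap fib_id tail head vc Three comp)
open Vale.Agent.P148.R2.H678 (hbox uo pout inHub outHub D0)
open Vale.Agent.P148.R2.H995 (nsup SqArm circ_of_tcr norm_le_nsup)
open Vale.Agent.P148.R2.H566 (W0 Asq x0)
open Vale.Agent.P148.R2.H172 (Frame nA ga dcl)
open Vale.Agent.P148.R2.H184 (Dt dt LF MQ sqr sub)
open Vale.Agent.P148.R2.H400 (mixB)

/-- Outer confinement, for any radii. -/
theorem kX_no_arm' {X : Set ℂ} (hX : Three X) (x₀ : X) {E : Set ℂ} {ω : ℂ → Bool}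
    (hE : ∀ z ∈ E, nsup z < 8 / 5) {τ : X → Bool} (hK : KX X τ) {r R : ℝ} (hr : r ≤ 8 / 5)
    (hR : 21 / 10 ≤ R) :
    ¬ SqArm (nbr X) (H664.colS X (idmap X x₀) (mixB X E ω τ) true) 0 r R := by
  rintro ⟨n, v, h1, h2, h3, h4⟩
  obtain ⟨K, k1, -, -, k2, -, k4⟩ := circ_of_tcr hX (p := 0) (show (0 : ℝ) < 8 / 5 by norm_num)
    (show (8 : ℝ) / 5 < 2 by norm_num) (show (0 : ℝ) ≤ 1 / 10 by norm_num) hK
  obtain ⟨i, hi, hiK⟩ := k4 n v h1 (by linarith) (by linarith)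
  have h5 := (k2 _ hiK).1
  rw [sub_zero] at h5
  obtain ⟨hz, hτ⟩ := k1 hiK
  obtain ⟨-, h6⟩ := h2 i hi
  have hzE : (⟨v i, hz⟩ : X) ∉ H400.vs X E := fun h3 => absurd (hE _ h3) (not_lt.2 h5)
  have e1 : idmap X x₀ (v i) = ⟨v i, hz⟩ := Subtype.ext (H565.idmap_val x₀ hz)
  have h7 : mixB X E ω τ (idmap X x₀ (v i)) = true := h6
  rw [e1] at h7
  unfold mixB at h7
  rw [H838.mix_not_mem hzE, hτ] at h7
  exact absurd h7 (by decide)

theorem nsup_asq {z : ℂ} (hz : z ∈ Asq) : nsup z < 1 / 2 := by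
  obtain ⟨⟨h1, h2⟩, h3, h4⟩ := hz
  simp only [x0] at h1 h2 h3 h4
  exact max_lt (abs_lt.2 ⟨by linarith, by linarith⟩) (abs_lt.2 ⟨by linarith, by linarith⟩)

/-- The base point of the big square. -/
noncomputable def q0 : ℂ := ⟨-4, -4⟩

theorem mem_q0 {z : ℂ} (hz : nsup z < 4) : z ∈ sqr q0 8 := by
  have h1 := abs_lt.1 ((le_max_left _ _).trans_lt hz)
  have h2 := abs_lt.1 ((le_max_right _ _).trans_lt hz)
  refine ⟨⟨?_, ?_⟩, ?_, ?_⟩ <;> simp only [q0] <;> linarith [h1.1, h1.2, h2.1, h2.2]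

/-- Two points of a small square. -/
theorem sub_close {x z z' : ℂ} {t : ℝ} {i j : ℕ} (hz : z ∈ sub x t i j) (hz' : z' ∈ sub x t i j) :
    nsup z < nsup z' + t := by
  obtain ⟨⟨a1, a2⟩, a3, a4⟩ := hz
  obtain ⟨⟨b1, b2⟩, b3, b4⟩ := hz'
  have h1 := abs_le.1 (show |z'.re| ≤ nsup z' from le_max_left _ _)
  have h2 := abs_le.1 (show |z'.im| ≤ nsup z' from le_max_right _ _)
  exact max_lt (abs_lt.2 ⟨by linarith, by linarith⟩) (abs_lt.2 ⟨by linarith, by linarith⟩)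

section frame

variable {M : ℕ} {Bl₁ Wh₁ Bl₂ Wh₂ : Set ℂ} {s : ℂ → Bool} {w : W0} {x₀ : w.X} {col : w.X → Bool}
  (hC : Col M w.X w.b Bl₁ Wh₁ Bl₂ Wh₂ s) (hcol : ∀ v : w.X, s v.1 = col v)
  (F : Frame M w x₀ col)

include hC in
theorem ed_nsup (hM8 : 8 ≤ M) {k : ℕ} {z : ℂ} (hz : z ∈ ED M w.X Bl₁ Wh₁ Bl₂ Wh₂ k) :
    nsup z < 8 / 5 := by
  have h1 := ms_le hM8
  have h2 := H678.EJ_nsup hC.hM (fun k _ => by
    rw [H678.outHub_mix]
    exact hC.good.outSub k) hz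
  linarith

/-- The explored set of the arc `j` of a frame. -/
abbrev EA (N M j : ℕ) (X Bl₁ Wh₁ Bl₂ Wh₂ : Set ℂ) : Set ℂ := ED M X Bl₁ Wh₁ Bl₂ Wh₂ (dcl N M j)

include hC hcol

/-- **Row (door), one world, one arc.** -/
theorem frame_door [Fintype w.X] (hM8 : 8 ≤ M) {N j : ℕ} (hN : 10 * (N + 1) ≤ 2 * M + 1)
    (hj : j < nA N) {i₀ : ℂ} (hB : w.B = w.X \ I0 M w.X Bl₁ Wh₁ Bl₂ Wh₂ i₀)
    (hi₀ : i₀ ∈ w.X ∩ ball 0 (1 / 2))
    (hnet : H990.Net w.X (closedBall 0 8) (ms M / 1000))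
    (hedge : ∀ x y, x ∈ closedBall (0 : ℂ) 8 → nbr w.X x y → dist x y ≤ 1 / 40)
    (hb : ∀ j, 9 ≤ nsup (w.b j)) {c : ℝ} (hc0 : 0 < c)
    (hc : c ≤ H838.pr (fun τ : w.X → Bool =>
      DoorEv M w.X (whX w.X τ) (dcl N M j) ∧ KEv w.X (whX w.X τ))) (Θ : Dt → ℂ) :
    w.msum (H609.Bq w (F.P (ga N M j) (ga N M (j + 1)))) (fun σ d =>
      ENNReal.ofReal (‖w.T.cls σ d (w.th Θ) + H400.hvl w x₀
        (H400.clH (H609.TP w x₀) (F.bc (ga N M j)) (F.bn (ga N M j))) Θ σ d‖ ^ 2)) ≤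
      (ENNReal.ofReal c)⁻¹ * ((2 ^ Fintype.card w.X)⁻¹ * ∑ τ : w.X → Bool,
        MQ w.X (sqr q0 8) (fun ij : Fin 32 × Fin 32 => sub q0 (8 / 32) ij.1 ij.2)
          (H184.pc (idmap w.X x₀) (mixB w.X (EA N M j w.X Bl₁ Wh₁ Bl₂ Wh₂) s τ)) Θ) := by
  have hM := hC.hM
  have hms := ms_pos hM
  have hms8 := ms_le hM8
  have hi1 : nsup i₀ ≤ 1 - ms M / 8 := by
    have h1 := hi₀.2
    rw [mem_ball_zero_iff] at h1
    have h2 : nsup i₀ ≤ ‖i₀‖ := max_le (Complex.abs_re_le_norm _) (Complex.abs_im_le_norm _)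
    linarith
  have hi2 : i₀ ∈ w.X ∩ ball 0 (1 - ms M / 8) :=
    ⟨hi₀.1, ball_subset_ball (by linarith) hi₀.2⟩
  have hlast : ga N M (j + 1) ≤ nc M := by
    rw [← H172.ga_last (N := N)]
    exact H172.ga_mono hj
  obtain ⟨cut, -, hcut, harc⟩ := F.arc_eq hlast (H172.ga_mono (Nat.le_succ j))
  have hk : ga N M j + 3 + 1 < nc M := by
    have := H172.ga_add_le hN j
    omega
  have hs : (ga N M j + 3 + 1) % (2 * M + 1) < 2 * M := H172.dcl_straight hN j
  -- the data of the door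
  have hD := door_data hC hcol F hB hi1 (p := ga N M j + 3 + 1) rfl
    (show ga N M j + 10 ≤ ga N M (j + 1) from H172.ga_add_le hN j) hk hs (F.base_loop (ga N M j))
    (cut := cut) (fun i hi => by
      rw [hcut i hi]
      unfold Frame.tb
      rw [Nat.add_sub_cancel' (H172.ga_mono (Nat.le_succ j))])
    (ρ := ms M / 64) (by positivity) le_rfl (fun z hz => by
      obtain ⟨u, hu, hd⟩ := hnet z (by
        rw [mem_closedBall_zero_iff]
        have := norm_le_nsup z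
        linarith)
      exact ⟨u, hu, by rw [dist_comm]; linarith⟩) hi2
    (fun a ha => frame_arch hC hcol (y := fp F (ga N M j + 3)) ha)
  have hA := hD.arcData (w.Lo Asq)
  rw [harc]
  have hbd : ∀ q : w.D, tail q ∈ w.B → head q ∉ w.B →
      nsup (tail q) ≤ 6 / 5 ∧ nsup (head q) ≤ 6 / 5 ∧ 1 < nsup (tail q) := by
    intro q h1 h2
    obtain ⟨h3, -, h4⟩ := bdry_gt hC hB h1 h2
    have h5 := hC.I0_nsup hi1 h3
    have hn := w.hull.nbr_th q
    have h6 : head q ∈ closedBall (0 : ℂ) 8 := by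
      rw [mem_closedBall_zero_iff]
      have := norm_le_nsup (head q)
      linarith
    have h7 := hedge _ _ h6 (nbr_symm hn)
    have h8 : nsup (tail q) ≤ nsup (head q) + dist (head q) (tail q) := by
      have e1 := Complex.abs_re_le_norm (tail q - head q)
      have e2 := Complex.abs_im_le_norm (tail q - head q)
      rw [← Complex.dist_eq, dist_comm, Complex.sub_re, abs_le] at e1
      rw [← Complex.dist_eq, dist_comm, Complex.sub_im, abs_le] at e2
      have e3 := abs_le.1 (show |(head q).re| ≤ nsup (head q) from le_max_left _ _)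
      have e4 := abs_le.1 (show |(head q).im| ≤ nsup (head q) from le_max_right _ _)
      exact max_le (abs_le.2 ⟨by linarith [e1.1, e3.1], by linarith [e1.2, e3.2]⟩)
        (abs_le.2 ⟨by linarith [e2.1, e4.1], by linarith [e2.2, e4.2]⟩)
    exact ⟨by linarith, by linarith, h4⟩
  refine H400.msum_door_le hA (K := KX w.X) (fun τ τ' h1 h2 => ?_) hc0 ?_ _ Θ (p := 0) (r := 6 / 5)
    (ρ := 1 / 10) (by norm_num) ?_ ?_ ?_ ?_ ?_ (k := true) ?_
  · -- the confinement event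
    refine kX_congr (B := w.B) (fun z hz hz1 => ?_) τ τ' h1 h2
    rw [hB]
    refine ⟨hz, fun h3 => ?_⟩
    have := hC.I0_nsup hi1 h3
    linarith
  · -- the probability of a door
    intro τ d hd
    exact frame_hc hC hcol F hM8 hB hk hs (fun e he => by
      have h1 : head e ∈ Asq := (LF.mem he).2.1
      have h2 := nsup_asq h1
      linarith) hc τ d hd
  · -- the net
    refine hnet.mono (closedBall_subset_closedBall (by norm_num)) (by linarith)
  · intro z hz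
    rw [sub_zero] at hz
    exact mem_q0 (by linarith)
  · intro j
    rw [sub_zero]
    have := hb j
    linarith
  · intro q h1 h2
    rw [sub_zero, sub_zero]
    exact ⟨(hbd q h1 h2).1, (hbd q h1 h2).2.1⟩
  · rintro ij d e h1 h2 h3 ⟨h4, h5⟩
    have h6 : tail e ∈ Asq := (LF.mem h3).1
    have h7 : tail d ∈ sub q0 (8 / 32) ij.1 ij.2 := (LF.mem h4).1
    have h8 : tail e ∈ sub q0 (8 / 32) ij.1 ij.2 := (LF.mem h5).1
    have h9 := sub_close h7 h8
    have h10 := (hbd d h1 h2).2.2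
    have h11 := nsup_asq h6
    linarith
  · intro τ hτ
    exact kX_no_arm' w.hull.three x₀ (fun z hz => ed_nsup hC hM8 hz) hτ (by norm_num) (by norm_num)

end frame

end Vale.Agent.P148.R2.H320
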