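import Vale.Agent.P148.R2.H320.Door
import Vale.Agent.P148.R2.H400.Flip7

/-!
# P148, row NET: doors on the Delaunay triangulation
-/

set_option linter.unusedSectionVars false

open Set Metric Topology Filter Function

namespace Vale.Agent.P148.R2.H320

open H592 H995 H938 H871 H838 H184 H400 Vale.Agent.P148.R2.H258
open Vale.Agent.P148.R2.N (ms nc ms_pos)
open Vale.Agent.P148.R2.H678 (pout sd hbox CBox CCr)

/-- The white points of a colouring. -/
def whX (X : Set ℂ) (τ : X → Bool) : Set ℂ := {z | ∃ hz : z ∈ X, τ ⟨z, hz⟩ = false}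

theorem whX_sub (X : Set ℂ) (τ : X → Bool) : whX X τ ⊆ X := fun _ hz => hz.1

section world

variable {X : Set ℂ} {b : ZMod 3 → ℂ} (h : HullTri X b) {B : Set ℂ}
  (hF : Fib X (cmap X fun _ : Unit => B)) (x₀ : X)

/-- A chain of the Delaunay graph gives a walk. -/
theorem walk_of_chain {Z : Set ℂ} {u w : ℂ} (hc : Chain (nbr X) Z u w) (hu : u ∈ X)
    (hw : w ∈ X) : ∃ q, (TP h x₀).Walk ⟨u, hu⟩ ⟨w, hw⟩ q ∧ ∀ e ∈ q, ((TP h x₀).tgt e).1 ∈ Z := by
  obtain ⟨n, v, h1, h2, h3, h4⟩ := hc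
  have key : ∀ i ≤ n, ∀ hi : v i ∈ X, ∃ q, (TP h x₀).Walk ⟨u, hu⟩ ⟨v i, hi⟩ q ∧
      ∀ e ∈ q, ((TP h x₀).tgt e).1 ∈ Z := by
    intro i
    induction i with
    | zero =>
      intro _ hi
      have e : (⟨v 0, hi⟩ : X) = ⟨u, hu⟩ := Subtype.ext h3
      rw [e]
      exact ⟨[], Tri.Walk.nil _, by simp⟩
    | succ i ih =>
      intro hin hi
      have hn := h1 i (by omega)
      obtain ⟨q, hq1, hq2⟩ := ih (by omega) hn.1
      obtain ⟨e, he1, he2⟩ := h.exists_dart hn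
      have es : (TP h x₀).src e = ⟨v i, hn.1⟩ := Subtype.ext (by rw [src_TP, he1])
      have et : (TP h x₀).tgt e = ⟨v (i + 1), hi⟩ := Subtype.ext (by rw [tgt_TP, he2])
      have hwe := Tri.Walk.single (T := TP h x₀) e
      rw [es, et] at hwe
      refine ⟨q ++ [e], hq1.append hwe, ?_⟩
      intro e' he'
      rw [List.mem_append, List.mem_singleton] at he'
      rcases he' with he' | rfl
      · exact hq2 e' he'
      · rw [et]; exact h2 (i + 1) hin
  subst h4
  exact key n le_rfl hw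

/-- From points to doors. -/
theorem door_of_chain {E arch : Set ℂ} {A : Set X} {τ : X → Bool} {v0 v1 z : ℂ}
    (ha : v0 ∈ arch) (hn : nbr X v0 v1) (hz : z ∈ X) (hzA : (⟨z, hz⟩ : X) ∈ A)
    (hc : Chain (nbr X) (whX X τ \ E) v1 z) : Door (TP h x₀) (vs X E) A (vs X arch) τ := by
  obtain ⟨q, hq1, hq2⟩ := walk_of_chain h x₀ hc hn.2.1 hz
  obtain ⟨e, he1, he2⟩ := h.exists_dart hn
  have es : (TP h x₀).src e = ⟨v0, hn.1⟩ := Subtype.ext (by rw [src_TP, he1])
  have et : (TP h x₀).tgt e = ⟨v1, hn.2.1⟩ := Subtype.ext (by rw [tgt_TP, he2])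
  refine ⟨⟨v0, hn.1⟩, ha, ⟨z, hz⟩, hzA, e :: q, ?_, ?_⟩
  · have := Tri.Walk.cons (T := TP h x₀) e ⟨z, hz⟩ q (by rw [et]; exact hq1)
    rwa [es] at this
  · intro e' he'
    have hmem : ((TP h x₀).tgt e').1 ∈ whX X τ \ E := by
      rcases List.mem_cons.1 he' with rfl | he'
      · rw [et]
        obtain ⟨n, v, -, c2, c3, -⟩ := hc
        have := c2 0 (Nat.zero_le _)
        rwa [c3] at this
      · exact hq2 e' he'
    obtain ⟨⟨hX, hτ⟩, hE⟩ := hmem
    exact ⟨hE, fun _ => hτ⟩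

/-- **The explored vertices of an excursion are connected to its real tail.** -/
theorem ex_chain [Finite X] {τ : X → Bool} {d : Fc X b × ZMod 3}
    (hs : (TB h hF).src d = Sum.inl ())
    (hd : Start (TB h hF) (s1 (secB x₀) (Sum.inl ()) τ) d) {e : Fc X b × ZMod 3}
    (he : (TB h hF).Rel (s1 (secB x₀) (Sum.inl ()) τ) d e) :
    Chain (nbr X) (insert (tail d) {z | ∃ hz : z ∈ X, (⟨z, hz⟩ : X) ∈ ExB h hF x₀ d τ})
      (head e) (tail d) := by
  have := h.finite_Fc
  set σ := s1 (secB x₀) (Sum.inl ()) τ with hσ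
  set Z : Set ℂ := insert (tail d) {z | ∃ hz : z ∈ X, (⟨z, hz⟩ : X) ∈ ExB h hF x₀ d τ} with hZ
  have hret := ret_spec (TB h hF) σ d
  obtain ⟨k, hk, rfl⟩ := hret.mem_lt he
  have hsy : ∀ a b, nbr X a b → nbr X b a := fun _ _ => nbr_symm
  have hbi : (TB h hF).Bi σ d := hd.1.bi
  -- the real ends of the darts are explored
  have hhead : ∀ i < ret (TB h hF) σ d, head (((TB h hF).st σ)^[i] d) ∈ Z := by
    intro i hi
    refine Or.inr ⟨(h.nbr_th _).2.1, ?_, ?_⟩
    · show piB X B _ ≠ Sum.inl ()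
      intro h1
      have h2 := (TB h hF).col_tgt_iter σ d i
      have h3 : (TB h hF).tgt (((TB h hF).st σ)^[i] d) = Sum.inl () := by
        rw [tgt_eq]
        exact h1
      have h4 : σ ((TB h hF).tgt d) = false := hd.tgt_false hs
      rw [h3, h4, hσ, s1_O] at h2
      exact absurd h2 (by decide)
    · refine ⟨i, hi.le, Or.inr ?_⟩
      rw [tgt_eq]
      rfl
  have htail : ∀ i < ret (TB h hF) σ d, tail (((TB h hF).st σ)^[i] d) ∈ Z := by
    intro i hi
    rcases Nat.eq_zero_or_pos i with rfl | hi0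
    · exact Or.inl rfl
    · refine Or.inr ⟨(h.nbr_th _).1, ?_, ?_⟩
      · show piB X B _ ≠ Sum.inl ()
        intro h1
        have h2 := hret.2.2 i hi0 hi
        apply h2
        rw [hs]
        exact h1
      · exact ⟨i, hi.le, Or.inl rfl⟩
  have key : ∀ i < ret (TB h hF) σ d, Chain (nbr X) Z (tail (((TB h hF).st σ)^[i] d)) (tail d) := by
    intro i
    induction i with
    | zero => intro h0; exact Chain.refl (htail 0 h0)
    | succ i ih =>
      intro hi
      have h1 := ih (by omega)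
      have h2 := (H664.step_tail h _ hF (((TB h hF).bi_iter i).2 hbi)).1
      rw [iterate_succ', comp_apply]
      rcases h2 with h2 | h2
      · have h3 : tail ((TB h hF).st σ (((TB h hF).st σ)^[i] d)) =
            tail (((TB h hF).st σ)^[i] d) := h2.symm
        rw [h3]; exact h1
      · have h4 := htail (i + 1) hi
        rw [iterate_succ', comp_apply] at h4
        exact ((h1.symm hsy).snoc h4 h2).symm hsy
  have h5 := key k hk
  exact ((h5.symm hsy).snoc (hhead k hk) (h.nbr_th _)).symm hsy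

/-- **The door event opens a door.** -/
theorem door_of_ev [Finite X] {M k : ℕ} (hM : 8 ≤ M) (hk : k % (2 * M + 1) ≠ 2 * M)
    {E arch H : Set ℂ} {J : Set (Fc X b × ZMod 3)} {R : Fc X b × ZMod 3 → Prop} {τ : X → Bool}
    {d : Fc X b × ZMod 3} (hd : CntB h hF x₀ E J R τ d)
    (hS : X ∩ ball (pout M k) (sd M) ⊆ H) (hH : H ⊆ hbox M (pout M k))
    (hE0 : ∀ z ∈ E, z ∈ CBox M (pout M k) (pout M (k + 1)) →
      (tn M k * z).im ≤ yc M k + ms M / 8 → z ∈ H)
    (hE1 : ∀ z ∈ E, (tn M k * z).re < 1 + 3 / 4 * ms M →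
      z ∉ Cor (tn M k) (1 - 3 * (ms M / 8)) (yc M k) (ms M / 8))
    (hE3 : ∀ z ∈ E, 1 - ms M / 8 < nsup z)
    (harch : ∀ u v z, nbr X u v → u ∈ H → Chain (nbr X) (X \ H) v z → nsup z ≤ 1 - ms M / 8 →
      u ∈ arch)
    (hB : ∀ q : Fc X b × ZMod 3, tail q ∈ B → head q ∉ B → 1 - ms M / 8 < nsup (tail q))
    (hR : ∀ e, R e → nsup (head e) ≤ 1 - 3 * (ms M / 8)) {τ' : X → Bool}
    (hev : DoorEv M X (whX X τ') k) :
    Door (TP h x₀) (vs X E) (ExB h hF x₀ d τ) (vs X arch) τ' := by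
  have := h.finite_Fc
  obtain ⟨hs, hst, -, -, -, -, e, he, hRe⟩ := hd
  have hch := ex_chain h hF x₀ hs hst he
  have ht : tail d ∈ B := mem_of_cmap (h.nbr_th d).1 hs
  have hh : head d ∉ B := by
    intro hh
    have h1 := hst.tgt_false hs
    rw [tgt_eq, show cmap X (fun _ : Unit => B) (dt d).2.1 = Sum.inl () from
      cmap_of_mem (j := ()) pd_unit hh, s1_O] at h1
    exact absurd h1 (by decide)
  have htd := hB d ht hh
  obtain ⟨v0, v1, z, hv0, -, hn, hz, hz1, hc⟩ := door_walk hM hk h.three (whX_sub X τ') hS hH hE0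
    hE1 hE3 hch htd.le (hR e hRe) hev
  have hzA : ∃ hz : z ∈ X, (⟨z, hz⟩ : X) ∈ ExB h hF x₀ d τ := by
    rcases hz with rfl | hz
    · linarith
    · exact hz
  obtain ⟨hzX, hzE⟩ := hzA
  refine door_of_chain h x₀ (harch v0 v1 z hn hv0 (hc.mono fun x hx => ⟨hx.1.1, fun hxH =>
    hx.2 (Or.inr hxH)⟩) hz1) hn hzX hzE (hc.mono fun x hx => ⟨hx.1, fun hxE => hx.2 (Or.inl hxE)⟩)

end world

end Vale.Agent.P148.R2.H320
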