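import Vale.Agent.P148.R2.H320.DoorP

/-!
# P148, row NET: nets on the Delaunay triangulation (windows)
-/

set_option linter.unusedSectionVars false

open Set Metric Topology Filter Function

namespace Vale.Agent.P148.R2.H320

open H592 H995 H938 H871 H184 H400 Vale.Agent.P148.R2.H258

section world

variable {X : Set ℂ} {b : ZMod 3 → ℂ} (h : HullTri X b) {B : Set ℂ}
  (hF : Fib X (cmap X fun _ : Unit => B)) (x₀ : X)

theorem contr_walk {V V1 D : Type*} {T : Tri V D} {T1 : Tri V1 D} {π : V → V1}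
    (hC : Contr T T1 π) {u w : V} {q : List D} (hq : T.Walk u w q) : T1.Walk (π u) (π w) q := by
  induction hq with
  | nil v => exact Tri.Walk.nil _
  | cons e w q _ ih =>
    have h1 := Tri.Walk.cons (T := T1) e (π w) q (by rw [hC.tgt]; exact ih)
    rwa [hC.src] at h1

theorem walk_src_mem {V D : Type*} {T : Tri V D} {P : V → Prop} {u w : V} {q : List D}
    (hq : T.Walk u w q) (hu : P u) (hP : ∀ e ∈ q, P (T.tgt e)) : ∀ e ∈ q, P (T.src e) := by
  induction hq with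
  | nil v => simp
  | cons e w q _ ih =>
    intro e' he'
    rcases List.mem_cons.1 he' with rfl | he'
    · exact hu
    · exact ih (hP e (by simp)) (fun e'' h'' => hP e'' (List.mem_cons_of_mem _ h'')) e' he'

/-- **The net event gives a net** in the world of one frozen class. -/
theorem net_of_ev [Finite X] {ι : ℂ} (hι : Turn ι) {y w δ : ℝ} (hδ : 0 < δ) (hδ' : δ ≤ 1 / 8)
    (hy : |y| + w ≤ 1 - 3 * δ) {J : Set (Fc X b × ZMod 3)}
    (hJ : ∀ q : Fc X b × ZMod 3, tail q ∈ B → head q ∉ B → tail q ∈ Cor ι (1 - 3 * δ) y w → q ∈ J)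
    (hI0 : ∀ z ∈ X, nsup z ≤ 1 - δ → z ∉ B) (hI1 : ∀ z ∈ X, z ∉ B → nsup z < 27 / 20)
    (hB : ∀ q : Fc X b × ZMod 3, tail q ∈ B → head q ∉ B → 1 - δ < nsup (tail q))
    {τ τ' : X → Bool} {d e : Fc X b × ZMod 3} (hs : (TB h hF).src d = Sum.inl ())
    (hd : Start (TB h hF) (s1 (secB x₀) (Sum.inl ()) τ) d)
    (he : (TB h hF).Rel (s1 (secB x₀) (Sum.inl ()) τ) d e) (hed : nsup (head e) ≤ 1 - 3 * δ)
    (hev : NetEv X (whX X τ') ι y w δ) :
    haveI := h.finite_Fc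
    Net (TB h hF) J (Sum.inl ()) false (Ex (TB h hF) d (s1 (secB x₀) (Sum.inl ()) τ))
      (s1 (secB x₀) (Sum.inl ()) τ') := by
  have := h.finite_Fc
  have hch := ex_chain h hF x₀ hs hd he
  have ht : tail d ∈ B := mem_of_cmap (h.nbr_th d).1 hs
  have hh : head d ∉ B := by
    intro hh
    have h1 := hd.tgt_false hs
    rw [tgt_eq, show cmap X (fun _ : Unit => B) (dt d).2.1 = Sum.inl () from
      cmap_of_mem (j := ()) pd_unit hh, s1_O] at h1
    exact absurd h1 (by decide)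
  have htd := hB d ht hh
  obtain ⟨b0, b1, z, hb0, hb0I, hb0C, hn, hz, hz1, hc⟩ := net_walk (I := X \ B) (Pi := B) h.three
    (whX_sub X τ') hι hδ hδ' hy (fun u _ v huv => by
      by_cases hv : v ∈ B
      · exact Or.inr hv
      · exact Or.inl ⟨huv.2.1, hv⟩) (fun z hz hz1 => ⟨hz, hI0 z hz hz1⟩)
    (fun z hz => hI1 z hz.1 hz.2) hch htd.le hed hev
  have hzA : ∃ hz : z ∈ X, (⟨z, hz⟩ : X) ∈ ExB h hF x₀ d τ := by
    rcases hz with rfl | hz
    · linarith
    · exact hz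
  obtain ⟨hzX, -, hzE⟩ := hzA
  obtain ⟨e0, he1, he2⟩ := h.exists_dart hn
  have hb1 : b1 ∈ whX X τ' ∩ (X \ B) := by
    obtain ⟨n, v, -, c2, c3, -⟩ := hc
    have := c2 0 (Nat.zero_le _)
    rwa [c3] at this
  obtain ⟨q, hq1, hq2⟩ := walk_of_chain h x₀ hc hn.2.1 hzX
  have hC := contrB h hF x₀
  have hfree : ∀ v : X, v.1 ∈ whX X τ' ∩ (X \ B) → piB X B v ≠ Sum.inl () ∧
      s1 (secB x₀) (Sum.inl ()) τ' (piB X B v) = false := by
    rintro v ⟨⟨hv1, hv2⟩, hv3⟩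
    have h1 : piB X B v ≠ Sum.inl () := fun h1 => hv3.2 (piB_eq_iff.1 h1)
    refine ⟨h1, ?_⟩
    unfold s1
    rw [if_neg h1, secB_piB x₀ h1]
    exact hv2
  have hsrc := walk_src_mem (P := fun v : X => v.1 ∈ whX X τ' ∩ (X \ B)) hq1 hb1 hq2
  have et : (TB h hF).tgt e0 = piB X B ⟨b1, hn.2.1⟩ := by
    rw [hC.tgt]
    congr 1
    exact Subtype.ext (by rw [tgt_TP, he2])
  refine ⟨e0, hJ e0 (by rw [he1]; exact hb0) (by rw [he2]; exact hb1.2.2) (by rw [he1]; exact hb0C),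
    piB X B ⟨z, hzX⟩, hzE, q, ?_, ?_, ?_⟩
  · rw [et]
    exact contr_walk hC hq1
  · intro e' he'
    rw [hC.tgt]
    exact (hfree _ (hq2 e' he')).1
  · rintro v (rfl | ⟨e', he', rfl⟩) -
    · rw [et]
      exact (hfree _ hb1).2
    · rw [hC.src]
      exact (hfree _ (hsrc e' he')).2

end world

end Vale.Agent.P148.R2.H320
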