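import Vale.Agent.P148.R2.H320.Arm
import Vale.Agent.P148.R2.H592.Contr
import Vale.Agent.P148.R2.H847.Qpr

/-!
# P148, module R4b: the slit arm bound

`OK`, `OB`, `OS` are disjoint connected sets of vertices of the Delaunay triangulation of `X`, `OB`
(the slit) being adjacent to `OK` and to `OS`.  The neighbours of the slit on one side are
`P := ` the sources of the strand around the slit between a visit to `OK` and the next visit to
`OS`.  The abstract arm bound applies to the contraction of `OK, OB, OS, P`.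
-/

open Set Metric

namespace Vale.Agent.P148.R2.H320

open Function
open Vale.Agent.P148.R2.H258 Vale.Agent.P148.R2.H592 Vale.Agent.P148.R2.H847

section Reach

variable {V D : Type*} {T : Tri V D}

/-- The strand around the slit which starts at `K` reaches `S`. -/
theorem reach [Finite D] (hP : T.Planar) {d₀ eS : D} (hB : T.tgt eS = T.tgt d₀)
    (hK : T.src d₀ ≠ T.tgt d₀) (hKS : T.src d₀ ≠ T.src eS)
    {l : List D} (hw : T.Walk (T.src d₀) (T.src eS) l)
    (hl : ∀ g ∈ l, T.src g ≠ T.tgt d₀ ∧ T.tgt g ≠ T.tgt d₀) {σ : V → Bool}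
    (hσ : ∀ v, σ v = true ↔ v ≠ T.tgt d₀) :
    ∃ a b, a < b ∧ T.src ((T.st σ)^[a] d₀) = T.src d₀ ∧ T.src ((T.st σ)^[b] d₀) = T.src eS ∧
      ∀ i, a < i → i < b →
        T.src ((T.st σ)^[i] d₀) ≠ T.src d₀ ∧ T.src ((T.st σ)^[i] d₀) ≠ T.src eS := by
  classical
  have hσB : σ (T.tgt d₀) = false := by
    by_contra h
    have := (hσ (T.tgt d₀)).1 (by simpa using h)
    exact this rfl
  set l' := (l.map T.rev).reverse with hl'
  have hw' : T.Walk (T.src eS) (T.src eS) (l' ++ [d₀, T.rev eS]) := by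
    refine hw.reverse.append ?_
    refine Tri.Walk.cons d₀ _ _ ?_
    refine Tri.Walk.cons' (T.rev eS) ?_ ?_
    · rw [T.src_rev, hB]
    · rw [T.tgt_rev]; exact Tri.Walk.nil _
  obtain ⟨N, h1, h2⟩ := hP _ _ hw'
  have hmono : ∀ g ∈ l', σ (T.src g) = σ (T.tgt g) := by
    intro g hg
    rw [hl', List.mem_reverse, List.mem_map] at hg
    obtain ⟨f, hf, rfl⟩ := hg
    obtain ⟨h3, h4⟩ := hl f hf
    rw [T.src_rev, T.tgt_rev, (hσ _).2 h3, (hσ _).2 h4]
  have hbi : T.Bi σ d₀ := by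
    unfold Tri.Bi
    rw [(hσ _).2 hK, hσB]
    simp
  obtain ⟨p, -, -, hp, -⟩ := strand_flip (T := T) h1 h2 hmono hbi
    (by rw [T.src_rev, hB]) (by
      rw [T.rev_rev]
      intro h; exact hKS (by rw [h]))
  rw [T.rev_rev] at hp
  have hex : ∃ n, T.src ((T.st σ)^[n] d₀) = T.src eS := ⟨p, by rw [hp]⟩
  set b := Nat.find hex with hb
  have hb1 : T.src ((T.st σ)^[b] d₀) = T.src eS := Nat.find_spec hex
  set a := Nat.findGreatest (fun i => T.src ((T.st σ)^[i] d₀) = T.src d₀) b with ha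
  have ha1 : T.src ((T.st σ)^[a] d₀) = T.src d₀ :=
    Nat.findGreatest_spec (P := fun i => T.src ((T.st σ)^[i] d₀) = T.src d₀) (Nat.zero_le b) rfl
  have hab : a < b := by
    have h3 : a ≤ b := Nat.findGreatest_le b
    rcases h3.lt_or_eq with h4 | h4
    · exact h4
    · exfalso
      rw [h4, hb1] at ha1
      exact hKS ha1.symm
  refine ⟨a, b, hab, ha1, hb1, fun i hai hib => ⟨?_, ?_⟩⟩
  · exact Nat.findGreatest_is_greatest (P := fun i => T.src ((T.st σ)^[i] d₀) = T.src d₀) hai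
      hib.le
  · exact Nat.find_min hex hib

end Reach

section Lift

variable {X : Set ℂ} {b : ZMod 3 → ℂ} (h : HullTri X b) {V : Type*} {π : ℂ → V} (hπ : Fib X π)

theorem tri_src (q : Fc X b × ZMod 3) : (h.tri258 π hπ).src q = π (tail q) := rfl

theorem tri_tgt (q : Fc X b × ZMod 3) : (h.tri258 π hπ).tgt q = π (head q) :=
  congrArg π (h.tail_rv q)

theorem tail_nxt2 (q : Fc X b × ZMod 3) :
    tail ((h.tri258 π hπ).nxt ((h.tri258 π hπ).nxt q)) = vc q.1 q.2 := by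
  show tail (q.1, q.2 + 1 + 1) = vc q.1 q.2
  rw [z3_11]
  exact HullTri.tail_next2 q

theorem tri_apex (q : Fc X b × ZMod 3) : (h.tri258 π hπ).apex q = π (vc q.1 q.2) := by
  unfold Tri.apex
  rw [tri_src, tail_nxt2]

include h in
omit V π hπ in
theorem nbr_vc (q : Fc X b × ZMod 3) : nbr X (vc q.1 q.2) (tail q) :=
  h.Tl_nbr (HullTri.Tl_rot (HullTri.Tl_rot (th_Tl q)))

/-- A path of the graph gives a walk of the contracted triangulation. -/
theorem walk_of_path {R : ℂ → ℂ → Prop} (hR : ∀ u v, R u v → nbr X u v) {x y : ℂ}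
    (hxy : Relation.ReflTransGen R x y) :
    ∃ l, (h.tri258 π hπ).Walk (π x) (π y) l ∧ ∀ g ∈ l, R (tail g) (head g) := by
  induction hxy using Relation.ReflTransGen.head_induction_on with
  | refl => exact ⟨[], Tri.Walk.nil _, fun g hg => absurd hg List.not_mem_nil⟩
  | head huv _ ih =>
    rename_i u v
    obtain ⟨l, hl, hl'⟩ := ih
    obtain ⟨q, hq1, hq2⟩ := h.exists_dart (hR _ _ huv)
    refine ⟨q :: l, Tri.Walk.cons' q ?_ ?_, ?_⟩
    · rw [tri_src, hq1]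
    · rw [tri_tgt, hq2]; exact hl
    · intro g hg
      rcases List.mem_cons.1 hg with rfl | hg
      · rw [hq1, hq2]; exact huv
      · exact hl' g hg

end Lift

/-- Uniform subsets and uniform colourings. -/
theorem qpr_inj {G : Set ℂ} (hG : G.Finite) {V : Type*} [Fintype V] {i : G → V}
    (hi : Injective i) (Q : Set ℂ → Prop) :
    (Nat.card {σ : V → Bool // Q {x | ∃ hx : x ∈ G, σ (i ⟨x, hx⟩) = true}} : ℝ) =
      2 ^ Fintype.card V * qpr G Q := by
  classical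
  have hfin := hG.to_subtype
  have e1 : Nat.card {σ : V → Bool // Q {x | ∃ hx : x ∈ G, σ (i ⟨x, hx⟩) = true}} =
      Nat.card ({W | W ⊆ G ∧ Q W} × ({v : V // v ∉ Set.range i} → Bool)) := by
    refine Nat.card_congr (Equiv.ofBijective (fun σ => (⟨{x | ∃ hx : x ∈ G,
      σ.1 (i ⟨x, hx⟩) = true}, fun x hx => hx.1, σ.2⟩, fun v => σ.1 v.1)) ⟨?_, ?_⟩)
    · intro σ τ hστ
      have h1 : {x | ∃ hx : x ∈ G, σ.1 (i ⟨x, hx⟩) = true} =
          {x | ∃ hx : x ∈ G, τ.1 (i ⟨x, hx⟩) = true} :=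
        congrArg Subtype.val (congrArg Prod.fst hστ)
      have h2 : (fun v : {v : V // v ∉ Set.range i} => σ.1 v.1) = fun v => τ.1 v.1 :=
        congrArg Prod.snd hστ
      apply Subtype.ext
      funext v
      by_cases hv : v ∈ Set.range i
      · obtain ⟨⟨x, hx⟩, rfl⟩ := hv
        rw [Bool.eq_iff_iff]
        constructor
        · intro h3
          have h4 : x ∈ {x | ∃ hx : x ∈ G, σ.1 (i ⟨x, hx⟩) = true} := ⟨hx, h3⟩
          rw [h1] at h4
          exact h4.2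
        · intro h3
          have h4 : x ∈ {x | ∃ hx : x ∈ G, τ.1 (i ⟨x, hx⟩) = true} := ⟨hx, h3⟩
          rw [← h1] at h4
          exact h4.2
      · exact congrFun h2 ⟨v, hv⟩
    · rintro ⟨⟨W, hW1, hW2⟩, τ⟩
      set σ : V → Bool := fun v => if hv : v ∈ Set.range i then decide ((hv.choose : ℂ) ∈ W)
        else τ ⟨v, hv⟩ with hσ
      have h3 : ∀ x : G, σ (i x) = decide ((x : ℂ) ∈ W) := by
        intro x
        have hx : i x ∈ Set.range i := ⟨x, rfl⟩
        simp only [hσ]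
        rw [dif_pos hx, hi hx.choose_spec]
      have h4 : {x | ∃ hx : x ∈ G, σ (i ⟨x, hx⟩) = true} = W := by
        ext x
        constructor
        · rintro ⟨hx, h5⟩
          rw [h3] at h5
          exact of_decide_eq_true h5
        · intro hx
          refine ⟨hW1 hx, ?_⟩
          rw [h3]
          exact decide_eq_true hx
      refine ⟨⟨σ, by rw [h4]; exact hW2⟩, ?_⟩
      refine Prod.ext ?_ ?_
      · apply Subtype.ext
        exact h4
      · funext v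
        show σ v.1 = τ v
        simp only [hσ]
        rw [dif_neg v.2]
  have e2 : Fintype.card V = G.ncard + Fintype.card {v : V // v ∉ Set.range i} := by
    have h5 := Fintype.card_subtype_compl (fun v : V => v ∈ Set.range i)
    have h6 : Fintype.card {v : V // v ∈ Set.range i} = G.ncard := by
      rw [← Nat.card_eq_fintype_card, ← Nat.card_coe_set_eq G]
      exact (Nat.card_congr (Equiv.ofInjective i hi)).symm
    have h7 := Fintype.card_subtype_le (fun v : V => v ∈ Set.range i)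
    omega
  rw [e1, Nat.card_prod, Nat.card_coe_set_eq, Nat.card_eq_fintype_card (α := {v : V // v ∉ Set.range i} → Bool),
    Fintype.card_fun, Fintype.card_bool, e2]
  unfold qpr
  push_cast
  rw [pow_add]
  field_simp

section Main

variable {X : Set ℂ} {b : ZMod 3 → ℂ} (h : HullTri X b) {OK OB OS F : Set ℂ}

/-- The steps of an arm from `OK` to `OS` off `F`, through the points of `W`. -/
def AStep (X OK OS F W : Set ℂ) (u v : ℂ) : Prop :=
  nbr X u v ∧ (u ∉ F ∧ (u ∈ W ∨ u ∈ OK ∨ u ∈ OS)) ∧ (v ∉ F ∧ (v ∈ W ∨ v ∈ OK ∨ v ∈ OS))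

theorem vec3 {P : Set ℂ → Prop} {A B C : Set ℂ} (h1 : P A) (h2 : P B) (h3 : P C) :
    ∀ j : Fin 3, P ((![A, B, C] : Fin 3 → Set ℂ) j) := by
  intro j
  fin_cases j
  · exact h1
  · exact h2
  · exact h3

theorem vec4 {P : Set ℂ → Prop} {A B C D : Set ℂ} (h1 : P A) (h2 : P B) (h3 : P C) (h4 : P D) :
    ∀ j : Fin 4, P ((![A, B, C, D] : Fin 4 → Set ℂ) j) := by
  intro j
  fin_cases j
  · exact h1
  · exact h2
  · exact h3
  · exact h4

theorem pw3 {A B C : Set ℂ} (h1 : Disjoint A B) (h2 : Disjoint A C) (h3 : Disjoint B C) :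
    Pairwise fun i j => Disjoint ((![A, B, C] : Fin 3 → Set ℂ) i) ((![A, B, C] : Fin 3 → Set ℂ) j) := by
  intro i j hij
  fin_cases i <;> fin_cases j
  · exact absurd rfl hij
  · exact h1
  · exact h2
  · exact h1.symm
  · exact absurd rfl hij
  · exact h3
  · exact h2.symm
  · exact h3.symm
  · exact absurd rfl hij

theorem pw4 {A B C D : Set ℂ} (h1 : Disjoint A B) (h2 : Disjoint A C) (h3 : Disjoint B C)
    (h4 : Disjoint A D) (h5 : Disjoint B D) (h6 : Disjoint C D) :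
    Pairwise fun i j => Disjoint ((![A, B, C, D] : Fin 4 → Set ℂ) i)
      ((![A, B, C, D] : Fin 4 → Set ℂ) j) := by
  intro i j hij
  fin_cases i <;> fin_cases j
  · exact absurd rfl hij
  · exact h1
  · exact h2
  · exact h4
  · exact h1.symm
  · exact absurd rfl hij
  · exact h3
  · exact h5
  · exact h2.symm
  · exact h3.symm
  · exact absurd rfl hij
  · exact h6
  · exact h4.symm
  · exact h5.symm
  · exact h6.symm
  · exact absurd rfl hij

include h in
/-- The lower neighbours of the slit. -/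
theorem exists_lower (cK : ConnIn X OK) (cB : ConnIn X OB) (cS : ConnIn X OS)
    (dKB : Disjoint OK OB) (dKS : Disjoint OK OS) (dBS : Disjoint OB OS)
    (hKB : ∃ u ∈ OK, ∃ v ∈ OB, nbr X u v) (hSB : ∃ u ∈ OS, ∃ v ∈ OB, nbr X u v)
    (hKS : ∀ u ∈ OK, ∀ v ∈ OS, ¬ nbr X u v) {R : ℂ → ℂ → Prop}
    (hR : ∀ u v, R u v → nbr X u v ∧ u ∉ OB ∧ v ∉ OB) {x y : ℂ} (hx : x ∈ OK) (hy : y ∈ OS)
    (hxy : Relation.ReflTransGen R x y) :
    ∃ OP : Set ℂ, ConnIn X OP ∧ OP.Nonempty ∧ Disjoint OK OP ∧ Disjoint OB OP ∧ Disjoint OS OP ∧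
      (∀ u ∈ OP, ∃ v ∈ OB, nbr X u v) ∧
      (∃ f₀ : Fc X b × ZMod 3, tail f₀ ∈ OK ∧ head f₀ ∈ OB ∧ vc f₀.1 f₀.2 ∈ OP) ∧
      (∃ f₁ : Fc X b × ZMod 3, tail f₁ ∈ OP ∧ head f₁ ∈ OB ∧ vc f₁.1 f₁.2 ∈ OS) := by
  classical
  obtain ⟨k₀, hk₀, b₀, hb₀, hkb⟩ := hKB
  obtain ⟨s₀, hs₀, b₁, hb₁, hsb⟩ := hSB
  set O3 : Fin 3 → Set ℂ := ![OK, OB, OS] with hO3
  have hd : Pairwise fun i j => Disjoint (O3 i) (O3 j) := pw3 dKB dKS dBS
  have hc : ∀ j, ConnIn X (O3 j) := vec3 cK cB cS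
  have hne : ∀ j, (O3 j).Nonempty := vec3 ⟨k₀, hk₀⟩ ⟨b₀, hb₀⟩ ⟨s₀, hs₀⟩
  have hπ := fib_cmap hd hc hne
  set T := h.tri258 (cmap X O3) hπ with hT
  have hfinX : Finite X := h.fin.to_subtype
  have hfinF : Finite (Fc X b) := h.finite_Fc
  have hP : T.Planar := h.planar258 _ hπ
  have mK : ∀ u ∈ OK, cmap X O3 u = Sum.inl 0 := fun u hu => cmap_of_mem hd (j := 0) hu
  have mB : ∀ u ∈ OB, cmap X O3 u = Sum.inl 1 := fun u hu => cmap_of_mem hd (j := 1) hu
  have mS : ∀ u ∈ OS, cmap X O3 u = Sum.inl 2 := fun u hu => cmap_of_mem hd (j := 2) hu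
  have iK : ∀ u ∈ X, cmap X O3 u = Sum.inl 0 → u ∈ OK := fun u hu hh => mem_of_cmap hu hh
  have iB : ∀ u ∈ X, cmap X O3 u = Sum.inl 1 → u ∈ OB := fun u hu hh => mem_of_cmap hu hh
  have iS : ∀ u ∈ X, cmap X O3 u = Sum.inl 2 → u ∈ OS := fun u hu hh => mem_of_cmap hu hh
  -- the two darts
  obtain ⟨d₀, hd1, hd2⟩ := h.exists_dart hkb
  obtain ⟨eS, he1, he2⟩ := h.exists_dart hsb
  have sd₀ : T.src d₀ = Sum.inl 0 := by rw [hT, tri_src, hd1, mK _ hk₀]
  have td₀ : T.tgt d₀ = Sum.inl 1 := by rw [hT, tri_tgt, hd2, mB _ hb₀]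
  have seS : T.src eS = Sum.inl 2 := by rw [hT, tri_src, he1, mS _ hs₀]
  have teS : T.tgt eS = Sum.inl 1 := by rw [hT, tri_tgt, he2, mB _ hb₁]
  have n01 : (Sum.inl 0 : CV X O3) ≠ Sum.inl 1 := fun hh => by
    have := Sum.inl_injective hh; exact absurd this (by decide)
  have n02 : (Sum.inl 0 : CV X O3) ≠ Sum.inl 2 := fun hh => by
    have := Sum.inl_injective hh; exact absurd this (by decide)
  have n12 : (Sum.inl 1 : CV X O3) ≠ Sum.inl 2 := fun hh => by
    have := Sum.inl_injective hh; exact absurd this (by decide)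
  -- the walk
  obtain ⟨l, hl, hl'⟩ := walk_of_path h hπ (fun u v huv => (hR u v huv).1) hxy
  rw [mK _ hx, mS _ hy] at hl
  have hwB : ∀ g ∈ l, T.src g ≠ T.tgt d₀ ∧ T.tgt g ≠ T.tgt d₀ := by
    intro g hg
    obtain ⟨h1, h2, h3⟩ := hR _ _ (hl' g hg)
    rw [td₀, hT, tri_src, tri_tgt]
    exact ⟨fun hh => h2 (iB _ h1.1 hh), fun hh => h3 (iB _ h1.2.1 hh)⟩
  set σ : CV X O3 → Bool := fun v => decide (v ≠ Sum.inl 1) with hσ
  have hσ' : ∀ v, σ v = true ↔ v ≠ T.tgt d₀ := by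
    intro v
    rw [td₀]
    simp [hσ]
  obtain ⟨a, c, hac, ha, hc', hbet⟩ := reach hP (by rw [teS, td₀]) (by rw [sd₀, td₀]; exact n01)
    (by rw [sd₀, seS]; exact n02) (by rw [sd₀, seS]; exact hl) hwB hσ'
  set dd : ℕ → Fc X b × ZMod 3 := fun i => (T.st σ)^[i] d₀ with hdd
  rw [sd₀] at ha
  rw [seS] at hc'
  have hbi0 : T.Bi σ d₀ := by
    unfold Tri.Bi
    rw [(hσ' _).2 (by rw [sd₀, td₀]; exact n01), td₀]
    simp [hσ]
  have hbi : ∀ i, T.Bi σ (dd i) := fun i => (T.bi_iter i).2 hbi0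
  -- targets
  have htgt : ∀ i, T.tgt (dd i) = Sum.inl 1 := by
    intro i
    by_contra hh
    have h1 : σ (T.tgt (dd i)) = true := by simp [hσ, hh]
    have h2 := T.col_tgt_iter σ d₀ i
    have h3 : σ (T.tgt d₀) = false := by rw [td₀]; simp [hσ]
    have h4 : σ (T.tgt (dd i)) = σ (T.tgt d₀) := h2
    rw [h1, h3] at h4
    exact absurd h4 (by decide)
  have hhead : ∀ i, head (dd i) ∈ OB := fun i => by
    have h1 := htgt i
    rw [hT, tri_tgt] at h1
    exact iB _ (h.nbr_th (dd i)).2.1 h1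
  have hsrc1 : ∀ i, T.src (dd i) ≠ Sum.inl 1 := fun i hh => hbi i (by rw [hh, htgt i])
  -- steps
  have hstep : ∀ i, T.src (dd (i + 1)) = T.src (dd i) ∨
      T.src (dd (i + 1)) = cmap X O3 (vc (dd i).1 (dd i).2) := by
    intro i
    have h1 : dd (i + 1) = T.st σ (dd i) := by
      simp only [hdd]
      rw [iterate_succ', comp_apply]
    rw [h1]
    by_cases hm : T.Mi σ (dd i)
    · right
      rw [T.src_st_mi hm, hT, tri_apex]
    · left
      exact T.src_st_nmi (hbi i) hm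
  -- free sources
  have hfree : ∀ i, a < i → i < c → tail (dd i) ∉ OK ∧ tail (dd i) ∉ OB ∧ tail (dd i) ∉ OS ∧
      ∃ v : Free X O3, T.src (dd i) = Sum.inr v ∧ tail (dd i) = v.1 := by
    intro i hai hic
    obtain ⟨h1, h2⟩ := hbet i hai hic
    rw [sd₀] at h1
    rw [seS] at h2
    have h3 := hsrc1 i
    refine ⟨fun hh => h1 ?_, fun hh => h3 ?_, fun hh => h2 ?_, ?_⟩
    · show T.src (dd i) = _
      rw [hT, tri_src, mK _ hh]
    · rw [hT, tri_src, mB _ hh]
    · show T.src (dd i) = _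
      rw [hT, tri_src, mS _ hh]
    · cases hv : T.src (dd i) with
      | inl j =>
        exfalso
        fin_cases j
        · exact h1 hv
        · exact h3 hv
        · exact h2 hv
      | inr v => exact ⟨v, rfl, eq_of_cmap (X := X) (O := O3) hv⟩
  have key : ∀ i, a < i + 1 → i + 1 < c → tail (dd (i + 1)) = tail (dd i) ∨
      tail (dd (i + 1)) = vc (dd i).1 (dd i).2 := by
    intro i hai hic
    obtain ⟨h1, h2, h3, v, hv, hv'⟩ := hfree (i + 1) hai hic
    rcases hstep i with h4 | h4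
    · left
      rw [hv] at h4
      have h5 : tail (dd i) = v.1 := eq_of_cmap (X := X) (O := O3) h4.symm
      rw [h5, hv']
    · right
      rw [hv] at h4
      rw [eq_of_cmap (X := X) (O := O3) h4.symm, hv']
  set OP : Set ℂ := {z | ∃ i, a < i ∧ i < c ∧ z = tail (dd i)} with hOP
  have hnb : ∀ i, a < i → i + 1 < c → tail (dd (i + 1)) = tail (dd i) ∨
      nbr X (tail (dd (i + 1))) (tail (dd i)) := by
    intro i hai hic
    rcases key i (by omega) hic with h1 | h1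
    · exact Or.inl h1
    · right
      rw [h1]
      exact nbr_vc h (dd i)
  -- `c ≠ a + 1`
  have hac1 : a + 1 < c := by
    by_contra hcon
    have h1 : c = a + 1 := by omega
    rw [h1] at hc'
    rcases hstep a with h2 | h2
    · have h3 : T.src (dd (a + 1)) = Sum.inl 2 := hc'
      have h4 : T.src (dd a) = Sum.inl 0 := ha
      rw [h3, h4] at h2
      exact n02 h2.symm
    · have h3 : T.src (dd (a + 1)) = Sum.inl 2 := hc'
      rw [h3] at h2
      have h4 := nbr_vc h (dd a)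
      have h5 : vc (dd a).1 (dd a).2 ∈ OS := iS _ h4.1 h2.symm
      have h6 : tail (dd a) ∈ OK := iK _ h4.2.1 ha
      exact hKS _ h6 _ h5 (nbr_symm h4)
  refine ⟨OP, ⟨?_, ?_⟩, ⟨tail (dd (a + 1)), a + 1, by omega, hac1, rfl⟩, ?_, ?_, ?_, ?_, ?_, ?_⟩
  · rintro z ⟨i, h1, h2, rfl⟩
    exact (h.nbr_th (dd i)).1
  · have up : ∀ i, a < i → ∀ j, i ≤ j → j < c →
        Relation.ReflTransGen (fun u v => nbr X u v ∧ u ∈ OP ∧ v ∈ OP) (tail (dd i))
          (tail (dd j)) ∧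
        Relation.ReflTransGen (fun u v => nbr X u v ∧ u ∈ OP ∧ v ∈ OP) (tail (dd j))
          (tail (dd i)) := by
      intro i hai j hij
      induction j, hij using Nat.le_induction with
      | base => intro _; exact ⟨Relation.ReflTransGen.refl, Relation.ReflTransGen.refl⟩
      | succ j hij ih =>
        intro hjc
        obtain ⟨h1, h2⟩ := ih (by omega)
        have m1 : tail (dd j) ∈ OP := ⟨j, by omega, by omega, rfl⟩
        have m2 : tail (dd (j + 1)) ∈ OP := ⟨j + 1, by omega, hjc, rfl⟩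
        rcases hnb j (by omega) hjc with h3 | h3
        · rw [h3]; exact ⟨h1, h2⟩
        · exact ⟨h1.tail ⟨nbr_symm h3, m1, m2⟩, Relation.ReflTransGen.head ⟨h3, m2, m1⟩ h2⟩
    rintro z ⟨i, h1, h2, rfl⟩ w ⟨j, h3, h4, rfl⟩
    rcases le_total i j with h5 | h5
    · exact (up i h1 j h5 h4).1
    · exact (up j h3 i h5 h2).2
  · rw [Set.disjoint_left]
    rintro z hz ⟨i, h1, h2, rfl⟩
    exact (hfree i h1 h2).1 hz
  · rw [Set.disjoint_left]
    rintro z hz ⟨i, h1, h2, rfl⟩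
    exact (hfree i h1 h2).2.1 hz
  · rw [Set.disjoint_left]
    rintro z hz ⟨i, h1, h2, rfl⟩
    exact (hfree i h1 h2).2.2.1 hz
  · rintro z ⟨i, h1, h2, rfl⟩
    exact ⟨head (dd i), hhead i, h.nbr_th (dd i)⟩
  · refine ⟨dd a, iK _ (h.nbr_th (dd a)).1 ha, hhead a, a + 1, by omega, hac1, ?_⟩
    rcases key a (by omega) hac1 with h1 | h1
    · exfalso
      have h2 := (hfree (a + 1) (by omega) hac1).1
      rw [h1] at h2
      exact h2 (iK _ (h.nbr_th (dd a)).1 ha)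
    · exact h1.symm
  · refine ⟨dd (c - 1), ⟨c - 1, by omega, by omega, rfl⟩, hhead _, ?_⟩
    have h1 := hstep (c - 1)
    rw [Nat.sub_add_cancel (by omega : 1 ≤ c)] at h1
    have h2 : T.src (dd c) = Sum.inl 2 := hc'
    rw [h2] at h1
    rcases h1 with h3 | h3
    · exfalso
      have h4 := (hfree (c - 1) (by omega) (by omega)).2.2.1
      exact h4 (iS _ (h.nbr_th (dd (c - 1))).1 h3.symm)
    · exact iS _ (nbr_vc h (dd (c - 1))).1 h3.symm

include h in
/-- **The slit arm bound.** -/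
theorem slit_arm [Fintype (Fc X b × ZMod 3)] (cK : ConnIn X OK) (cB : ConnIn X OB)
    (cS : ConnIn X OS) (dKB : Disjoint OK OB) (dKS : Disjoint OK OS) (dBS : Disjoint OB OS)
    (hKB : ∃ u ∈ OK, ∃ v ∈ OB, nbr X u v) (hSB : ∃ u ∈ OS, ∃ v ∈ OB, nbr X u v)
    (hKS : ∀ u ∈ OK, ∀ v ∈ OS, ¬ nbr X u v)
    (hF : ∀ u, (u ∈ OB ∨ ∃ v ∈ OB, nbr X u v) → u ∉ OK → u ∉ OS → u ∈ F)
    {φ : ℂ → ℝ} (φK : ∀ u ∈ OK, φ u = 0) (φS : ∀ u ∈ OS, φ u = 1)
    (φB : ∀ u ∈ OB, (∃ v ∈ OK, nbr X u v) → φ u = 0) :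
    qpr X (fun W => ∃ x ∈ OK, ∃ y ∈ OS, Relation.ReflTransGen (AStep X OK OS F W) x y) ≤
      8 * ∑ q : Fc X b × ZMod 3, (φ (head q) - φ (tail q)) ^ 2 := by
  classical
  have hrhs : 0 ≤ 8 * ∑ q : Fc X b × ZMod 3, (φ (head q) - φ (tail q)) ^ 2 := by positivity
  by_cases hex : ∃ W, ∃ x ∈ OK, ∃ y ∈ OS, Relation.ReflTransGen (AStep X OK OS F W) x y
  swap
  · refine le_trans (le_of_eq ?_) hrhs
    unfold qpr
    have : {W | W ⊆ X ∧ ∃ x ∈ OK, ∃ y ∈ OS, Relation.ReflTransGen (AStep X OK OS F W) x y} = ∅ := by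
      ext W
      simp only [mem_ofPred_eq, mem_empty_iff_false, iff_false]
      rintro ⟨-, hW⟩
      exact hex ⟨W, hW⟩
    rw [this, Set.ncard_empty]
    simp
  obtain ⟨W₀, x₀, hx₀, y₀, hy₀, hxy₀⟩ := hex
  have hBF : ∀ u ∈ OB, u ∈ F := fun u hu => hF u (Or.inl hu)
    (fun hh => Set.disjoint_left.1 dKB hh hu) (fun hh => Set.disjoint_left.1 dBS hu hh)
  obtain ⟨OP, cP, ⟨p₀, hp₀⟩, dKP, dBP, dSP, hPB, ⟨f₀, f01, f02, f03⟩, ⟨f₁, f11, f12, f13⟩⟩ :=
    exists_lower h cK cB cS dKB dKS dBS hKB hSB hKS (R := AStep X OK OS F W₀)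
      (fun u v huv => ⟨huv.1, fun hh => huv.2.1.1 (hBF u hh), fun hh => huv.2.2.1 (hBF v hh)⟩)
      hx₀ hy₀ hxy₀
  have hPF : ∀ u ∈ OP, u ∈ F := fun u hu => hF u (Or.inr (hPB u hu))
    (fun hh => Set.disjoint_left.1 dKP hh hu) (fun hh => Set.disjoint_left.1 dSP hh hu)
  obtain ⟨k₀, hk₀, b₀, hb₀, hkb⟩ := hKB
  obtain ⟨s₀, hs₀, b₁, hb₁, hsb⟩ := hSB
  set O4 : Fin 4 → Set ℂ := ![OK, OB, OS, OP] with hO4
  have hd : Pairwise fun i j => Disjoint (O4 i) (O4 j) := pw4 dKB dKS dBS dKP dBP dSP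
  have hc : ∀ j, ConnIn X (O4 j) := vec4 cK cB cS cP
  have hne : ∀ j, (O4 j).Nonempty := vec4 ⟨k₀, hk₀⟩ ⟨b₀, hb₀⟩ ⟨s₀, hs₀⟩ ⟨p₀, hp₀⟩
  have hπ := fib_cmap hd hc hne
  set T := h.tri258 (cmap X O4) hπ with hT
  have hfinX : Finite X := h.fin.to_subtype
  have hP : T.Planar := h.planar258 _ hπ
  have mK : ∀ u ∈ OK, cmap X O4 u = Sum.inl 0 := fun u hu => cmap_of_mem hd (j := 0) hu
  have mB : ∀ u ∈ OB, cmap X O4 u = Sum.inl 1 := fun u hu => cmap_of_mem hd (j := 1) hu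
  have mS : ∀ u ∈ OS, cmap X O4 u = Sum.inl 2 := fun u hu => cmap_of_mem hd (j := 2) hu
  have mP : ∀ u ∈ OP, cmap X O4 u = Sum.inl 3 := fun u hu => cmap_of_mem hd (j := 3) hu
  have iK : ∀ u ∈ X, cmap X O4 u = Sum.inl 0 → u ∈ OK := fun u hu hh => mem_of_cmap hu hh
  have iB : ∀ u ∈ X, cmap X O4 u = Sum.inl 1 → u ∈ OB := fun u hu hh => mem_of_cmap hu hh
  have iS : ∀ u ∈ X, cmap X O4 u = Sum.inl 2 → u ∈ OS := fun u hu hh => mem_of_cmap hu hh
  have iP : ∀ u ∈ X, cmap X O4 u = Sum.inl 3 → u ∈ OP := fun u hu hh => mem_of_cmap hu hh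
  have ne : ∀ i j : Fin 4, i ≠ j → (Sum.inl i : CV X O4) ≠ Sum.inl j := fun i j hij hh =>
    hij (Sum.inl_injective hh)
  -- the two faces
  set e₂ := T.nxt (T.nxt f₁) with he₂
  set e₁ := T.nxt f₀ with he₁
  have s2 : T.src e₂ = Sum.inl 2 := by
    rw [he₂, T.src_nxt2, hT, tri_apex, mS _ f13]
  have t2 : T.tgt e₂ = Sum.inl 3 := by
    rw [he₂, T.tgt_nxt2, hT, tri_src, mP _ f11]
  have a2 : T.apex e₂ = Sum.inl 1 := by
    rw [he₂, T.apex_nxt2, hT, tri_tgt, mB _ f12]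
  have s1 : T.src e₁ = Sum.inl 1 := by
    rw [he₁, T.src_nxt', hT, tri_tgt, mB _ f02]
  have t1 : T.tgt e₁ = Sum.inl 3 := by
    rw [he₁, T.tgt_nxt, hT, tri_apex, mP _ f03]
  have a1 : T.apex e₁ = Sum.inl 0 := by
    rw [he₁, T.apex_nxt, hT, tri_src, mK _ f01]
  have g2 : T.Good e₂ := by
    refine ⟨?_, ?_, ?_⟩
    · rw [s2, t2]; exact ne _ _ (by decide)
    · rw [t2, a2]; exact ne _ _ (by decide)
    · rw [a2, s2]; exact ne _ _ (by decide)
  have g1 : T.Good e₁ := by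
    refine ⟨?_, ?_, ?_⟩
    · rw [s1, t1]; exact ne _ _ (by decide)
    · rw [t1, a1]; exact ne _ _ (by decide)
    · rw [a1, s1]; exact ne _ _ (by decide)
  set ψ : Fc X b × ZMod 3 → ℝ := fun q => φ (tail q) with hψ
  have hcmp : Cmp T e₂ ψ := by
    intro d e hde n1 n2 n3
    rw [s2] at n1
    rw [t2] at n2
    rw [a2] at n3
    have hde' : cmap X O4 (tail d) = cmap X O4 (tail e) := hde
    cases hv : T.src d with
    | inl j =>
      have hj : j = 0 := by
        fin_cases j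
        · rfl
        · exact absurd hv n3
        · exact absurd hv n1
        · exact absurd hv n2
      subst hj
      have h1 : tail d ∈ OK := iK _ (h.nbr_th d).1 hv
      have h2 : tail e ∈ OK := iK _ (h.nbr_th e).1 (hde'.symm.trans hv)
      show φ (tail d) = φ (tail e)
      rw [φK _ h1, φK _ h2]
    | inr v =>
      have h1 : tail d = v.1 := eq_of_cmap (X := X) (O := O4) hv
      have h2 : tail e = v.1 := eq_of_cmap (X := X) (O := O4) (hde'.symm.trans hv)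
      show φ (tail d) = φ (tail e)
      rw [h1, h2]
  have hψ1 : ψ e₁ = 0 := by
    have h1 : tail e₁ = head f₀ := HullTri.tail_next f₀
    show φ (tail e₁) = 0
    rw [h1]
    exact φB _ f02 ⟨tail f₀, f01, nbr_symm (h.nbr_th f₀)⟩
  have hψS : ∀ d, T.src d = T.src e₂ → ψ d = 1 := by
    intro d hd'
    rw [s2] at hd'
    exact φS _ (iS _ (h.nbr_th d).1 hd')
  have hfinF : Finite (Free X O4) := inferInstance
  have := Fintype.ofFinite (Free X O4)
  have hmain := arm_le hP g2 g1 (by rw [s1, a2]) (by rw [t1, t2]) (by rw [a1, s2]; exact ne _ _ (by decide))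
    hcmp hψ1 hψS true
  rw [t2, a2, a1, s2] at hmain
  -- the energy
  have hdir : dir T ψ ≤ ∑ q : Fc X b × ZMod 3, (φ (head q) - φ (tail q)) ^ 2 := by
    unfold dir
    refine Finset.sum_le_sum fun q _ => ?_
    have h1 : tail (T.nxt q) = head q := HullTri.tail_next q
    split_ifs
    · show (φ (tail (T.nxt q)) - φ (tail q)) ^ 2 ≤ _
      rw [h1]
    · positivity
  -- the free points
  set G : Set ℂ := {x | x ∈ X ∧ ∀ j, x ∉ O4 j} with hG
  have hGX : G ⊆ X := fun x hx => hx.1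
  have hGfin : G.Finite := h.fin.subset hGX
  set Q : Set ℂ → Prop := fun W => ∃ x ∈ OK, ∃ y ∈ OS,
    Relation.ReflTransGen (AStep X OK OS F W) x y with hQ
  have hQG : ∀ W ⊆ X, Q W ↔ Q (W ∩ G) := by
    have h0 : ∀ W ⊆ X, ∀ u, u ∉ F → u ∈ W → u ∈ OK ∨ u ∈ OS ∨ u ∈ G := by
      intro W hW u hu huW
      by_cases h1 : u ∈ OK
      · exact Or.inl h1
      by_cases h2 : u ∈ OS
      · exact Or.inr (Or.inl h2)
      right; right
      refine ⟨hW huW, ?_⟩
      exact vec4 (P := fun S => u ∉ S) h1 (fun hh => hu (hBF u hh)) h2 (fun hh => hu (hPF u hh))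
    intro W hW
    constructor
    · rintro ⟨x, hx, y, hy, hxy⟩
      refine ⟨x, hx, y, hy, Relation.ReflTransGen.mono ?_ _ _ hxy⟩
      rintro u v ⟨h1, ⟨h2, h3⟩, ⟨h4, h5⟩⟩
      refine ⟨h1, ⟨h2, ?_⟩, ⟨h4, ?_⟩⟩
      · rcases h3 with h3 | h3
        · rcases h0 W hW u h2 h3 with h6 | h6 | h6
          · exact Or.inr (Or.inl h6)
          · exact Or.inr (Or.inr h6)
          · exact Or.inl ⟨h3, h6⟩
        · exact Or.inr h3
      · rcases h5 with h5 | h5
        · rcases h0 W hW v h4 h5 with h6 | h6 | h6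
          · exact Or.inr (Or.inl h6)
          · exact Or.inr (Or.inr h6)
          · exact Or.inl ⟨h5, h6⟩
        · exact Or.inr h5
    · rintro ⟨x, hx, y, hy, hxy⟩
      refine ⟨x, hx, y, hy, Relation.ReflTransGen.mono ?_ _ _ hxy⟩
      rintro u v ⟨h1, ⟨h2, h3⟩, ⟨h4, h5⟩⟩
      refine ⟨h1, ⟨h2, ?_⟩, ⟨h4, ?_⟩⟩
      · rcases h3 with h3 | h3
        · exact Or.inl h3.1
        · exact Or.inr h3
      · rcases h5 with h5 | h5
        · exact Or.inl h5.1
        · exact Or.inr h5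
  have hq1 : qpr X Q = qpr G Q := by
    rw [← qpr_restrict h.fin hGX Q]
    exact qpr_congr hQG
  set ix : G → CV X O4 := fun x => Sum.inr ⟨x.1, x.2⟩ with hix
  have hixi : Injective ix := by
    intro x y hxy
    have h1 := Sum.inr_injective hxy
    exact Subtype.ext (congrArg (fun v : Free X O4 => v.1) h1)
  have hcard := qpr_inj hGfin hixi Q
  have hle : (Nat.card {σ : CV X O4 → Bool // Q {x | ∃ hx : x ∈ G, σ (ix ⟨x, hx⟩) = true}} : ℝ) ≤
      ∑ σ : CV X O4 → Bool, (if ∃ l, IsArm T true (Sum.inl 3) (Sum.inl 1) (Sum.inl 0) (Sum.inl 2) σ l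
        then (1 : ℝ) else 0) := by
    rw [Nat.card_eq_fintype_card, Fintype.card_subtype, Finset.card_filter]
    push_cast
    refine Finset.sum_le_sum fun σ _ => ?_
    by_cases h1 : Q {x | ∃ hx : x ∈ G, σ (ix ⟨x, hx⟩) = true}
    · rw [if_pos h1, if_pos]
      obtain ⟨x, hx, y, hy, hxy⟩ := h1
      obtain ⟨l, hl, hl'⟩ := walk_of_path h hπ (fun u v huv => huv.1) hxy
      rw [mK _ hx, mS _ hy] at hl
      refine ⟨l, hl, fun g hg => ?_, fun g hg => ?_⟩
      · obtain ⟨h2, ⟨h3, h4⟩, ⟨h5, h6⟩⟩ := hl' g hg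
        rw [hT, tri_src, tri_tgt]
        refine ⟨fun hh => h3 (hPF _ (iP _ h2.1 hh)), fun hh => h3 (hBF _ (iB _ h2.1 hh)),
          fun hh => h5 (hPF _ (iP _ h2.2.1 hh)), fun hh => h5 (hBF _ (iB _ h2.2.1 hh))⟩
      · obtain ⟨h2, ⟨h3, h4⟩, ⟨h5, h6⟩⟩ := hl' g hg
        rw [hT, tri_src, tri_tgt]
        have hcol : ∀ u, (u ∈ {x | ∃ hx : x ∈ G, σ (ix ⟨x, hx⟩) = true} ∨ u ∈ OK ∨ u ∈ OS) →
            (cmap X O4 u = Sum.inl 0 ∨ cmap X O4 u = Sum.inl 2 ∨ σ (cmap X O4 u) = true) := by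
          rintro u (⟨hu, hu'⟩ | hu | hu)
          · right; right
            rw [cmap_of_free hu.1 hu.2]
            exact hu'
          · exact Or.inl (mK _ hu)
          · exact Or.inr (Or.inl (mS _ hu))
        exact ⟨hcol _ h4, hcol _ h6⟩
    · rw [if_neg h1]
      split_ifs <;> norm_num
  have h2c : (0 : ℝ) < 2 ^ Fintype.card (CV X O4) := by positivity
  rw [hcard] at hle
  have hmain' : ∑ σ : CV X O4 → Bool,
      (if ∃ l, IsArm T true (Sum.inl 3) (Sum.inl 1) (Sum.inl 0) (Sum.inl 2) σ l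
        then (1 : ℝ) else 0) ≤ 2 ^ Fintype.card (CV X O4) * (8 * dir T ψ) := by
    refine le_of_eq_of_le ?_ hmain
    congr
    exact Subsingleton.elim _ _
  have h3 := hle.trans hmain'
  rw [hq1]
  have h4 := le_of_mul_le_mul_left h3 h2c
  linarith

end Main

end Vale.Agent.P148.R2.H320
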